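import Claimed.Agent.R315.Pack004
import Claimed.Agent.R315.Pack003

/-!
# Row 315, packets: threshold functions, tolerance functions, blending on a diagram

All "locally uniform over `V`" thresholds are replaced by ONE smooth function `T : V → ℝ`, `T ≥ 0`,
composed with `q` (`DThr` for the tails of the diagram, `Thr` for a compatible datum); the regions
`{z | T (q z) < |t i z|}` are open.  All tolerances are functions `κ ∘ q` (`pk_exists_tol`, P Lemma A.4
"compatible smooth positive functions arbitrarily small").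

* `pk_exists_majorant`, `pk_thr_of_local`, `IsDiag.exists_thr`, `Compat.exists_thr` (PROVED)
* `DThr.dropS_mem`, `Thr.dropS` (PROVED)
* `pkBlend_sc`, `pkBlend_cc`: the blend of arbitrary individual smooth (continuous) choices is `SC` (`CC`)
  (PROVED, by the extension lemma of IF)
* `pk_urysohn`: compatible smooth Urysohn functions (replaces the last assertion of P Lemma A.4).
-/

set_option autoImplicit false
set_option linter.unusedSectionVars false
open scoped ContDiff Topology Manifold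
open MeasureTheory Claims.C0499

namespace Claimed.Agent.R315

variable {V W : Type} [NormedAddCommGroup V] [NormedSpace ℝ V] [NormedAddCommGroup W]
  [NormedSpace ℝ W] {ι : Type}

/-! ### smooth majorants and tolerances on `V` -/

/-- a locally bounded function has a smooth majorant. -/
theorem pk_exists_majorant [FiniteDimensional ℝ V] {b : V → ℝ}
    (hb : ∀ K : Set V, IsCompact K → ∃ C : ℝ, ∀ x ∈ K, b x ≤ C) :
    ∃ T : V → ℝ, ContDiff ℝ ∞ T ∧ (∀ x, 0 ≤ T x) ∧ ∀ x, b x ≤ T x := by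
  obtain ⟨g, hg⟩ := exists_contMDiffMap_forall_mem_convex_of_local_const (n := (⊤ : ℕ∞)) 𝓘(ℝ, V)
    (t := fun x => Set.Ici (max (b x) 0)) (fun x => convex_Ici _) (fun x => by
      obtain ⟨C, hC⟩ := hb (Metric.closedBall x 1) (isCompact_closedBall x 1)
      refine ⟨max C 0, ?_⟩
      filter_upwards [Metric.closedBall_mem_nhds x one_pos] with y hy
      exact max_le_max (hC y hy) le_rfl)
  exact ⟨g, g.contMDiff.contDiff, fun x => le_trans (le_max_right _ _) (hg x),
    fun x => le_trans (le_max_left _ _) (hg x)⟩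

/-- **Tolerance functions** (P Lemma A.4): a function which is locally bounded below by positive
constants has a smooth positive minorant with small derivatives up to any fixed order.
PLAN: `U k = ball 0 (k+2) \ closedBall 0 k` (`U 0 = ball 0 2`), smooth partition of unity `χ k` subordinate
to it (`if_exists_pou_closed` with `s = univ`), compact supports, `A k` = bound of
`‖iteratedFDeriv ℝ j (χ k) x‖`, `j ≤ m`; `δ k` = lower bound of `b` on `closedBall 0 (k+2)`;
`κ = ∑ᶠ k, c k * χ k`, `c k = δ k / (4 * (1 + A k))`; at most two `U k` contain a given point. -/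
theorem pk_exists_tol [FiniteDimensional ℝ V] {b : V → ℝ}
    (hb : ∀ K : Set V, IsCompact K → ∃ δ : ℝ, 0 < δ ∧ ∀ x ∈ K, δ ≤ b x) (m : ℕ) :
    ∃ κ : V → ℝ, ContDiff ℝ ∞ κ ∧ (∀ x, 0 < κ x) ∧
      ∀ x, ∀ j ≤ m, ‖iteratedFDeriv ℝ j κ x‖ ≤ b x := by
  classical
  have hbpos : ∀ x, 0 < b x := fun x => by
    obtain ⟨δ, hδ, h⟩ := hb {x} isCompact_singleton
    exact hδ.trans_le (h x rfl)
  let f : ℕ → ContDiffBump (0 : V) := fun k => ⟨k + 1, k + 2, by positivity, by linarith⟩
  let F : ℕ → V → ℝ := fun k => Nat.casesOn k (fun _ => 0) (fun k => f k)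
  have hF0 : F 0 = fun _ => 0 := rfl
  have hFs : ∀ k, F (k + 1) = f k := fun k => rfl
  have hFc : ∀ k, ContDiff ℝ ∞ (F k) := by
    intro k
    cases k with
    | zero => rw [hF0]; exact contDiff_const
    | succ k => rw [hFs]; exact (f k).contDiff
  have hF1 : ∀ (k : ℕ) (x : V), 1 ≤ k → ‖x‖ ≤ (k : ℝ) → F k x = 1 := by
    intro k x hk hx
    cases k with
    | zero => omega
    | succ k =>
      rw [hFs]
      refine (f k).one_of_mem_closedBall ?_
      rw [mem_closedBall_zero_iff]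
      push_cast at hx
      exact hx
  have hFz : ∀ (k : ℕ) (x : V), (k : ℝ) + 1 ≤ ‖x‖ → F k x = 0 := by
    intro k x hx
    cases k with
    | zero => rw [hF0]
    | succ k =>
      rw [hFs]
      refine (f k).zero_of_le_dist ?_
      rw [dist_zero_right]
      push_cast at hx
      change (k : ℝ) + 2 ≤ ‖x‖
      linarith
  have hFn : ∀ k x, 0 ≤ F k x := by
    intro k x
    cases k with
    | zero => rw [hF0]
    | succ k => rw [hFs]; exact (f k).nonneg
  have hFl : ∀ k x, F k x ≤ 1 := by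
    intro k x
    cases k with
    | zero => rw [hF0]; exact zero_le_one
    | succ k => rw [hFs]; exact (f k).le_one
  set ψ : ℕ → V → ℝ := fun k x => F (k + 1) x - F k x with hψdef
  have hψc : ∀ k, ContDiff ℝ ∞ (ψ k) := fun k => (hFc (k + 1)).sub (hFc k)
  have hψn : ∀ k x, 0 ≤ ψ k x := by
    intro k x
    rcases le_or_gt ‖x‖ ((k : ℝ) + 1) with h | h
    · have := hF1 (k + 1) x (by omega) (by push_cast; exact h)
      have h2 := hFl k x
      simp only [hψdef]
      linarith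
    · have := hFz k x h.le
      have h2 := hFn (k + 1) x
      simp only [hψdef]
      linarith
  have hψin : ∀ (k : ℕ) (x : V), ‖x‖ < (k : ℝ) → ψ k x = 0 := by
    intro k x hx
    have hk : 1 ≤ k := by
      rcases Nat.eq_zero_or_pos k with rfl | h
      · simp only [Nat.cast_zero] at hx
        exact absurd hx (not_lt.2 (norm_nonneg x))
      · exact h
    simp only [hψdef]
    rw [hF1 (k + 1) x (by omega) (by push_cast; linarith), hF1 k x hk hx.le, sub_self]
  have hψout : ∀ (k : ℕ) (x : V), (k : ℝ) + 2 ≤ ‖x‖ → ψ k x = 0 := by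
    intro k x hx
    simp only [hψdef]
    rw [hFz (k + 1) x (by push_cast; linarith), hFz k x (by linarith), sub_self]
  have hψcs : ∀ k, HasCompactSupport (ψ k) := fun k =>
    HasCompactSupport.intro (isCompact_closedBall (0 : V) ((k : ℝ) + 2)) fun x hx => by
      rw [mem_closedBall_zero_iff, not_le] at hx
      exact hψout k x hx.le
  have hA : ∀ k, ∃ A : ℝ, 0 ≤ A ∧ ∀ j ≤ m, ∀ x, ‖iteratedFDeriv ℝ j (ψ k) x‖ ≤ A := by
    intro k
    have h1 : ∀ j : ℕ, ∃ C : ℝ, ∀ x, ‖iteratedFDeriv ℝ j (ψ k) x‖ ≤ C := fun j =>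
      ((hψc k).continuous_iteratedFDeriv (by exact_mod_cast le_top)).bounded_above_of_compact_support
        ((hψcs k).iteratedFDeriv j)
    choose C hC using h1
    have hC0 : ∀ j, 0 ≤ C j := fun j => (norm_nonneg _).trans (hC j 0)
    refine ⟨∑ j ∈ Finset.range (m + 1), C j, Finset.sum_nonneg fun j _ => hC0 j, fun j hj x => ?_⟩
    exact (hC j x).trans (Finset.single_le_sum (f := C) (fun i _ => hC0 i)
      (Finset.mem_range.2 (by omega)))
  choose A hA0 hA using hA
  choose δ hδ hδb using fun k : ℕ => hb (Metric.closedBall (0 : V) ((k : ℝ) + 2))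
    (isCompact_closedBall _ _)
  set c : ℕ → ℝ := fun k => δ k / (2 ^ (k + 1) * (1 + A k)) with hcdef
  have hcpos : ∀ k, 0 < c k := fun k => div_pos (hδ k) (mul_pos (by positivity)
    (by linarith [hA0 k]))
  have hterm : ∀ k x, ∀ j ≤ m, c k * ‖iteratedFDeriv ℝ j (ψ k) x‖ ≤ b x * (1 / 2) ^ (k + 1) := by
    intro k x j hj
    rcases le_or_gt ‖x‖ ((k : ℝ) + 2) with h | h
    · have h1 := hA k j hj x
      have h2 := hδb k x (by rwa [mem_closedBall_zero_iff])
      have h3 : c k * A k ≤ δ k * (1 / 2) ^ (k + 1) := by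
        simp only [hcdef]
        rw [div_mul_eq_mul_div, div_le_iff₀ (mul_pos (by positivity) (by linarith [hA0 k]))]
        have e : δ k * (1 / 2) ^ (k + 1) * (2 ^ (k + 1) * (1 + A k)) = δ k * (1 + A k) := by
          rw [one_div, inv_pow]
          field_simp
        rw [e]
        nlinarith [hδ k, hA0 k]
      calc c k * ‖iteratedFDeriv ℝ j (ψ k) x‖ ≤ c k * A k :=
            mul_le_mul_of_nonneg_left h1 (hcpos k).le
        _ ≤ δ k * (1 / 2) ^ (k + 1) := h3
        _ ≤ b x * (1 / 2) ^ (k + 1) := mul_le_mul_of_nonneg_right h2 (by positivity)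
    · have h0 : ψ k =ᶠ[𝓝 x] fun _ => 0 := by
        have : ∀ᶠ y in 𝓝 x, (k : ℝ) + 2 < ‖y‖ := continuous_norm.continuousAt.eventually
          (lt_mem_nhds h)
        filter_upwards [this] with y hy
        exact hψout k y hy.le
      rw [(Filter.EventuallyEq.iteratedFDeriv ℝ h0 j).eq_of_nhds]
      have : iteratedFDeriv ℝ j (fun _ : V => (0 : ℝ)) x = 0 := by
        simp
      rw [this, norm_zero, mul_zero]
      exact mul_nonneg (hbpos x).le (by positivity)
  set S : ℕ → V → ℝ := fun N x => ∑ k ∈ Finset.range N, c k • ψ k x with hSdef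
  have hSc : ∀ N, ContDiff ℝ ∞ (S N) := fun N =>
    ContDiff.sum fun k _ => (hψc k).const_smul (c k)
  set κ : V → ℝ := fun x => ∑' k, c k • ψ k x with hκdef
  have hκS : ∀ (N : ℕ) (x : V), ‖x‖ < (N : ℝ) → κ x = S N x := by
    intro N x hx
    refine tsum_eq_sum fun k hk => ?_
    rw [Finset.mem_range, not_lt] at hk
    rw [hψin k x (hx.trans_le (by exact_mod_cast hk)), smul_zero]
  have hev : ∀ x : V, ∃ N : ℕ, ‖x‖ < N ∧ κ =ᶠ[𝓝 x] S N := by
    intro x
    obtain ⟨N, hN⟩ := exists_nat_gt ‖x‖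
    refine ⟨N, hN, ?_⟩
    have : ∀ᶠ y in 𝓝 x, ‖y‖ < N := continuous_norm.continuousAt.eventually (gt_mem_nhds hN)
    filter_upwards [this] with y hy
    exact hκS N y hy
  refine ⟨κ, contDiff_iff_contDiffAt.2 fun x => ?_, fun x => ?_, fun x j hj => ?_⟩
  · obtain ⟨N, -, hN⟩ := hev x
    exact (hSc N).contDiffAt.congr_of_eventuallyEq hN
  · obtain ⟨N, hN, -⟩ := hev x
    rw [hκS N x hN]
    have hN1 : 1 ≤ N := by
      rcases Nat.eq_zero_or_pos N with rfl | h
      · simp only [Nat.cast_zero] at hN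
        exact absurd hN (not_lt.2 (norm_nonneg x))
      · exact h
    have hsum : ∑ k ∈ Finset.range N, ψ k x = 1 := by
      simp only [hψdef]
      rw [Finset.sum_range_sub (fun k => F k x), hF1 N x hN1 hN.le, hF0, sub_zero]
    have hex : ∃ k ∈ Finset.range N, 0 < ψ k x := by
      by_contra hcon
      push Not at hcon
      have : ∑ k ∈ Finset.range N, ψ k x ≤ 0 := Finset.sum_nonpos hcon
      linarith
    obtain ⟨k, hk, hkpos⟩ := hex
    exact Finset.sum_pos' (fun i _ => smul_nonneg (hcpos i).le (hψn i x))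
      ⟨k, hk, smul_pos (hcpos k) hkpos⟩
  · obtain ⟨N, -, hN⟩ := hev x
    rw [(Filter.EventuallyEq.iteratedFDeriv ℝ hN j).eq_of_nhds]
    simp only [hSdef]
    rw [iteratedFDeriv_fun_sum_apply (fun k _ =>
      (((hψc k).const_smul (c k)).of_le (by exact_mod_cast le_top)).contDiffAt)]
    refine (norm_sum_le _ _).trans ?_
    have h1 : ∀ k ∈ Finset.range N, ‖iteratedFDeriv ℝ j (fun z => c k • ψ k z) x‖ ≤
        b x * (1 / 2) ^ (k + 1) := by
      intro k _
      rw [iteratedFDeriv_const_smul_apply' ((hψc k).of_le (by exact_mod_cast le_top)).contDiffAt,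
        norm_smul, Real.norm_eq_abs, abs_of_pos (hcpos k)]
      exact hterm k x j hj
    refine (Finset.sum_le_sum h1).trans ?_
    rw [← Finset.mul_sum]
    have h2 : ∑ k ∈ Finset.range N, ((1 : ℝ) / 2) ^ (k + 1) ≤ 1 := by
      have h3 : ∀ N : ℕ, ∑ k ∈ Finset.range N, ((1 : ℝ) / 2) ^ (k + 1) = 1 - (1 / 2) ^ N := by
        intro N
        induction N with
        | zero => simp
        | succ N ih => rw [Finset.sum_range_succ, ih]; ring
      rw [h3]
      have : (0 : ℝ) ≤ (1 / 2) ^ N := by positivity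
      linarith
    calc b x * ∑ k ∈ Finset.range N, ((1 : ℝ) / 2) ^ (k + 1) ≤ b x * 1 :=
          mul_le_mul_of_nonneg_left h2 (hbpos x).le
      _ = b x := mul_one _

/-- from thresholds which are uniform on compact sets to a threshold function. -/
theorem pk_thr_of_local [FiniteDimensional ℝ V] {Pr : ℝ → V → Prop}
    (hmono : ∀ R R' x, R ≤ R' → Pr R x → Pr R' x)
    (h : ∀ K : Set V, IsCompact K → ∃ R : ℝ, ∀ x ∈ K, Pr R x) :
    ∃ T : V → ℝ, ContDiff ℝ ∞ T ∧ (∀ x, 0 ≤ T x) ∧ ∀ x, Pr (T x) x := by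
  choose R hR using fun k : ℕ => h (Metric.closedBall 0 k) (isCompact_closedBall 0 k)
  obtain ⟨T, hTs, hT0, hT⟩ := pk_exists_majorant (b := fun x : V => R ⌈‖x‖⌉₊) (by
    intro K hK
    obtain ⟨C, hC⟩ := hK.isBounded.exists_norm_le
    obtain ⟨D, hD⟩ := ((Finset.range (⌈C⌉₊ + 1)).image R).bddAbove
    refine ⟨D, fun x hx => hD ?_⟩
    simp only [Finset.coe_image, Set.mem_image, Finset.mem_coe, Finset.mem_range]
    exact ⟨_, Nat.lt_succ_of_le (Nat.ceil_mono (hC x hx)), rfl⟩)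
  refine ⟨T, hTs, hT0, fun x => hmono _ _ x (hT x) (hR _ x ?_)⟩
  rw [mem_closedBall_zero_iff]
  exact Nat.le_ceil _

/-! ### threshold functions -/

/-- `T` is a threshold function for the tails of the diagram. -/
def DThr (F : Frame V W ι) (E : Stat ι → Set W) (T : V → ℝ) : Prop :=
  ∀ (i : ι) (α : Stat ι), α i ≠ 0 → ∀ z : W, T (F.q z) < (α i : ℝ) * F.t i z →
    (z ∈ E α ↔ F.drop i z ∈ E (α.face i))

/-- `T` is a threshold function for the datum `φ`. -/
def Thr (F : Frame V W ι) (E : Stat ι → Set W) {X : Type} (φ : W → X) (T : V → ℝ) : Prop :=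
  ∀ i, ∀ z ∈ tot E, T (F.q z) < |F.t i z| → φ (F.drop i z) = φ z

theorem DThr.mono {F : Frame V W ι} {E : Stat ι → Set W} {T T' : V → ℝ} (h : DThr F E T)
    (hTT : ∀ x, T x ≤ T' x) : DThr F E T' :=
  fun i α hα z hz => h i α hα z (lt_of_le_of_lt (hTT _) hz)

theorem Thr.mono {F : Frame V W ι} {E : Stat ι → Set W} {X : Type} {φ : W → X} {T T' : V → ℝ}
    (h : Thr F E φ T) (hTT : ∀ x, T x ≤ T' x) : Thr F E φ T' :=
  fun i z hz hlt => h i z hz (lt_of_le_of_lt (hTT _) hlt)

theorem Thr.compat {F : Frame V W ι} {E : Stat ι → Set W} {X : Type} {φ : W → X} {T : V → ℝ}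
    (h : Thr F E φ T) (hT : Continuous T) : Compat F E φ := by
  intro i K hK
  obtain ⟨C, hC⟩ := (hK.image hT).bddAbove
  exact ⟨C, fun z hz hq hlt => h i z hz (lt_of_le_of_lt (hC ⟨_, hq, rfl⟩) hlt)⟩

theorem IsDiag.exists_thr [FiniteDimensional ℝ V] [Fintype ι] {n : ℕ} {M : Set V}
    {F : Frame V W ι} {E : Stat ι → Set W} (hD : IsDiag n M F E) :
    ∃ T : V → ℝ, ContDiff ℝ ∞ T ∧ (∀ x, 0 ≤ T x) ∧ DThr F E T := by
  obtain ⟨T, h1, h2, h3⟩ := pk_thr_of_local
    (Pr := fun R x => ∀ (i : ι) (α : Stat ι), α i ≠ 0 → ∀ z : W, F.q z = x →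
      R < (α i : ℝ) * F.t i z → (z ∈ E α ↔ F.drop i z ∈ E (α.face i)))
    (fun R R' x hRR h i α hα z hz hlt => h i α hα z hz (lt_of_le_of_lt hRR hlt))
    (fun K hK => by
      obtain ⟨R, hR⟩ := hD.exists_tail hK
      exact ⟨R, fun x hx i α hα z hz hlt => hR i α hα z (hz ▸ hx) hlt⟩)
  exact ⟨T, h1, h2, fun i α hα z hlt => h3 (F.q z) i α hα z rfl hlt⟩

theorem Compat.exists_thr [FiniteDimensional ℝ V] [Fintype ι] {F : Frame V W ι}
    {E : Stat ι → Set W} {X : Type} {φ : W → X} (h : Compat F E φ) :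
    ∃ T : V → ℝ, ContDiff ℝ ∞ T ∧ (∀ x, 0 ≤ T x) ∧ Thr F E φ T := by
  obtain ⟨T, h1, h2, h3⟩ := pk_thr_of_local
    (Pr := fun R x => ∀ i, ∀ z ∈ tot E, F.q z = x → R < |F.t i z| → φ (F.drop i z) = φ z)
    (fun R R' x hRR h i z hz hq hlt => h i z hz hq (lt_of_le_of_lt hRR hlt))
    (fun K hK => by
      obtain ⟨R, hR⟩ := h.exists_threshold hK
      exact ⟨R, fun x hx i z hz hq hlt => hR i z hz (hq ▸ hx) hlt⟩)
  exact ⟨T, h1, h2, fun i z hz hlt => h3 (F.q z) i z hz rfl hlt⟩

/-! ### iterated faces -/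

open Classical in
/-- the face of `α` in the entries of `S`. -/
noncomputable def Stat.faceS (α : Stat ι) (S : Finset ι) : Stat ι := fun i => if i ∈ S then 0 else α i

theorem Stat.faceS_empty (α : Stat ι) : α.faceS ∅ = α := by
  funext i; simp [Stat.faceS]

theorem Stat.faceS_insert [DecidableEq ι] (α : Stat ι) (i : ι) (S : Finset ι) :
    (α.face i).faceS S = α.faceS (insert i S) := by
  funext j
  by_cases hj : j = i
  · subst hj
    by_cases hS : j ∈ S <;> simp [Stat.faceS, Stat.face, hS]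
  · by_cases hS : j ∈ S
    · simp [Stat.faceS, hS]
    · simp [Stat.faceS, Stat.face, hS, hj]

section diag

variable [Fintype ι] {n : ℕ} {M : Set V} {F : Frame V W ι} {E : Stat ι → Set W}

theorem DThr.drop_mem (hD : IsDiag n M F E) {T : V → ℝ} (hT0 : ∀ x, 0 ≤ T x) (hT : DThr F E T)
    {α : Stat ι} {z : W} (hz : z ∈ E α) {i : ι} (hi : T (F.q z) < |F.t i z|) :
    F.drop i z ∈ E (α.face i) := by
  have h0 : F.t i z ≠ 0 := by
    intro h
    rw [h, abs_zero] at hi
    exact absurd hi (not_lt.2 (hT0 _))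
  exact (hT i α (hD.ne_zero_of_t_ne hz h0) z (by rw [hD.sign_mul hz i]; exact hi)).1 hz

theorem DThr.dropS_mem (hD : IsDiag n M F E) {T : V → ℝ} (hT0 : ∀ x, 0 ≤ T x) (hT : DThr F E T)
    (S : Finset ι) : ∀ {α : Stat ι} {z : W}, z ∈ E α → (∀ i ∈ S, T (F.q z) < |F.t i z|) →
      F.dropS S z ∈ E (α.faceS S) := by
  classical
  induction S using Finset.induction_on with
  | empty =>
    intro α z hz _
    rw [F.dropS_empty, Stat.faceS_empty]; exact hz
  | insert i S hi ih =>
    intro α z hz hS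
    rw [F.dropS_insert hi, ← Stat.faceS_insert]
    refine ih (hT.drop_mem hD hT0 hz (hS i (Finset.mem_insert_self i S))) fun j hj => ?_
    have hji : j ≠ i := fun h => hi (h ▸ hj)
    rw [F.q_drop, F.t_drop_ne hji]
    exact hS j (Finset.mem_insert_of_mem hj)

theorem Thr.dropS (hD : IsDiag n M F E) {T : V → ℝ} (hT0 : ∀ x, 0 ≤ T x) (hT : DThr F E T)
    {X : Type} {φ : W → X} (hφ : Thr F E φ T) (S : Finset ι) :
    ∀ {z : W}, z ∈ tot E → (∀ i ∈ S, T (F.q z) < |F.t i z|) → φ (F.dropS S z) = φ z := by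
  classical
  induction S using Finset.induction_on with
  | empty =>
    intro z _ _
    rw [F.dropS_empty]
  | insert i S hi ih =>
    intro z hz hS
    obtain ⟨α, hα⟩ := mem_tot.1 hz
    have h1 := hT.drop_mem hD hT0 hα (hS i (Finset.mem_insert_self i S))
    rw [F.dropS_insert hi, ih (mem_tot.2 ⟨_, h1⟩) fun j hj => ?_,
      hφ i z hz (hS i (Finset.mem_insert_self i S))]
    have hji : j ≠ i := fun h => hi (h ▸ hj)
    rw [F.q_drop, F.t_drop_ne hji]
    exact hS j (Finset.mem_insert_of_mem hj)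

/-- active projections stay in the diagram. -/
theorem pkWt_dropS_mem (hD : IsDiag n M F E) {T : V → ℝ} (hT0 : ∀ x, 0 ≤ T x) (hT : DThr F E T)
    {α : Stat ι} {z : W} (hz : z ∈ E α) {S : Finset ι} (hS : pkWt F T S z ≠ 0) :
    F.dropS S z ∈ E (α.faceS S) :=
  hT.dropS_mem hD hT0 S hz fun i hi => by linarith [(pkWt_ne_zero F hS).1 i hi]

/-- a datum with threshold `T` is reproduced by the blend. -/
theorem pkBlend_of_thr (hD : IsDiag n M F E) {T : V → ℝ} (hT0 : ∀ x, 0 ≤ T x) (hT : DThr F E T)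
    {X : Type} [AddCommGroup X] [Module ℝ X] {u : W → X} (hu : Thr F E u T) {z : W}
    (hz : z ∈ tot E) : pkBlend F T u z = u z :=
  pkBlend_eq_of_forall F T u fun S hS =>
    hu.dropS hD hT0 hT S hz fun i hi => by linarith [(pkWt_ne_zero F hS).1 i hi]

theorem pkBlend_compat {T : V → ℝ} (hT0 : ∀ x, 0 ≤ T x) (hTc : Continuous T) {X : Type}
    [AddCommGroup X] [Module ℝ X] (u : W → X) : Compat F E (pkBlend F T u) := by
  intro i K hK
  obtain ⟨C, hC⟩ := (hK.image hTc).bddAbove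
  refine ⟨C + 2, fun z _ hq hlt => pkBlend_drop F hT0 u ?_⟩
  have := hC ⟨_, hq, rfl⟩
  linarith

omit [Fintype ι] in
theorem Frame.contDiff_dropS (F : Frame V W ι) (S : Finset ι) : ContDiff ℝ ∞ (F.dropS S) := by
  unfold Frame.dropS
  exact contDiff_id.sub (ContDiff.sum fun i _ => (F.t i).contDiff.smul contDiff_const)

/-- on `E α` the blend is the restriction of an ambient expression in ambient representatives. -/
theorem pkBlend_eqOn (hD : IsDiag n M F E) {T : V → ℝ} (hT0 : ∀ x, 0 ≤ T x) (hT : DThr F E T)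
    {X : Type} [AddCommGroup X] [Module ℝ X] {u : W → X} {u' : Stat ι → W → X}
    (hu : ∀ β, Set.EqOn (u' β) u (E β)) (α : Stat ι) :
    Set.EqOn (pkBlend F T u) (fun z => ∑ S : Finset ι, pkWt F T S z • u' (α.faceS S) (F.dropS S z))
      (E α) := by
  intro z hz
  unfold pkBlend
  refine Finset.sum_congr rfl fun S _ => ?_
  by_cases hS : pkWt F T S z = 0
  · rw [hS, zero_smul, zero_smul]
  · rw [hu _ (pkWt_dropS_mem hD hT0 hT hz hS)]

theorem pk_smoothAlong_congr {d : ℕ} {X : Set W} {Y : Type} [NormedAddCommGroup Y]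
    [NormedSpace ℝ Y] {f f' : W → Y} (hf : SmoothAlong d X f') (h : Set.EqOn f f' X) :
    SmoothAlong d X f := by
  intro ψ U hp
  refine (hf ψ U hp).congr fun u hu => ?_
  exact h (if_mem hp hu)

/-- **the blend of arbitrary individual smooth choices is smooth and compatible.** -/
theorem pkBlend_sc [FiniteDimensional ℝ W] (hD : IsDiag n M F E) {T : V → ℝ}
    (hT0 : ∀ x, 0 ≤ T x) (hTs : ContDiff ℝ ∞ T) (hT : DThr F E T) {X : Type}
    [NormedAddCommGroup X] [NormedSpace ℝ X] {u : W → X}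
    (hu : ∀ α, SmoothAlong (n - hits α) (E α) u) : SC n F E (pkBlend F T u) := by
  refine ⟨fun α => ?_, pkBlend_compat hT0 hTs.continuous u⟩
  choose u' hu's hu'e using fun β => if_exists_extension_closed (hD.mfd β) (hD.closed β) (hu β)
  refine pk_smoothAlong_congr (if_smoothAlong_of_contDiff ?_) (pkBlend_eqOn hD hT0 hT hu'e α)
  exact ContDiff.sum fun S _ => (pkWt_contDiff F hT0 hTs S).smul
    ((hu's _).comp (F.contDiff_dropS S))

/-- continuous version. -/
theorem pkBlend_cc (hD : IsDiag n M F E) {T : V → ℝ} (hT0 : ∀ x, 0 ≤ T x)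
    (hTs : ContDiff ℝ ∞ T) (hT : DThr F E T) {X : Type} [NormedAddCommGroup X] [NormedSpace ℝ X]
    {u : W → X} (hu : ∀ α, ContinuousOn u (E α)) : CC F E (pkBlend F T u) := by
  refine ⟨fun α => ?_, pkBlend_compat hT0 hTs.continuous u⟩
  have hTq : Continuous fun z => T (F.q z) := hTs.continuous.comp F.q.continuous
  have hti : ∀ i, Continuous fun z => |F.t i z| := fun i => (F.t i).continuous.abs
  unfold pkBlend
  refine continuousOn_finsetSum _ fun S _ z0 hz0 => ?_
  by_cases h : ∀ i ∈ S, T (F.q z0) < |F.t i z0|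
  · have hO : IsOpen {z | ∀ i ∈ S, T (F.q z) < |F.t i z|} := by
      have : {z | ∀ i ∈ S, T (F.q z) < |F.t i z|} = ⋂ i ∈ S, {z | T (F.q z) < |F.t i z|} := by
        ext z; simp
      rw [this]
      exact isOpen_biInter_finset fun i _ => isOpen_lt hTq (hti i)
    refine (pkWt_contDiff F hT0 hTs S).continuous.continuousWithinAt.smul ?_
    rw [← continuousWithinAt_inter (hO.mem_nhds h)]
    have h1 : ContinuousWithinAt u (E (α.faceS S)) (F.dropS S z0) :=
      hu _ _ (hT.dropS_mem hD hT0 S hz0 h)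
    exact h1.comp (F.continuous_dropS S).continuousWithinAt
      fun z hz => hT.dropS_mem hD hT0 S hz.1 hz.2
  · push Not at h
    obtain ⟨i, hi, hle⟩ := h
    have hN : {z | |F.t i z| < T (F.q z) + 1} ∈ 𝓝 z0 :=
      (isOpen_lt (hti i) (hTq.add continuous_const)).mem_nhds (by
        show |F.t i z0| < T (F.q z0) + 1
        linarith)
    have he : (fun z => pkWt F T S z • u (F.dropS S z)) =ᶠ[𝓝 z0] fun _ => (0 : X) := by
      filter_upwards [hN] with z hz
      rw [pkWt_eq_zero_of_mem F hi (pkF_eq_zero F (le_of_lt hz)), zero_smul]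
    exact (continuousAt_const.congr he.symm).continuousWithinAt

/-! ### gluing individual choices, Urysohn functions -/

open Classical in
/-- the function which is `v α` on `E α`. -/
noncomputable def pkGlue (E : Stat ι → Set W) {X : Type} (v : Stat ι → W → X) (z : W) : X :=
  if h : ∃ α, z ∈ E α then v h.choose z else v (fun _ => 0) z

theorem pkGlue_eq (hD : IsDiag n M F E) {X : Type} (v : Stat ι → W → X) {α : Stat ι} {z : W}
    (hz : z ∈ E α) : pkGlue E v z = v α z := by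
  have h : ∃ α, z ∈ E α := ⟨α, hz⟩
  have e : h.choose = α := by
    by_contra hne
    exact Set.disjoint_left.1 (hD.disj _ _ hne) h.choose_spec hz
  unfold pkGlue
  rw [dif_pos h, e]

theorem pkGlue_mem {X : Type} (v : Stat ι → W → X) {C : Set X} (h : ∀ α z, v α z ∈ C) (z : W) :
    pkGlue E v z ∈ C := by
  unfold pkGlue
  split_ifs
  · exact h _ _
  · exact h _ _

theorem RelOpen.isClosed_diff (hD : IsDiag n M F E) {O : Set W} (hO : RelOpen E O) (α : Stat ι) :
    IsClosed (E α \ O) := by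
  rw [← closure_subset_iff_isClosed]
  intro z hz
  have hzE : z ∈ E α := (hD.closed α).closure_subset_iff.2 Set.sdiff_subset hz
  refine ⟨hzE, fun hzO => ?_⟩
  obtain ⟨N, hN, hsub⟩ := hO α z ⟨hzO, hzE⟩
  obtain ⟨y, hyN, hy⟩ := mem_closure_iff_nhds.1 hz N hN
  exact hy.2 (hsub ⟨hyN, hy.1⟩)

theorem SC.comp_contDiff {X Y : Type} [NormedAddCommGroup X] [NormedSpace ℝ X]
    [NormedAddCommGroup Y] [NormedSpace ℝ Y] {φ : W → X} (h : SC n F E φ) {G : X → Y}
    (hG : ContDiff ℝ ∞ G) : SC n F E (G ∘ φ) := by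
  refine ⟨fun α ψ U hp => hG.comp_contDiffOn (h.1 α ψ U hp), fun i K hK => ?_⟩
  obtain ⟨R, hR⟩ := h.2 i K hK
  exact ⟨R, fun z hz hq hlt => by simp only [Function.comp_apply, hR z hz hq hlt]⟩

/-- **compatible Urysohn functions**, first form. -/
theorem pk_urysohn₀ [FiniteDimensional ℝ V] [FiniteDimensional ℝ W] (hD : IsDiag n M F E)
    {A O : Set W} (hA : ∀ α, IsClosed (A ∩ E α)) (hO : RelOpen E O) (hAO : A ∩ tot E ⊆ O)
    (hAc : Compat F E (fun z => z ∈ A)) (hOc : Compat F E (fun z => z ∈ O)) :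
    ∃ χ : W → ℝ, SC n F E χ ∧ (∀ z, χ z ∈ Set.Icc (0 : ℝ) 1) ∧ (∀ z ∈ A ∩ tot E, χ z = 1) ∧
      ∀ z ∈ tot E, z ∉ O → χ z = 0 := by
  obtain ⟨T1, h1s, h10, h1⟩ := hD.exists_thr
  obtain ⟨T2, h2s, h20, h2⟩ := hAc.exists_thr
  obtain ⟨T3, h3s, h30, h3⟩ := hOc.exists_thr
  set T : V → ℝ := fun x => T1 x + T2 x + T3 x with hTdef
  have hTs : ContDiff ℝ ∞ T := (h1s.add h2s).add h3s
  have hT0 : ∀ x, 0 ≤ T x := fun x => add_nonneg (add_nonneg (h10 x) (h20 x)) (h30 x)
  have hT : DThr F E T := h1.mono fun x => by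
    have := h20 x; have := h30 x; simp only [hTdef]; linarith
  have hTA : Thr F E (fun z => z ∈ A) T := h2.mono fun x => by
    have := h10 x; have := h30 x; simp only [hTdef]; linarith
  have hTO : Thr F E (fun z => z ∈ O) T := h3.mono fun x => by
    have := h10 x; have := h20 x; simp only [hTdef]; linarith
  have hex : ∀ α, ∃ f : W → ℝ, ContDiff ℝ ∞ f ∧ Set.EqOn f 0 (E α \ O) ∧
      Set.EqOn f 1 (A ∩ E α) ∧ ∀ x, f x ∈ Set.Icc (0 : ℝ) 1 := by
    intro α
    have hd : Disjoint (E α \ O) (A ∩ E α) := by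
      rw [Set.disjoint_left]
      intro z hz hz'
      exact hz.2 (hAO ⟨hz'.1, mem_tot.2 ⟨α, hz.1⟩⟩)
    obtain ⟨f, hf0, hf1, hf⟩ := exists_contMDiffMap_zero_one_of_isClosed (n := (⊤ : ℕ∞)) 𝓘(ℝ, W)
      (hO.isClosed_diff hD α) (hA α) hd
    exact ⟨f, f.contMDiff.contDiff, hf0, hf1, hf⟩
  choose v hvs hv0 hv1 hv using hex
  refine ⟨pkBlend F T (pkGlue E v), pkBlend_sc hD hT0 hTs hT fun α => ?_, fun z => ?_, ?_, ?_⟩
  · exact pk_smoothAlong_congr (if_smoothAlong_of_contDiff (hvs α)) fun z hz => pkGlue_eq hD v hz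
  · exact pkBlend_mem_convex F T _ (convex_Icc 0 1) fun S _ => pkGlue_mem v hv _
  · rintro z ⟨hzA, hz⟩
    obtain ⟨α, hα⟩ := mem_tot.1 hz
    refine pkBlend_mem_convex F T _ (convex_singleton (1 : ℝ)) fun S hS => ?_
    have hm := pkWt_dropS_mem hD hT0 hT hα hS
    have hmA : F.dropS S z ∈ A := by
      have := hTA.dropS hD hT0 hT S hz fun i hi => by linarith [(pkWt_ne_zero F hS).1 i hi]
      exact this.mpr hzA
    rw [Set.mem_singleton_iff, pkGlue_eq hD v hm]
    exact hv1 _ ⟨hmA, hm⟩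
  · intro z hz hzO
    obtain ⟨α, hα⟩ := mem_tot.1 hz
    refine pkBlend_mem_convex F T _ (convex_singleton (0 : ℝ)) fun S hS => ?_
    have hm := pkWt_dropS_mem hD hT0 hT hα hS
    have hmO : F.dropS S z ∉ O := by
      have := hTO.dropS hD hT0 hT S hz fun i hi => by linarith [(pkWt_ne_zero F hS).1 i hi]
      exact fun h => hzO (this.mp h)
    rw [Set.mem_singleton_iff, pkGlue_eq hD v hm]
    exact hv0 _ ⟨hm, hmO⟩

/-- **compatible Urysohn functions**: `1` near `A`, `0` near the complement of `O`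
(replaces the last assertion of P Lemma A.4). -/
theorem pk_urysohn [FiniteDimensional ℝ V] [FiniteDimensional ℝ W] (hD : IsDiag n M F E)
    {A O : Set W} (hA : ∀ α, IsClosed (A ∩ E α)) (hO : RelOpen E O) (hAO : A ∩ tot E ⊆ O)
    (hAc : Compat F E (fun z => z ∈ A)) (hOc : Compat F E (fun z => z ∈ O)) :
    ∃ χ : W → ℝ, SC n F E χ ∧ (∀ z, χ z ∈ Set.Icc (0 : ℝ) 1) ∧
      (∀ α, ∀ z ∈ A ∩ E α, ∃ N ∈ 𝓝 z, ∀ y ∈ N ∩ E α, χ y = 1) ∧
      ∀ α, ∀ z ∈ E α, z ∉ O → ∃ N ∈ 𝓝 z, ∀ y ∈ N ∩ E α, χ y = 0 := by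
  obtain ⟨χ, hsc, -, h1, h0⟩ := pk_urysohn₀ hD hA hO hAO hAc hOc
  have hG : ContDiff ℝ ∞ fun x : ℝ => Real.smoothTransition (3 * x - 1) :=
    Real.smoothTransition.contDiff.comp ((contDiff_const.mul contDiff_id).sub contDiff_const)
  have hc : ∀ α, ContinuousOn χ (E α) := fun α =>
    if_smoothAlong_continuousOn (hD.mfd α) (hsc.1 α)
  refine ⟨_, hsc.comp_contDiff hG, fun z => ⟨Real.smoothTransition.nonneg _,
    Real.smoothTransition.le_one _⟩, fun α z hz => ?_, fun α z hz hzO => ?_⟩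
  · have h2 : χ z = 1 := h1 z ⟨hz.1, mem_tot.2 ⟨α, hz.2⟩⟩
    have h3 : ∀ᶠ y in 𝓝[E α] z, (2 / 3 : ℝ) < χ y :=
      (hc α z hz.2).eventually (lt_mem_nhds (by rw [h2]; norm_num))
    obtain ⟨N, hN, hsub⟩ := mem_nhdsWithin_iff_exists_mem_nhds_inter.1 h3
    refine ⟨N, hN, fun y hy => Real.smoothTransition.one_of_one_le ?_⟩
    have : (2 / 3 : ℝ) < χ y := hsub hy
    linarith
  · have h2 : χ z = 0 := h0 z (mem_tot.2 ⟨α, hz⟩) hzO
    have h3 : ∀ᶠ y in 𝓝[E α] z, χ y < (1 / 3 : ℝ) :=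
      (hc α z hz).eventually (gt_mem_nhds (by rw [h2]; norm_num))
    obtain ⟨N, hN, hsub⟩ := mem_nhdsWithin_iff_exists_mem_nhds_inter.1 h3
    refine ⟨N, hN, fun y hy => Real.smoothTransition.zero_of_nonpos ?_⟩
    have : χ y < (1 / 3 : ℝ) := hsub hy
    linarith

end diag


end Claimed.Agent.R315
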