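import Claimed.Agent.R315.Pack004
import Claimed.Agent.R315.Pack003
import Claimed.Agent.R315.Pack002
import Claimed.Agent.R315.Pack006
import Claimed.Agent.R315.Pack008

/-!
# Row 315, packets: general facts on embedded manifolds which the split needs

All statements are about the Core notions (`IsParam`, `IsMfd`, `SmoothAlong`, `IsTenOn`,
`IsMetricOn`) in arbitrary finite dimensional normed spaces (NO inner product: `W × ℝ` carries the
sup norm).  They are row-neutral infrastructure (IF / RIEM level).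

PROVED (helper29), sorry-free (PK-MFD-A, PK-MFD-B).

PLANS.
* `pk_factor`: copy of the proof of `if_tr_contDiffAt` (`IfParam.lean`): `P` = linear left inverse of
  `fderiv ψ u₀`, `σ` = local inverse of `P ∘ ψ`; `invFunOn ψ U ∘ f = σ ∘ P ∘ f` near `a` because
  `invFunOn ψ U ∘ f` is continuous at `a` (`if_contInv`).
* `pk_smooth_comp`, `pk_ten_comp`: `Φ = ψ ∘ σ` near `a`, `σ = invFunOn ψ U ∘ Φ` smooth by `pk_factor`;
  `fderiv Φ b v = ∑ k, (fderiv σ b v) k • fderiv ψ (σ b) (eb k)`.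
* `pk_param_prod`, `pk_mfd_prod`: params `b ↦ (ψ (rm_tl d b), b 0)` (`Rm/Calc.lean`: `rm_J`, `rm_tl`).
* `pk_smoothAlong_sub`, `pk_isMetricOn_sub`: PROVED (helper39, `Rm/Orth.lean`).  See also `rm_level_mfd`, `rm_orth_param` there (level sets of functions with positive gradient for a metric).
* `pk_mfd_level`: `γ = G ∘ ψ`, `v` with `fderiv γ a₀ v ≠ 0`, `π` a linear map `E (d+1) → E d` onto with
  kernel `ℝ v`; `Θ a = (π a, γ a)` is a local diffeomorphism at `a₀` (inverse function theorem);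
  `χ b = Θ⁻¹ (b, 0)`; the param is `ψ ∘ χ` on a small ball.
-/

set_option autoImplicit false
set_option linter.unusedSectionVars false
open scoped ContDiff Topology
open MeasureTheory Claims.C0499

namespace Claimed.Agent.R315

section defs

variable {W : Type} [NormedAddCommGroup W] [NormedSpace ℝ W]

/-- `h ⊕ dτ²`. -/
noncomputable def extTen (h : Ten W) : Ten (W × ℝ) := fun z =>
  (h z.1).bilinearComp (ContinuousLinearMap.fst ℝ W ℝ) (ContinuousLinearMap.fst ℝ W ℝ) +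
    (ContinuousLinearMap.snd ℝ W ℝ).smulRight (ContinuousLinearMap.snd ℝ W ℝ)

theorem extTen_apply (h : Ten W) (z a b : W × ℝ) :
    extTen h z a b = h z.1 a.1 b.1 + a.2 * b.2 := by
  simp [extTen]

/-- `0` is a regular value of `u` along the `d`-manifold `X`. -/
def RegularOn (d : ℕ) (X : Set W) (u : W → ℝ) : Prop :=
  ∀ (ψ : E d → W) (U : Set (E d)), IsParam X ψ U → ∀ a ∈ U, u (ψ a) = 0 →
    fderiv ℝ (u ∘ ψ) a ≠ 0

end defs

variable {W : Type} [NormedAddCommGroup W] [NormedSpace ℝ W] [FiniteDimensional ℝ W]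

/-- a smooth map with values in the image of a parametrisation factors smoothly. -/
theorem pk_factor {A : Type} [NormedAddCommGroup A] [NormedSpace ℝ A] {d : ℕ} {X : Set W}
    {ψ : E d → W} {U : Set (E d)} (h : IsParam X ψ U) {f : A → W} {a : A}
    (hf : ContDiffAt ℝ ∞ f a) (hmem : ∀ᶠ b in 𝓝 a, f b ∈ ψ '' U) :
    ContDiffAt ℝ ∞ (Function.invFunOn ψ U ∘ f) a := by
  obtain ⟨u₀, hu₀, he⟩ := hmem.self_of_nhds
  obtain ⟨ρ, O, hO, hmO, hρ, -, hinv⟩ := if_exists_retr h hu₀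
  have h1 : ∀ᶠ b in 𝓝 a, f b ∈ O := hf.continuousAt.eventually (hO.mem_nhds (he ▸ hmO))
  have h2 : Function.invFunOn ψ U ∘ f =ᶠ[𝓝 a] ρ ∘ f := by
    filter_upwards [h1, hmem] with b hb1 hb2
    exact ((hinv (f b) ⟨if_image_subset h hb2, hb1⟩).2).symm
  refine ContDiffAt.congr_of_eventuallyEq ?_ h2
  exact (hρ.contDiffAt (hO.mem_nhds (he ▸ hmO))).comp a hf

/-- local factorisation of a smooth map into `X` through a parametrisation. -/
theorem pk_local_factor {A : Type} [NormedAddCommGroup A] [NormedSpace ℝ A] {d : ℕ} {X : Set W}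
    (hX : IsMfd d X) {Φ : A → W} {a : A} (hΦ : ContDiffAt ℝ ∞ Φ a)
    (hmem : ∀ᶠ b in 𝓝 a, Φ b ∈ X) :
    ∃ (ψ : E d → W) (U : Set (E d)) (σ : A → E d), IsParam X ψ U ∧ ContDiffAt ℝ ∞ σ a ∧
      ∀ᶠ b in 𝓝 a, σ b ∈ U ∧ ψ (σ b) = Φ b ∧
        fderiv ℝ Φ b = (fderiv ℝ ψ (σ b)).comp (fderiv ℝ σ b) := by
  obtain ⟨ψ, U, h, hu⟩ := hX (Φ a) hmem.self_of_nhds
  obtain ⟨O, hO, hOe⟩ := if_image h
  have hm : ∀ᶠ b in 𝓝 a, Φ b ∈ ψ '' U := by
    have haO : Φ a ∈ O := (hOe ▸ hu : Φ a ∈ X ∩ O).2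
    filter_upwards [hmem, hΦ.continuousAt.eventually (hO.mem_nhds haO)] with b h1 h2
    rw [hOe]
    exact ⟨h1, h2⟩
  have hσ := pk_factor h hΦ hm
  refine ⟨ψ, U, Function.invFunOn ψ U ∘ Φ, h, hσ, ?_⟩
  have hd : ∀ᶠ b in 𝓝 a, ContDiffAt ℝ 1 (Function.invFunOn ψ U ∘ Φ) b :=
    (hσ.of_le (by simp)).eventually (by simp)
  filter_upwards [hm.eventually_nhds, hd] with b hb hdb
  have hbU : (Function.invFunOn ψ U ∘ Φ) b ∈ U := if_inv_mem hb.self_of_nhds
  refine ⟨hbU, if_rightInv hb.self_of_nhds, ?_⟩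
  have h1 : Φ =ᶠ[𝓝 b] ψ ∘ (Function.invFunOn ψ U ∘ Φ) := by
    filter_upwards [hb] with c hc
    exact (if_rightInv hc).symm
  rw [h1.fderiv_eq]
  exact fderiv_comp b (if_differentiableAt h hbU) (hdb.differentiableAt (by simp))

/-- composition of a function which is smooth along `X` with a smooth map into `X`. -/
theorem pk_smooth_comp {A Y : Type} [NormedAddCommGroup A] [NormedSpace ℝ A]
    [NormedAddCommGroup Y] [NormedSpace ℝ Y] {d : ℕ} {X : Set W} (hX : IsMfd d X) {f : W → Y}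
    (hf : SmoothAlong d X f) {Φ : A → W} {a : A} (hΦ : ContDiffAt ℝ ∞ Φ a)
    (hmem : ∀ᶠ b in 𝓝 a, Φ b ∈ X) : ContDiffAt ℝ ∞ (f ∘ Φ) a := by
  obtain ⟨f', ⟨O, hO, hXO, hf'⟩, heq⟩ := if_exists_extension hX hf
  have h1 : f ∘ Φ =ᶠ[𝓝 a] f' ∘ Φ := by
    filter_upwards [hmem] with b hb
    exact (heq hb).symm
  refine ContDiffAt.congr_of_eventuallyEq ?_ h1
  exact (hf'.contDiffAt (hO.mem_nhds (hXO hmem.self_of_nhds))).comp a hΦ

/-- pull-back of a tensor which is smooth on `X` by a smooth map into `X`. -/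
theorem pk_ten_comp {A : Type} [NormedAddCommGroup A] [NormedSpace ℝ A] {d : ℕ} {X : Set W}
    (hX : IsMfd d X) {h : Ten W} (hh : IsTenOn d X h) {Φ : A → W} {a : A}
    (hΦ : ContDiffAt ℝ ∞ Φ a) (hmem : ∀ᶠ b in 𝓝 a, Φ b ∈ X) (v v' : A) :
    ContDiffAt ℝ ∞ (fun b => h (Φ b) (fderiv ℝ Φ b v) (fderiv ℝ Φ b v')) a := by
  obtain ⟨ψ, U, σ, hp, hσ, hev⟩ := pk_local_factor hX hΦ hmem
  have h1 : (fun b => h (Φ b) (fderiv ℝ Φ b v) (fderiv ℝ Φ b v')) =ᶠ[𝓝 a]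
      fun b => ∑ i, ∑ j, cm h ψ (σ b) i j * (fderiv ℝ σ b v i * fderiv ℝ σ b v' j) := by
    filter_upwards [hev] with b hb
    rw [← if_bil_apply, if_cm_bil, hb.2.1, hb.2.2]
    rfl
  refine ContDiffAt.congr_of_eventuallyEq ?_ h1
  have haU : σ a ∈ U := hev.self_of_nhds.1
  have h2 : ∀ (w : A) (i : Fin d), ContDiffAt ℝ ∞ (fun b => fderiv ℝ σ b w i) a := by
    intro w i
    have h3 : ContDiffAt ℝ ∞ (fderiv ℝ σ) a := hσ.fderiv_right (m := ∞) (by simp)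
    exact (if_pr i).contDiff.contDiffAt.comp a (h3.clm_apply contDiffAt_const)
  have h4 : ∀ i j : Fin d, ContDiffAt ℝ ∞ (fun b => cm h ψ (σ b) i j) a := fun i j =>
    ContDiffAt.comp a ((hh ψ U hp i j).contDiffAt ((if_open hp).mem_nhds haU)) hσ
  exact ContDiffAt.sum fun i _ => ContDiffAt.sum fun j _ => (h4 i j).mul ((h2 v i).mul (h2 v' j))

theorem pk_mfd_bil_pos {d : ℕ} {A : Matrix (Fin d) (Fin d) ℝ} (hA : A.PosDef) {X : E d} (hX : X ≠ 0) :
    0 < if_bil A X X := by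
  rw [if_bil_eq_dot]
  have hne : (X : Fin d → ℝ) ≠ 0 := by
    intro h0
    apply hX
    ext i
    exact congrFun h0 i
  have := hA.dotProduct_mulVec_pos hne
  rwa [star_trivial] at this

/-- a metric on `X` is positive on the derivative of a smooth map into `X`. -/
theorem pk_met_comp_pos {A : Type} [NormedAddCommGroup A] [NormedSpace ℝ A] {d : ℕ} {X : Set W}
    (hX : IsMfd d X) {h : Ten W} (hh : IsMetricOn d X h) {Φ : A → W} {a : A}
    (hΦ : ContDiffAt ℝ ∞ Φ a) (hmem : ∀ᶠ b in 𝓝 a, Φ b ∈ X) (v : A) (hv : fderiv ℝ Φ a v ≠ 0) :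
    0 < h (Φ a) (fderiv ℝ Φ a v) (fderiv ℝ Φ a v) := by
  obtain ⟨ψ, U, σ, hp, hσ, hev⟩ := pk_local_factor hX hΦ hmem
  obtain ⟨haU, he, hd⟩ := hev.self_of_nhds
  have h1 : h (Φ a) (fderiv ℝ Φ a v) (fderiv ℝ Φ a v) =
      if_bil (cm h ψ (σ a)) (fderiv ℝ σ a v) (fderiv ℝ σ a v) := by
    rw [if_cm_bil, he, hd]
    rfl
  rw [h1]
  refine pk_mfd_bil_pos ((hh ψ U hp).2 _ haU) fun h0 => hv ?_
  rw [hd, ContinuousLinearMap.comp_apply, h0, map_zero]

/-- a metric on `X` is symmetric on derivatives of smooth maps into `X`. -/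
theorem pk_met_comp_symm {A : Type} [NormedAddCommGroup A] [NormedSpace ℝ A] {d : ℕ} {X : Set W}
    (hX : IsMfd d X) {h : Ten W} (hh : IsMetricOn d X h) {Φ : A → W} {a : A}
    (hΦ : ContDiffAt ℝ ∞ Φ a) (hmem : ∀ᶠ b in 𝓝 a, Φ b ∈ X) (v v' : A) :
    h (Φ a) (fderiv ℝ Φ a v) (fderiv ℝ Φ a v') = h (Φ a) (fderiv ℝ Φ a v') (fderiv ℝ Φ a v) := by
  obtain ⟨ψ, U, σ, hp, hσ, hev⟩ := pk_local_factor hX hΦ hmem
  obtain ⟨haU, he, hd⟩ := hev.self_of_nhds
  have h1 : ∀ w w' : A, h (Φ a) (fderiv ℝ Φ a w) (fderiv ℝ Φ a w') =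
      if_bil (cm h ψ (σ a)) (fderiv ℝ σ a w) (fderiv ℝ σ a w') := by
    intro w w'
    rw [if_cm_bil, he, hd]
    rfl
  rw [h1, h1]
  exact if_bil_symm (if_isSymm_of_posSemidef ((hh ψ U hp).2 _ haU).posSemidef) _ _

/-- restriction of smooth functions to a submanifold. -/
theorem pk_smoothAlong_sub {Y' : Type} [NormedAddCommGroup Y'] [NormedSpace ℝ Y'] {d d' : ℕ}
    {X Y : Set W} (hX : IsMfd d X) (hYX : Y ⊆ X) {f : W → Y'} (hf : SmoothAlong d X f) :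
    SmoothAlong d' Y f :=
  rm_sub_smooth hYX hX hf

/-- restriction of a metric to a submanifold. -/
theorem pk_isMetricOn_sub {d d' : ℕ} {X Y : Set W} (hX : IsMfd d X) (hYX : Y ⊆ X) {h : Ten W}
    (hh : IsMetricOn d X h) : IsMetricOn d' Y h :=
  rm_sub_metric hYX hX hh

theorem pk_posDef_of_bil {d : ℕ} {S : Matrix (Fin d) (Fin d) ℝ} (hs : ∀ i j, S i j = S j i)
    (hp : ∀ X : E d, X ≠ 0 → 0 < if_bil S X X) : S.PosDef := by
  refine Matrix.PosDef.of_dotProduct_mulVec_pos ?_ fun x hx => ?_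
  · rw [Matrix.IsHermitian, Matrix.conjTranspose_eq_transpose_of_trivial]
    ext i j
    exact hs j i
  · have h1 := hp (WithLp.toLp 2 x) (fun h0 => hx (by
      funext i
      exact congrFun (congrArg (fun y : E d => (y : Fin d → ℝ)) h0) i))
    rw [if_bil_eq_dot] at h1
    rw [star_trivial]
    exact h1

/-- construction of a parametrisation from a continuous left inverse. -/
theorem pk_param_mk {W' : Type} [NormedAddCommGroup W'] [NormedSpace ℝ W'] {d : ℕ} {X : Set W'}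
    {ψ : E d → W'} {U : Set (E d)} (hU : IsOpen U)
    (hs : ContDiffOn ℝ ∞ ψ U) (himm : ∀ u ∈ U, Function.Injective (fderiv ℝ ψ u)) {O : Set W'}
    (hO : IsOpen O) (him : ψ '' U = X ∩ O) {g : W' → E d} (hg : ContinuousOn g (ψ '' U))
    (hl : ∀ u ∈ U, g (ψ u) = u) : IsParam X ψ U := by
  have hinj : Set.InjOn ψ U := fun u hu u' hu' he => by rw [← hl u hu, he, hl u' hu']
  refine ⟨hU, hs, himm, hinj, ⟨O, hO, him⟩, hg.congr ?_⟩
  rintro _ ⟨u, hu, rfl⟩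
  rw [hl u hu]
  exact hinj.leftInvOn_invFunOn hu

/-- a constant metric: every manifold in `W` carries a metric. -/
theorem pk_exists_const_metric : ∃ g : Ten W, ∀ (d : ℕ) (M : Set W), IsMetricOn d M g := by
  set N := Module.finrank ℝ W
  set L : W →L[ℝ] E N := ((toEuclidean : W ≃L[ℝ] EuclideanSpace ℝ (Fin N)) : W →L[ℝ] EuclideanSpace ℝ (Fin N)) with hL
  have hLinj : Function.Injective L := (toEuclidean : W ≃L[ℝ] EuclideanSpace ℝ (Fin N)).injective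
  set B : E N →L[ℝ] E N →L[ℝ] ℝ := if_bil (1 : Matrix (Fin N) (Fin N) ℝ) with hB
  refine ⟨fun _ => B.bilinearComp L L, fun d M ψ U h => ?_⟩
  have hcm : ∀ u i j, cm (fun _ => B.bilinearComp L L) ψ u i j =
      B (L (fderiv ℝ ψ u (eb i))) (L (fderiv ℝ ψ u (eb j))) := fun u i j => rfl
  refine ⟨fun i j => ?_, fun u hu => ?_⟩
  · simp only [hcm]
    have h1 : ∀ k : Fin d, ContDiffOn ℝ ∞ (fun u => L (fderiv ℝ ψ u (eb k))) U := fun k =>
      L.contDiff.comp_contDiffOn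
        (((if_smooth h).fderiv_of_isOpen (if_open h) (m := ∞) (by simp)).clm_apply contDiffOn_const)
    exact (B.contDiff.comp_contDiffOn (h1 i)).clm_apply (h1 j)
  · refine pk_posDef_of_bil (fun i j => ?_) fun X hX => ?_
    · rw [hcm, hcm]
      exact if_bil_symm Matrix.isSymm_one _ _
    · rw [if_cm_bil]
      refine pk_mfd_bil_pos (A := (1 : Matrix (Fin N) (Fin N) ℝ)) Matrix.PosDef.one fun h0 => hX ?_
      have h0' : L (fderiv ℝ ψ u X) = 0 := h0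
      exact if_imm h hu (hLinj (by rw [h0', map_zero, map_zero]))

theorem pk_gradSqC_pos {d : ℕ} {X : Set W} {h : Ten W} (hh : IsMetricOn d X h) {ψ : E d → W}
    {U : Set (E d)} (hp : IsParam X ψ U) (f : W → ℝ) {a : E d} (ha : a ∈ U)
    (hne : fderiv ℝ (f ∘ ψ) a ≠ 0) : 0 < gradSqC (cm h ψ) (f ∘ ψ) a := by
  obtain ⟨Y, hY⟩ : ∃ Y, fderiv ℝ (f ∘ ψ) a Y ≠ 0 := by
    by_contra hcon
    push Not at hcon
    exact hne (ContinuousLinearMap.ext hcon)
  have h1 := if_fderiv_sq_le hh hp f ha Y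
  have h2 : 0 < (fderiv ℝ (f ∘ ψ) a Y) ^ 2 := by positivity
  have h3 : 0 ≤ if_bil (cm h ψ a) Y Y := if_bil_nonneg ((hh ψ U hp).2 a ha).posSemidef Y
  by_contra hcon
  rw [not_lt] at hcon
  nlinarith

/-- **regular level sets** (regularity has to be known in ONE parametrisation around each zero). -/
theorem pk_mfd_level {d : ℕ} {Y : Set W} {G : W → ℝ}
    (h : ∀ z ∈ Y, G z = 0 → ∃ (ψ : E (d + 1) → W) (U : Set (E (d + 1))) (a : E (d + 1)),
      IsParam Y ψ U ∧ a ∈ U ∧ ψ a = z ∧ ContDiffOn ℝ ∞ (G ∘ ψ) U ∧ fderiv ℝ (G ∘ ψ) a ≠ 0) :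
    IsMfd d {z | z ∈ Y ∧ G z = 0} := by
  rintro z ⟨hzY, hz0⟩
  obtain ⟨ψ, U, a, hp, ha, rfl, hG, hne⟩ := h z hzY hz0
  obtain ⟨O, hO, hOe⟩ := if_image hp
  have hp' : IsParam (Y ∩ O) ψ U := if_param_inter hp (hOe ▸ Set.inter_subset_right)
  have hM : IsMfd (d + 1) (Y ∩ O) := fun p hp0 => ⟨ψ, U, hp', hOe ▸ hp0⟩
  obtain ⟨g, hg⟩ := pk_exists_const_metric (W := W)
  have hq : SmoothAlong (d + 1) (Y ∩ O) G :=
    if_smoothAlong_of_atlas fun x hx => ⟨ψ, U, hp', hOe ▸ hx, hG⟩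
  have hzM : ψ a ∈ Y ∩ O := hOe ▸ Set.mem_image_of_mem ψ ha
  have hdq : 0 < gradSq (d + 1) (Y ∩ O) g G (ψ a) := by
    rw [if_gradSq_eq (hg _ _) hq hp' ha]
    exact pk_gradSqC_pos (hg _ _) hp' G ha hne
  obtain ⟨ψ', r, hL⟩ := rm_orth_param hM (hg _ _) hq hzM hdq
  have hsl := hL.slice (c := 0) (by rw [hz0, sub_self, abs_zero]; exact hL.pos)
  have hset : {x | x ∈ Y ∩ O ∧ G x = 0} = {z | z ∈ Y ∧ G z = 0} ∩ O := by
    ext x
    constructor
    · rintro ⟨⟨h1, h2⟩, h3⟩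
      exact ⟨⟨h1, h3⟩, h2⟩
    · rintro ⟨⟨h1, h3⟩, h2⟩
      exact ⟨⟨h1, h2⟩, h3⟩
  rw [hset] at hsl
  refine ⟨fun y => ψ' (rm_J 0 y), Metric.ball 0 r, if_param_of_inter hO hsl, 0,
    Metric.mem_ball_self hL.pos, ?_⟩
  have := hL.base
  rw [hz0] at this
  exact this

/-- the product parametrisation (coordinate `0` = the line, as in `Rm/Calc.lean`). -/
theorem pk_param_prod {d : ℕ} {X : Set W} {ψ : E d → W} {U : Set (E d)} (h : IsParam X ψ U) :
    IsParam (Prod.fst ⁻¹' X : Set (W × ℝ)) (fun b : E (d + 1) => (ψ (rm_tl d b), b 0))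
      {b | rm_tl d b ∈ U} := by
  obtain ⟨O, hO, hOe⟩ := if_image h
  have hU' : IsOpen {b : E (d + 1) | rm_tl d b ∈ U} := (if_open h).preimage (rm_tl d).continuous
  have hder : ∀ b ∈ {b : E (d + 1) | rm_tl d b ∈ U},
      HasFDerivAt (fun b : E (d + 1) => (ψ (rm_tl d b), b 0))
        (((fderiv ℝ ψ (rm_tl d b)).comp (rm_tl d)).prod (if_pr (0 : Fin (d + 1)))) b := by
    intro b hb
    exact ((if_differentiableAt h hb).hasFDerivAt.comp b (rm_tl d).hasFDerivAt).prodMk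
      (if_pr (0 : Fin (d + 1))).hasFDerivAt
  refine pk_param_mk (O := Prod.fst ⁻¹' O)
    (g := fun z : W × ℝ => rm_J z.2 (Function.invFunOn ψ U z.1)) hU' ?_ ?_
    (hO.preimage continuous_fst) ?_ ?_ ?_
  · exact ((if_smooth h).comp (rm_tl d).contDiff.contDiffOn fun b hb => hb).prodMk
      (if_pr (0 : Fin (d + 1))).contDiff.contDiffOn
  · intro b hb v w hvw
    rw [(hder b hb).fderiv] at hvw
    have h1 : fderiv ℝ ψ (rm_tl d b) (rm_tl d v) = fderiv ℝ ψ (rm_tl d b) (rm_tl d w) :=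
      congrArg Prod.fst hvw
    have h2 : v 0 = w 0 := congrArg Prod.snd hvw
    rw [← rm_J_tl v, ← rm_J_tl w, h2, if_imm h hb h1]
  · ext z
    constructor
    · rintro ⟨b, hb, rfl⟩
      have : ψ (rm_tl d b) ∈ X ∩ O := hOe ▸ Set.mem_image_of_mem ψ hb
      exact this
    · rintro ⟨h1, h2⟩
      have : z.1 ∈ ψ '' U := hOe ▸ (⟨h1, h2⟩ : z.1 ∈ X ∩ O)
      obtain ⟨u, hu, hue⟩ := this
      refine ⟨rm_J z.2 u, by show rm_tl d (rm_J z.2 u) ∈ U; rw [rm_tl_J]; exact hu, ?_⟩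
      show (ψ (rm_tl d (rm_J z.2 u)), rm_J z.2 u 0) = z
      rw [rm_tl_J, rm_J_zero, hue]
  · have h1 : ContinuousOn (fun z : W × ℝ => Function.invFunOn ψ U z.1)
        ((fun b : E (d + 1) => (ψ (rm_tl d b), b 0)) '' {b | rm_tl d b ∈ U}) := by
      refine (if_contInv h).comp continuous_fst.continuousOn ?_
      rintro _ ⟨b, hb, rfl⟩
      exact Set.mem_image_of_mem ψ hb
    unfold rm_J
    exact (continuous_snd.continuousOn.smul continuousOn_const).add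
      ((rm_in d).continuous.comp_continuousOn h1)
  · intro b hb
    show rm_J (b 0) (Function.invFunOn ψ U (ψ (rm_tl d b))) = b
    rw [if_leftInv h hb, rm_J_tl]

/-- product with a line. -/
theorem pk_mfd_prod {d : ℕ} {X : Set W} (hX : IsMfd d X) :
    IsMfd (d + 1) (Prod.fst ⁻¹' X : Set (W × ℝ)) := by
  intro p hp
  obtain ⟨ψ, U, h, u, hu, hue⟩ := hX p.1 hp
  refine ⟨_, _, pk_param_prod h, rm_J p.2 u, by show rm_tl d (rm_J p.2 u) ∈ U; rw [rm_tl_J]; exact hu,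
    ?_⟩
  show (ψ (rm_tl d (rm_J p.2 u)), rm_J p.2 u 0) = p
  rw [rm_tl_J, rm_J_zero, hue]

/-- pull-back of smooth functions to the product with a line. -/
theorem pk_smoothAlong_fst {Y' : Type} [NormedAddCommGroup Y'] [NormedSpace ℝ Y'] {d d' : ℕ}
    {X : Set W} (hX : IsMfd d X) {Z : Set (W × ℝ)} (hZ : Z ⊆ Prod.fst ⁻¹' X) {f : W → Y'}
    (hf : SmoothAlong d X f) : SmoothAlong d' Z (fun z : W × ℝ => f z.1) := by
  obtain ⟨f', ⟨O, hO, hXO, hf'⟩, heq⟩ := if_exists_extension hX hf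
  intro χ U hχ
  have h1 : ContDiffOn ℝ ∞ (f' ∘ (fun u => (χ u).1)) U :=
    hf'.comp (contDiff_fst.comp_contDiffOn (if_smooth hχ)) fun u hu => hXO (hZ (if_mem hχ hu))
  exact h1.congr fun u hu => (heq (hZ (if_mem hχ hu))).symm

/-- the product metric, restricted to any submanifold of the product with a line. -/
theorem pk_isMetricOn_ext {d d' : ℕ} {X : Set W} (hX : IsMfd d X) {Z : Set (W × ℝ)}
    (hZ : Z ⊆ Prod.fst ⁻¹' X) {h : Ten W} (hh : IsMetricOn d X h) :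
    IsMetricOn d' Z (extTen h) := by
  intro χ U hχ
  have hhT : IsTenOn d X h := (if_isMetricOn_iff.1 hh).1
  set Φ : E d' → W := fun u => (χ u).1 with hΦdef
  set s : E d' → ℝ := fun u => (χ u).2 with hsdef
  have hΦ : ∀ u ∈ U, ContDiffAt ℝ ∞ Φ u := fun u hu =>
    contDiff_fst.contDiffAt.comp u (if_contDiffAt hχ hu)
  have hs : ContDiffOn ℝ ∞ s U := contDiff_snd.comp_contDiffOn (if_smooth hχ)
  have hmem : ∀ u ∈ U, ∀ᶠ b in 𝓝 u, Φ b ∈ X := fun u hu => by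
    filter_upwards [(if_open hχ).mem_nhds hu] with b hb
    exact hZ (if_mem hχ hb)
  have hd1 : ∀ u ∈ U, ∀ v, (fderiv ℝ χ u v).1 = fderiv ℝ Φ u v := by
    intro u hu v
    have := ((ContinuousLinearMap.fst ℝ W ℝ).hasFDerivAt.comp u
      (if_differentiableAt hχ hu).hasFDerivAt).fderiv
    have e : Φ = (ContinuousLinearMap.fst ℝ W ℝ) ∘ χ := rfl
    rw [e, this]
    rfl
  have hd2 : ∀ u ∈ U, ∀ v, (fderiv ℝ χ u v).2 = fderiv ℝ s u v := by
    intro u hu v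
    have := ((ContinuousLinearMap.snd ℝ W ℝ).hasFDerivAt.comp u
      (if_differentiableAt hχ hu).hasFDerivAt).fderiv
    have e : s = (ContinuousLinearMap.snd ℝ W ℝ) ∘ χ := rfl
    rw [e, this]
    rfl
  have hbil : ∀ u ∈ U, ∀ v w, extTen h (χ u) (fderiv ℝ χ u v) (fderiv ℝ χ u w) =
      h (Φ u) (fderiv ℝ Φ u v) (fderiv ℝ Φ u w) + fderiv ℝ s u v * fderiv ℝ s u w := by
    intro u hu v w
    rw [extTen_apply, hd1 u hu, hd1 u hu, hd2 u hu, hd2 u hu]
  refine ⟨fun i j => ?_, fun u hu => ?_⟩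
  · have h1 : ContDiffOn ℝ ∞ (fun u => h (Φ u) (fderiv ℝ Φ u (eb i)) (fderiv ℝ Φ u (eb j)) +
        fderiv ℝ s u (eb i) * fderiv ℝ s u (eb j)) U := by
      have h2 : ∀ k : Fin d', ContDiffOn ℝ ∞ (fun u => fderiv ℝ s u (eb k)) U := fun k =>
        (hs.fderiv_of_isOpen (if_open hχ) (m := ∞) (by simp)).clm_apply contDiffOn_const
      have h3 : ContDiffOn ℝ ∞ (fun u => h (Φ u) (fderiv ℝ Φ u (eb i)) (fderiv ℝ Φ u (eb j))) U :=
        fun u hu => (pk_ten_comp hX hhT (hΦ u hu) (hmem u hu) (eb i) (eb j)).contDiffWithinAt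
      exact h3.add ((h2 i).mul (h2 j))
    exact h1.congr fun u hu => hbil u hu _ _
  · refine pk_posDef_of_bil (fun i j => ?_) fun Y hY => ?_
    · show extTen h (χ u) (fderiv ℝ χ u (eb i)) (fderiv ℝ χ u (eb j)) =
        extTen h (χ u) (fderiv ℝ χ u (eb j)) (fderiv ℝ χ u (eb i))
      rw [hbil u hu, hbil u hu, pk_met_comp_symm hX hh (hΦ u hu) (hmem u hu), mul_comm]
    · rw [if_cm_bil, hbil u hu]
      by_cases h0 : fderiv ℝ Φ u Y = 0
      · have h1 : fderiv ℝ s u Y ≠ 0 := by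
          intro h1
          apply hY
          apply if_imm hχ hu
          rw [map_zero]
          exact Prod.ext (by rw [hd1 u hu, h0]; rfl) (by rw [hd2 u hu, h1]; rfl)
        rw [h0, map_zero, zero_add]
        exact mul_self_pos.2 h1
      · have := pk_met_comp_pos hX hh (hΦ u hu) (hmem u hu) Y h0
        have h2 := mul_self_nonneg (fderiv ℝ s u Y)
        linarith

/-- the slice `X × {0}`. -/
theorem pk_mfd_slice {d : ℕ} {X : Set W} (hX : IsMfd d X) :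
    IsMfd d {z : W × ℝ | z.1 ∈ X ∧ z.2 = 0} := by
  rintro ⟨p, t⟩ ⟨hp, ht⟩
  obtain ⟨ψ, U, h, u, hu, hue⟩ := hX p hp
  obtain ⟨O, hO, hOe⟩ := if_image h
  have hder : ∀ b ∈ U, HasFDerivAt (fun b : E d => (ψ b, (0 : ℝ)))
      ((fderiv ℝ ψ b).prod (0 : E d →L[ℝ] ℝ)) b := fun b hb =>
    (if_differentiableAt h hb).hasFDerivAt.prodMk (hasFDerivAt_const (0 : ℝ) b)
  refine ⟨fun b => (ψ b, 0), U, pk_param_mk (O := Prod.fst ⁻¹' O)
    (g := fun z : W × ℝ => Function.invFunOn ψ U z.1) (if_open h) ?_ ?_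
    (hO.preimage continuous_fst) ?_ ?_ ?_, u, hu, ?_⟩
  · exact (if_smooth h).prodMk contDiffOn_const
  · intro b hb v w hvw
    rw [(hder b hb).fderiv] at hvw
    exact if_imm h hb (congrArg Prod.fst hvw)
  · ext z
    constructor
    · rintro ⟨b, hb, rfl⟩
      have : ψ b ∈ X ∩ O := hOe ▸ Set.mem_image_of_mem ψ hb
      exact ⟨⟨this.1, rfl⟩, this.2⟩
    · rintro ⟨⟨h1, h3⟩, h2⟩
      have : z.1 ∈ ψ '' U := hOe ▸ (⟨h1, h2⟩ : z.1 ∈ X ∩ O)
      obtain ⟨u, hu, hue⟩ := this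
      exact ⟨u, hu, Prod.ext hue h3.symm⟩
  · refine (if_contInv h).comp continuous_fst.continuousOn ?_
    rintro _ ⟨b, hb, rfl⟩
    exact Set.mem_image_of_mem ψ hb
  · intro b hb
    exact if_leftInv h hb
  · exact Prod.ext hue ht.symm

/-- a regular function on a `0`-manifold has no zeros. -/
theorem pk_regular_zero {Y : Set W} (hY : IsMfd 0 Y) {G : W → ℝ} (hreg : RegularOn 0 Y G) :
    {z | z ∈ Y ∧ G z = 0} = ∅ := by
  rw [Set.eq_empty_iff_forall_notMem]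
  rintro z ⟨hz, h0⟩
  obtain ⟨ψ, U, h, u, hu, rfl⟩ := hY z hz
  refine hreg ψ U h u hu h0 ?_
  ext v
  have : v = 0 := Subsingleton.elim _ _
  rw [this, map_zero, map_zero]

end Claimed.Agent.R315
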