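import Claimed.Agent.R315.Pk.Mfd

/-!
# Row 315, packets: the regular split (P Lemma A.1) in the embedded model

Given a diagram `E` over the frame `F`, a compatible regular cut function `u`, a compatible positive
width `w` and a corner profile `k` (`IsCorner`), the new diagram over `F.ext` is the explicit family

* `splitE E u w k (α.ext 0)    = {(x, 0) | x ∈ E α, u x = 0}`                     (the wall),
* `splitE E u w k (α.ext (±1)) = {(x, τ) | x ∈ E α, k (± u x / w x) + k (± τ / w x) = 1}`.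

The side is `(x, 0)` where `± u x ≥ w x`, it is exactly the cylinder `L × [w, ∞)` where `± τ ≥ w x`,
and a rounded corner in between: a REGULAR LEVEL SET in `E α × ℝ`.  The ambient data do not change:
the metric is `extTen h = h ⊕ dτ²`, labels are pulled back by `Prod.fst`, which is `1`-Lipschitz.

A collar of the wall is needed only for the map `Φ` of `Link` (`IsCollar`, `pk_split_link`).
-/

set_option autoImplicit false
set_option linter.unusedSectionVars false
open scoped ContDiff Topology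
open MeasureTheory Claims.C0499

namespace Claimed.Agent.R315

variable {V W : Type} [NormedAddCommGroup V] [NormedSpace ℝ V] [NormedAddCommGroup W]
  [NormedSpace ℝ W] {ι : Type}

/-! ### the corner profile -/

/-- profile of the rounded corner `{k a + k b = 1}`. -/
structure IsCorner (k : ℝ → ℝ) : Prop where
  smooth : ContDiff ℝ ∞ k
  zero : k 0 = 1
  far : ∀ a, 1 ≤ a → k a = 0
  anti : ∀ a, a < 1 → deriv k a < 0

namespace IsCorner

variable {k : ℝ → ℝ}

theorem strictAntiOn (hk : IsCorner k) : StrictAntiOn k (Set.Iic 1) :=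
  strictAntiOn_of_deriv_neg (convex_Iic 1) hk.smooth.continuous.continuousOn
    (fun x hx => hk.anti x (by simpa using hx))

theorem pos (hk : IsCorner k) {a : ℝ} (ha : a < 1) : 0 < k a := by
  have := hk.strictAntiOn (Set.mem_Iic.2 ha.le) (Set.mem_Iic.2 le_rfl) ha
  rwa [hk.far 1 le_rfl] at this

theorem nonneg (hk : IsCorner k) (a : ℝ) : 0 ≤ k a := by
  rcases lt_or_ge a 1 with h | h
  · exact (hk.pos h).le
  · exact (hk.far a h).ge

theorem eq_zero_iff (hk : IsCorner k) {a : ℝ} : k a = 0 ↔ 1 ≤ a :=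
  ⟨fun h => by by_contra hc; exact (hk.pos (not_le.1 hc)).ne' h, hk.far a⟩

theorem one_lt (hk : IsCorner k) {a : ℝ} (ha : a < 0) : 1 < k a := by
  have := hk.strictAntiOn (Set.mem_Iic.2 (by linarith)) (Set.mem_Iic.2 zero_le_one) ha
  rwa [hk.zero] at this

theorem lt_one (hk : IsCorner k) {a : ℝ} (ha : 0 < a) : k a < 1 := by
  rcases lt_or_ge a 1 with h | h
  · have := hk.strictAntiOn (Set.mem_Iic.2 zero_le_one) (Set.mem_Iic.2 h.le) ha
    rwa [hk.zero] at this
  · rw [hk.far a h]; exact one_pos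

theorem eq_one_iff (hk : IsCorner k) {a : ℝ} : k a = 1 ↔ a = 0 := by
  constructor
  · intro h
    rcases lt_trichotomy a 0 with h1 | h1 | h1
    · exact absurd h (hk.one_lt h1).ne'
    · exact h1
    · exact absurd h (hk.lt_one h1).ne
  · rintro rfl; exact hk.zero

/-- on the corner both coordinates are nonnegative. -/
theorem nonneg_of_add (hk : IsCorner k) {a b : ℝ} (h : k a + k b = 1) : 0 ≤ a ∧ 0 ≤ b := by
  constructor
  · by_contra hc
    have := hk.one_lt (not_le.1 hc)
    have := hk.nonneg b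
    linarith
  · by_contra hc
    have := hk.one_lt (not_le.1 hc)
    have := hk.nonneg a
    linarith

end IsCorner

/-! ### the new diagram -/

/-- the status spaces after the cut along `u = 0`. -/
def splitE (E : Stat ι → Set W) (u w : W → ℝ) (k : ℝ → ℝ) (α' : Stat (Option ι)) : Set (W × ℝ) :=
  {z | z.1 ∈ E (fun i => α' (some i)) ∧
    ((α' none = 0 ∧ u z.1 = 0 ∧ z.2 = 0) ∨
     (α' none ≠ 0 ∧
      k ((α' none : ℝ) * u z.1 / w z.1) + k ((α' none : ℝ) * z.2 / w z.1) = 1))}

/-- admissible cut data on a diagram. -/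
structure IsCut [Fintype ι] (n : ℕ) (F : Frame V W ι) (E : Stat ι → Set W) (u w : W → ℝ)
    (k : ℝ → ℝ) : Prop where
  u_sc : SC n F E u
  reg : ∀ α, RegularOn (n - hits α) (E α) u
  w_sc : SC n F E w
  w_pos : ∀ z ∈ tot E, 0 < w z
  corner : IsCorner k

theorem Frame.ext_q (F : Frame V W ι) (z : W × ℝ) : F.ext.q z = F.q z.1 := rfl

theorem Frame.ext_t_none (F : Frame V W ι) (z : W × ℝ) : F.ext.t none z = z.2 := rfl

theorem Frame.ext_t_some (F : Frame V W ι) (i : ι) (z : W × ℝ) : F.ext.t (some i) z = F.t i z.1 :=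
  rfl

theorem Frame.ext_drop_none (F : Frame V W ι) (z : W × ℝ) : F.ext.drop none z = (z.1, 0) := by
  have h1 : F.ext.e none = ((0 : W), (1 : ℝ)) := rfl
  rw [Frame.drop, F.ext_t_none, h1]
  ext <;> simp

theorem Frame.ext_drop_some (F : Frame V W ι) (i : ι) (z : W × ℝ) :
    F.ext.drop (some i) z = (F.drop i z.1, z.2) := by
  have h1 : F.ext.e (some i) = (F.e i, (0 : ℝ)) := rfl
  rw [Frame.drop, F.ext_t_some, h1, Frame.drop]
  ext <;> simp

theorem IsCorner.deriv_far {k : ℝ → ℝ} (hk : IsCorner k) {a : ℝ} (ha : 1 ≤ a) : deriv k a = 0 := by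
  have hmin : IsLocalMin k a := Filter.Eventually.of_forall fun x => by
    rw [hk.far a ha]
    exact hk.nonneg x
  exact hmin.deriv_eq_zero

theorem pk_fderiv_ne_of_curve {m : ℕ} {f : E m → ℝ} {a : E m} (hf : DifferentiableAt ℝ f a)
    {c : ℝ → E m} {t₀ : ℝ} (hc : DifferentiableAt ℝ c t₀) (hca : c t₀ = a) {D : ℝ}
    (hD : HasDerivAt (fun t => f (c t)) D t₀) (hD0 : D ≠ 0) : fderiv ℝ f a ≠ 0 := by
  intro h0
  have h1 : HasDerivAt (fun t => f (c t)) (fderiv ℝ f a (deriv c t₀)) t₀ :=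
    HasFDerivAt.comp_hasDerivAt_of_eq t₀ hf.hasFDerivAt hc.hasDerivAt hca.symm
  rw [h0] at h1
  exact hD0 (hD.unique h1)

section split

variable [Fintype ι] {n : ℕ} {M : Set V} {F : Frame V W ι} {E : Stat ι → Set W} {u w : W → ℝ}
  {k : ℝ → ℝ}

theorem mem_splitE_fst {α' : Stat (Option ι)} {z : W × ℝ} (hz : z ∈ splitE E u w k α') :
    z.1 ∈ E (fun i => α' (some i)) := hz.1

theorem fst_mem_tot {z : W × ℝ} (hz : z ∈ tot (splitE E u w k)) : z.1 ∈ tot E := by
  obtain ⟨α', hα'⟩ := mem_tot.1 hz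
  exact mem_tot.2 ⟨_, hα'.1⟩

theorem pk_hits_parent (α' : Stat (Option ι)) :
    hits α' = hits (fun i => α' (some i)) + if α' none = 0 then 1 else 0 := by
  unfold hits
  rw [Fintype.sum_option]
  exact add_comm _ _

/-- **manifold part of the split** (regular level sets in `E α` and in `E α × ℝ`). -/
theorem pk_split_mfd [FiniteDimensional ℝ W] (hD : IsDiag n M F E) (hC : IsCut n F E u w k)
    (α' : Stat (Option ι)) : IsMfd (n - hits α') (splitE E u w k α') := by
  set α : Stat ι := fun i => α' (some i) with hα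
  have hX := hD.mfd α
  have hk := hC.corner
  by_cases h0 : α' none = 0
  · have hh : hits α' = hits α + 1 := by rw [pk_hits_parent, if_pos h0]
    have e : splitE E u w k α' = {z : W × ℝ | z.1 ∈ {x | x ∈ E α ∧ u x = 0} ∧ z.2 = 0} := by
      ext z
      simp only [splitE, h0, Set.mem_ofPred_eq, true_and, ne_eq, not_true_eq_false, false_and,
        or_false, and_assoc]
      exact Iff.rfl
    rw [e, hh]
    rcases Nat.eq_zero_or_pos (n - hits α) with hd | hd
    · have h1 : {x | x ∈ E α ∧ u x = 0} = ∅ := pk_regular_zero (hd ▸ hX) (hd ▸ hC.reg α)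
      rw [h1]
      rintro p ⟨hp, -⟩
      exact absurd hp (Set.notMem_empty _)
    · obtain ⟨d₀, hd₀⟩ : ∃ d₀, n - hits α = d₀ + 1 := ⟨n - hits α - 1, by omega⟩
      have hd₁ : n - (hits α + 1) = d₀ := by omega
      rw [hd₁]
      refine pk_mfd_slice (pk_mfd_level fun z hz hz0 => ?_)
      rw [hd₀] at hX
      obtain ⟨ψ, U, hp, a, ha, rfl⟩ := hX z hz
      have hsm := hC.u_sc.1 α
      have hreg := hC.reg α
      rw [hd₀] at hsm hreg
      exact ⟨ψ, U, a, hp, ha, rfl, hsm ψ U hp, hreg ψ U hp a ha hz0⟩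
  · have hh : hits α' = hits α := by rw [pk_hits_parent, if_neg h0, add_zero]
    set s : ℝ := (α' none : ℝ) with hs
    have hs0 : s ≠ 0 := by
      rw [hs]
      rcases SignType.trichotomy (α' none) with h | h | h
      · rw [h]; simp
      · exact absurd h h0
      · rw [h]; simp
    set G : W × ℝ → ℝ := fun z => k (s * u z.1 / w z.1) + k (s * z.2 / w z.1) - 1 with hG
    have e : splitE E u w k α' = {z : W × ℝ | z ∈ (Prod.fst ⁻¹' E α : Set (W × ℝ)) ∧ G z = 0} := by
      ext z
      simp only [splitE, h0, Set.mem_ofPred_eq, false_and, ne_eq, not_false_eq_true, true_and,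
        false_or, Set.mem_preimage, hG, sub_eq_zero]
      exact Iff.rfl
    rw [e, hh]
    set d := n - hits α with hd
    refine pk_mfd_level fun z hz hz0 => ?_
    obtain ⟨ψ, U, hp, a₀, ha₀, hza⟩ := hX z.1 hz
    have hU₁ : ContDiffOn ℝ ∞ (u ∘ ψ) U := hC.u_sc.1 α ψ U hp
    have hW₁ : ContDiffOn ℝ ∞ (w ∘ ψ) U := hC.w_sc.1 α ψ U hp
    have hWpos : ∀ b ∈ U, 0 < w (ψ b) := fun b hb => hC.w_pos _ (mem_tot.2 ⟨α, if_mem hp hb⟩)
    have hmaps : Set.MapsTo (rm_tl d) {b : R315.E (d + 1) | rm_tl d b ∈ U} U := fun b hb => hb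
    have hopen : IsOpen {b : R315.E (d + 1) | rm_tl d b ∈ U} :=
      (if_open hp).preimage (rm_tl d).continuous
    have haU : rm_J z.2 a₀ ∈ {b : R315.E (d + 1) | rm_tl d b ∈ U} := by
      show rm_tl d (rm_J z.2 a₀) ∈ U
      rw [rm_tl_J]; exact ha₀
    have hsm : ContDiffOn ℝ ∞ (G ∘ fun b : R315.E (d + 1) => (ψ (rm_tl d b), b 0))
        {b | rm_tl d b ∈ U} := by
      have h1 : ContDiffOn ℝ ∞ (fun b : R315.E (d + 1) => u (ψ (rm_tl d b))) {b | rm_tl d b ∈ U} :=
        hU₁.comp (rm_tl d).contDiff.contDiffOn hmaps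
      have h2 : ContDiffOn ℝ ∞ (fun b : R315.E (d + 1) => w (ψ (rm_tl d b))) {b | rm_tl d b ∈ U} :=
        hW₁.comp (rm_tl d).contDiff.contDiffOn hmaps
      have h3 : ContDiffOn ℝ ∞ (fun b : R315.E (d + 1) => b 0) {b | rm_tl d b ∈ U} :=
        (if_pr (0 : Fin (d + 1))).contDiff.contDiffOn
      have hne : ∀ b ∈ {b : R315.E (d + 1) | rm_tl d b ∈ U}, w (ψ (rm_tl d b)) ≠ 0 := fun b hb =>
        (hWpos _ hb).ne'
      exact ((hk.smooth.comp_contDiffOn ((contDiffOn_const.mul h1).div h2 hne)).add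
        (hk.smooth.comp_contDiffOn ((contDiffOn_const.mul h3).div h2 hne))).sub contDiffOn_const
    refine ⟨_, _, rm_J z.2 a₀, pk_param_prod hp, haU, ?_, hsm, ?_⟩
    · show (ψ (rm_tl d (rm_J z.2 a₀)), rm_J z.2 a₀ 0) = z
      rw [rm_tl_J, rm_J_zero, hza]
    have hdiff : DifferentiableAt ℝ (G ∘ fun b : R315.E (d + 1) => (ψ (rm_tl d b), b 0))
        (rm_J z.2 a₀) := (hsm.contDiffAt (hopen.mem_nhds haU)).differentiableAt (by simp)
    have hw₀ : 0 < w z.1 := hza ▸ hWpos a₀ ha₀
    have hsum : k (s * u z.1 / w z.1) + k (s * z.2 / w z.1) = 1 := by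
      have : G z = 0 := hz0
      simp only [hG] at this
      linarith
    have hkd : ∀ x, HasDerivAt k (deriv k x) x := fun x =>
      (hk.smooth.differentiable (by simp) x).hasDerivAt
    rcases lt_or_ge (s * z.2 / w z.1) 1 with hB | hB
    · -- derivative in the direction of the line
      refine pk_fderiv_ne_of_curve hdiff (c := fun t => rm_J t a₀) (t₀ := z.2)
        (D := deriv k (s * z.2 / w z.1) * (s / w z.1)) ?_ rfl ?_ ?_
      · unfold rm_J
        exact (differentiableAt_id.smul_const _).add_const _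
      · have h1 : (fun t => (G ∘ fun b : R315.E (d + 1) => (ψ (rm_tl d b), b 0)) (rm_J t a₀)) =
            fun t => k (s * u z.1 / w z.1) + k (s * t / w z.1) - 1 := by
          funext t
          simp only [Function.comp_apply, hG, rm_tl_J, rm_J_zero, hza]
        rw [h1]
        have h2 : HasDerivAt (fun t : ℝ => s * t / w z.1) (s / w z.1) z.2 := by
          have := ((hasDerivAt_id z.2).const_mul s).div_const (w z.1)
          simpa using this
        exact (((hkd _).comp z.2 h2).const_add _).sub_const _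
      · exact mul_ne_zero (hk.anti _ hB).ne (div_ne_zero hs0 hw₀.ne')
    · -- on the cylinder: `u = 0`
      have hkB : k (s * z.2 / w z.1) = 0 := hk.far _ hB
      have hA : s * u z.1 / w z.1 = 0 := by
        rw [hkB, add_zero] at hsum
        exact hk.eq_one_iff.1 hsum
      have hu0 : u z.1 = 0 := by
        rcases div_eq_zero_iff.1 hA with h | h
        · exact (mul_eq_zero.1 h).resolve_left hs0
        · exact absurd h hw₀.ne'
      have hreg := hC.reg α ψ U hp a₀ ha₀ (hza ▸ hu0)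
      obtain ⟨v, hv⟩ : ∃ v, fderiv ℝ (u ∘ ψ) a₀ v ≠ 0 := by
        by_contra hcon
        push Not at hcon
        exact hreg (ContinuousLinearMap.ext hcon)
      have hl : HasDerivAt (fun t : ℝ => a₀ + t • v) v 0 := by
        have := ((hasDerivAt_id (0 : ℝ)).smul_const v).const_add a₀
        simpa using this
      have hl0 : a₀ = a₀ + (0 : ℝ) • v := by simp
      have hUd : HasDerivAt (fun t : ℝ => u (ψ (a₀ + t • v))) (fderiv ℝ (u ∘ ψ) a₀ v) 0 :=
        HasFDerivAt.comp_hasDerivAt_of_eq 0 ((hU₁.contDiffAt ((if_open hp).mem_nhds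
          ha₀)).differentiableAt (by simp)).hasFDerivAt hl hl0
      have hWd : HasDerivAt (fun t : ℝ => w (ψ (a₀ + t • v))) (fderiv ℝ (w ∘ ψ) a₀ v) 0 :=
        HasFDerivAt.comp_hasDerivAt_of_eq 0 ((hW₁.contDiffAt ((if_open hp).mem_nhds
          ha₀)).differentiableAt (by simp)).hasFDerivAt hl hl0
      have hw1 : w (ψ (a₀ + (0 : ℝ) • v)) = w z.1 := by rw [← hl0, hza]
      have hu1 : u (ψ (a₀ + (0 : ℝ) • v)) = 0 := by rw [← hl0, hza, hu0]
      have hq1 := (hUd.const_mul s).div hWd (by rw [hw1]; exact hw₀.ne')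
      have hq2 := (hasDerivAt_const (0 : ℝ) (s * z.2)).div hWd (by rw [hw1]; exact hw₀.ne')
      have hk1 := HasDerivAt.comp_of_eq (0 : ℝ) (hkd (s * u z.1 / w z.1)) hq1
        (by simp only [Pi.div_apply, hu1, hw1, hu0])
      have hk2 := HasDerivAt.comp_of_eq (0 : ℝ) (hkd (s * z.2 / w z.1)) hq2
        (by simp only [Pi.div_apply, hw1])
      rw [hk.deriv_far hB, zero_mul] at hk2
      refine pk_fderiv_ne_of_curve hdiff (c := fun t => rm_J z.2 (a₀ + t • v)) (t₀ := 0)
        ?_ (by simp) (((hk1.add hk2).sub_const 1).congr_of_eventuallyEq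
          (Filter.Eventually.of_forall fun t => ?_)) ?_
      · exact ((rm_J_hasFDerivAt z.2 _).comp_hasDerivAt (0 : ℝ) hl).differentiableAt
      · simp only [Function.comp_apply, hG, rm_tl_J, rm_J_zero, Pi.add_apply, Pi.div_apply]
      · rw [add_zero, hA, hu1, hw1]
        refine mul_ne_zero (hk.anti 0 one_pos).ne ?_
        refine div_ne_zero ?_ (pow_ne_zero 2 hw₀.ne')
        rw [mul_zero, zero_mul, sub_zero]
        exact mul_ne_zero (mul_ne_zero hs0 hv) hw₀.ne'

theorem IsCut.u_cont (hD : IsDiag n M F E) (hC : IsCut n F E u w k) (α : Stat ι) :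
    ContinuousOn u (E α) := if_smoothAlong_continuousOn (hD.mfd α) (hC.u_sc.1 α)

theorem IsCut.w_cont (hD : IsDiag n M F E) (hC : IsCut n F E u w k) (α : Stat ι) :
    ContinuousOn w (E α) := if_smoothAlong_continuousOn (hD.mfd α) (hC.w_sc.1 α)

theorem pk_split_closed (hD : IsDiag n M F E) (hC : IsCut n F E u w k) (α' : Stat (Option ι)) :
    IsClosed (splitE E u w k α') := by
  set α : Stat ι := fun i => α' (some i) with hα
  have hX : IsClosed (Prod.fst ⁻¹' E α : Set (W × ℝ)) := (hD.closed α).preimage continuous_fst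
  have hu : ContinuousOn (fun z : W × ℝ => u z.1) (Prod.fst ⁻¹' E α) :=
    (hC.u_cont hD α).comp continuous_fst.continuousOn fun z hz => hz
  have hw : ContinuousOn (fun z : W × ℝ => w z.1) (Prod.fst ⁻¹' E α) :=
    (hC.w_cont hD α).comp continuous_fst.continuousOn fun z hz => hz
  have hw0 : ∀ z ∈ (Prod.fst ⁻¹' E α : Set (W × ℝ)), w z.1 ≠ 0 := fun z hz =>
    (hC.w_pos z.1 (mem_tot.2 ⟨α, hz⟩)).ne'
  by_cases h0 : α' none = 0
  · have e : splitE E u w k α' =
        (Prod.fst ⁻¹' E α ∩ (fun z : W × ℝ => u z.1) ⁻¹' {0}) ∩ (Prod.snd ⁻¹' {0}) := by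
      ext z
      simp only [splitE, h0, Set.mem_ofPred_eq, Set.mem_inter_iff, Set.mem_preimage,
        Set.mem_singleton_iff, true_and, ne_eq, not_true_eq_false, false_and, or_false]
      tauto
    rw [e]
    exact (hu.preimage_isClosed_of_isClosed hX isClosed_singleton).inter
      (isClosed_singleton.preimage continuous_snd)
  · have hG : ContinuousOn (fun z : W × ℝ => k ((α' none : ℝ) * u z.1 / w z.1) +
        k ((α' none : ℝ) * z.2 / w z.1)) (Prod.fst ⁻¹' E α) := by
      refine ContinuousOn.add ?_ ?_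
      · exact hC.corner.smooth.continuous.comp_continuousOn
          ((continuousOn_const.mul hu).div hw hw0)
      · exact hC.corner.smooth.continuous.comp_continuousOn
          ((continuousOn_const.mul continuous_snd.continuousOn).div hw hw0)
    have e : splitE E u w k α' = Prod.fst ⁻¹' E α ∩ (fun z : W × ℝ =>
        k ((α' none : ℝ) * u z.1 / w z.1) + k ((α' none : ℝ) * z.2 / w z.1)) ⁻¹' {1} := by
      ext z
      simp only [splitE, h0, Set.mem_ofPred_eq, Set.mem_inter_iff, Set.mem_preimage,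
        Set.mem_singleton_iff, false_and, ne_eq, not_false_eq_true, true_and, false_or]
      rfl
    rw [e]
    exact hG.preimage_isClosed_of_isClosed hX isClosed_singleton

/-- on a side the new coordinate has the sign of the status and so has `u`. -/
theorem splitE_side_sign (hC : IsCut n F E u w k) {α' : Stat (Option ι)} {z : W × ℝ}
    (hz : z ∈ splitE E u w k α') (h0 : α' none ≠ 0) :
    0 ≤ (α' none : ℝ) * u z.1 ∧ 0 ≤ (α' none : ℝ) * z.2 := by
  have hw : 0 < w z.1 := hC.w_pos _ (mem_tot.2 ⟨_, hz.1⟩)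
  rcases hz.2 with h | h
  · exact absurd h.1 h0
  · obtain ⟨h1, h2⟩ := hC.corner.nonneg_of_add h.2
    exact ⟨by rwa [le_div_iff₀ hw, zero_mul] at h1, by rwa [le_div_iff₀ hw, zero_mul] at h2⟩

theorem signType_cast_cases (s : SignType) (h : s ≠ 0) : (s = 1 ∧ (s : ℝ) = 1) ∨
    (s = -1 ∧ (s : ℝ) = -1) := by
  rcases s with _ | _ | _
  · exact absurd rfl h
  · right; exact ⟨rfl, by simp⟩
  · left; exact ⟨rfl, by simp⟩

theorem pk_split_disj (hD : IsDiag n M F E) (hC : IsCut n F E u w k) (α' β' : Stat (Option ι))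
    (hne : α' ≠ β') : Disjoint (splitE E u w k α') (splitE E u w k β') := by
  rw [Set.disjoint_left]
  intro z hz hz'
  have hw : 0 < w z.1 := hC.w_pos _ (mem_tot.2 ⟨_, hz.1⟩)
  have hk := hC.corner
  have hsome : (fun i => α' (some i)) = fun i => β' (some i) := by
    by_contra hcon
    exact Set.disjoint_left.1 (hD.disj _ _ hcon) hz.1 hz'.1
  have hnone : α' none ≠ β' none := by
    intro h
    apply hne
    funext o
    rcases o with _ | i
    · exact h
    · exact congrFun hsome i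
  -- a hit point is not on a side
  have aux : ∀ γ δ : Stat (Option ι), z ∈ splitE E u w k γ → z ∈ splitE E u w k δ → γ none = 0 →
      δ none ≠ 0 → False := by
    intro γ δ hγ hδ h0 h1
    rcases hγ.2 with h | h
    · rcases hδ.2 with h' | h'
      · exact h1 h'.1
      · have := h'.2
        rw [h.2.1, h.2.2] at this
        simp [hk.zero] at this
    · exact h.1 h0
  by_cases h0 : α' none = 0
  · exact aux α' β' hz hz' h0 (fun h => hnone (h0.trans h.symm))
  by_cases h1 : β' none = 0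
  · exact aux β' α' hz' hz h1 h0
  -- opposite sides
  have s1 := splitE_side_sign hC hz h0
  have s2 := splitE_side_sign hC hz' h1
  have hopp : (β' none : ℝ) = - (α' none : ℝ) := by
    rcases signType_cast_cases _ h0 with ⟨a1, a2⟩ | ⟨a1, a2⟩ <;>
      rcases signType_cast_cases _ h1 with ⟨b1, b2⟩ | ⟨b1, b2⟩
    · exact absurd (a1.trans b1.symm) hnone
    · rw [a2, b2]
    · rw [a2, b2]; simp
    · exact absurd (a1.trans b1.symm) hnone
  rw [hopp] at s2
  have hu0 : (α' none : ℝ) * u z.1 = 0 := by linarith [s1.1, s2.1]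
  have hz0 : (α' none : ℝ) * z.2 = 0 := by linarith [s1.2, s2.2]
  rcases hz.2 with h | h
  · exact h0 h.1
  · have := h.2
    rw [hu0, hz0] at this
    simp [hk.zero] at this

theorem pk_split_tail [FiniteDimensional ℝ W] (hD : IsDiag n M F E) (hC : IsCut n F E u w k)
    (i' : Option ι) (α' β' : Stat (Option ι)) (hf : IsFace i' α' β') (K : Set V)
    (hK : IsCompact K) : ∃ R : ℝ, ∀ z : W × ℝ, F.ext.q z ∈ K →
      R < (α' i' : ℝ) * F.ext.t i' z →
      (z ∈ splitE E u w k α' ↔ F.ext.drop i' z ∈ splitE E u w k β') := by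
  have hk := hC.corner
  rcases i' with _ | i
  · -- the fresh tail
    obtain ⟨C, hCb⟩ := CC.bounded hD ⟨fun α => hC.w_cont hD α, hC.w_sc.2⟩ hK
    have hsome : (fun i => β' (some i)) = fun i => α' (some i) := by
      funext i; exact hf.2.2 (some i) (by simp)
    refine ⟨C, fun z hq hlt => ?_⟩
    rw [F.ext_drop_none]
    rw [F.ext_t_none] at hlt
    have hq' : F.q z.1 ∈ K := hq
    have key : z.1 ∈ E (fun i => α' (some i)) → 1 ≤ (α' none : ℝ) * z.2 / w z.1 := by
      intro hx
      have hx' : z.1 ∈ tot E := mem_tot.2 ⟨_, hx⟩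
      have hw : 0 < w z.1 := hC.w_pos _ hx'
      have := hCb z.1 hx' hq'
      rw [le_div_iff₀ hw, one_mul]
      linarith [le_abs_self (w z.1)]
    constructor
    · intro hz
      have hw : 0 < w z.1 := hC.w_pos _ (mem_tot.2 ⟨_, hz.1⟩)
      refine ⟨by rw [hsome]; exact hz.1, Or.inl ⟨hf.2.1, ?_, rfl⟩⟩
      rcases hz.2 with h | h
      · exact h.2.1
      · have h2 := h.2
        rw [hk.far _ (key hz.1), add_zero, hk.eq_one_iff, div_eq_zero_iff] at h2
        rcases h2 with h2 | h2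
        · rcases mul_eq_zero.1 h2 with h3 | h3
          · rcases signType_cast_cases _ hf.1 with ⟨_, a2⟩ | ⟨_, a2⟩ <;> rw [a2] at h3 <;>
              norm_num at h3
          · exact h3
        · exact absurd h2 hw.ne'
    · intro hz
      have hx : z.1 ∈ E (fun i => α' (some i)) := by
        have := hz.1; rw [hsome] at this; exact this
      refine ⟨hx, Or.inr ⟨hf.1, ?_⟩⟩
      rcases hz.2 with h | h
      · have hu : u z.1 = 0 := h.2.1
        rw [hk.far _ (key hx), hu]
        simp [hk.zero]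
      · exact absurd hf.2.1 h.1
  · -- an old tail
    set α : Stat ι := fun j => α' (some j) with hα
    set β : Stat ι := fun j => β' (some j) with hβ
    have hface : IsFace i α β :=
      ⟨hf.1, hf.2.1, fun j hj => hf.2.2 (some j) (by simpa using hj)⟩
    have hnone : β' none = α' none := hf.2.2 none (by simp)
    obtain ⟨R1, hR1⟩ := hD.tail i α β hface K hK
    obtain ⟨R2, hR2⟩ := hC.u_sc.2 i K hK
    obtain ⟨R3, hR3⟩ := hC.w_sc.2 i K hK
    refine ⟨max R1 (max R2 R3), fun z hq hlt => ?_⟩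
    rw [F.ext_drop_some]
    rw [F.ext_t_some] at hlt
    have hq' : F.q z.1 ∈ K := hq
    have hlt' : max R1 (max R2 R3) < (α i : ℝ) * F.t i z.1 := hlt
    have h1 : R1 < (α i : ℝ) * F.t i z.1 := lt_of_le_of_lt (le_max_left _ _) hlt'
    have hiff := hR1 z.1 hq' h1
    have hdata : z.1 ∈ E α → u (F.drop i z.1) = u z.1 ∧ w (F.drop i z.1) = w z.1 := by
      intro hx
      have hx' : z.1 ∈ tot E := mem_tot.2 ⟨_, hx⟩
      have habs := hD.sign_mul hx i
      rw [habs] at hlt'
      exact ⟨hR2 z.1 hx' hq' (lt_of_le_of_lt ((le_max_left _ _).trans (le_max_right _ _)) hlt'),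
        hR3 z.1 hx' hq' (lt_of_le_of_lt ((le_max_right _ _).trans (le_max_right _ _)) hlt')⟩
    constructor
    · intro hz
      obtain ⟨e1, e2⟩ := hdata hz.1
      refine ⟨hiff.1 hz.1, ?_⟩
      show (β' none = 0 ∧ u (F.drop i z.1) = 0 ∧ z.2 = 0) ∨ (β' none ≠ 0 ∧
        k ((β' none : ℝ) * u (F.drop i z.1) / w (F.drop i z.1)) +
          k ((β' none : ℝ) * z.2 / w (F.drop i z.1)) = 1)
      rw [hnone, e1, e2]
      exact hz.2
    · intro hz
      have hx : z.1 ∈ E α := hiff.2 hz.1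
      obtain ⟨e1, e2⟩ := hdata hx
      refine ⟨hx, ?_⟩
      have := hz.2
      change (β' none = 0 ∧ u (F.drop i z.1) = 0 ∧ z.2 = 0) ∨ (β' none ≠ 0 ∧
        k ((β' none : ℝ) * u (F.drop i z.1) / w (F.drop i z.1)) +
          k ((β' none : ℝ) * z.2 / w (F.drop i z.1)) = 1) at this
      rw [hnone, e1, e2] at this
      exact this

/-- **The split is a diagram** (P Lemma A.1). -/
theorem pk_split_diag [FiniteDimensional ℝ W] (hD : IsDiag n M F E) (hC : IsCut n F E u w k) :
    IsDiag n M F.ext (splitE E u w k) where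
  closed := pk_split_closed hD hC
  mfd := pk_split_mfd hD hC
  disj := pk_split_disj hD hC
  q_mem := fun α' z hz => hD.q_mem _ z.1 hz.1
  t_hit := by
    rintro α' z hz (_ | i) h0
    · rcases hz.2 with h | h
      · exact h.2.2
      · exact absurd h0 h.1
    · exact hD.t_hit _ z.1 hz.1 i h0
  t_pos := by
    rintro α' z hz (_ | i) h1
    · have := (splitE_side_sign hC hz (by rw [h1]; decide)).2
      rw [h1] at this
      show 0 ≤ z.2
      simpa using this
    · exact hD.t_pos _ z.1 hz.1 i h1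
  t_neg := by
    rintro α' z hz (_ | i) h1
    · have := (splitE_side_sign hC hz (by rw [h1]; decide)).2
      rw [h1] at this
      have h2 : 0 ≤ -z.2 := by simpa using this
      show z.2 ≤ 0
      linarith
    · exact hD.t_neg _ z.1 hz.1 i h1
  tail := pk_split_tail hD hC

/-- confinement is inherited. -/
theorem pk_split_conf (hconf : Conf F E) : Conf F.ext (splitE E u w k) := by
  intro α' z hz
  obtain ⟨K, hK, hKq⟩ := hconf _ z.1 hz.1
  refine ⟨K, hK, fun y hy => hKq y.1 ?_⟩
  have hpre : IsPreconnected (Prod.fst '' connectedComponentIn (splitE E u w k α') z) :=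
    isPreconnected_connectedComponentIn.image _ continuous_fst.continuousOn
  have hsub : Prod.fst '' connectedComponentIn (splitE E u w k α') z ⊆
      E (fun i => α' (some i)) := by
    rintro _ ⟨y, hy, rfl⟩
    exact (connectedComponentIn_subset _ _ hy).1
  exact hpre.subset_connectedComponentIn ⟨z, mem_connectedComponentIn hz, rfl⟩ hsub ⟨y, hy, rfl⟩

/-- compatibility of pull-backs by the projection. -/
theorem Compat.split {X : Type} {φ : W → X} (h : Compat F E φ) :
    Compat F.ext (splitE E u w k) (fun z => φ z.1) := by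
  rintro (_ | i) K hK
  · exact ⟨0, fun z _ _ _ => by rw [F.ext_drop_none]⟩
  · obtain ⟨R, hR⟩ := h i K hK
    refine ⟨R, fun z hz hq hlt => ?_⟩
    rw [F.ext_drop_some]
    exact hR z.1 (fst_mem_tot hz) hq hlt

theorem CC.split {X : Type} [TopologicalSpace X] {φ : W → X} (h : CC F E φ) :
    CC F.ext (splitE E u w k) (fun z => φ z.1) :=
  ⟨fun _ => (h.1 _).comp continuous_fst.continuousOn fun _ hz => hz.1, h.2.split⟩

theorem SC.split [FiniteDimensional ℝ W] (hD : IsDiag n M F E) {X : Type} [NormedAddCommGroup X]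
    [NormedSpace ℝ X] {φ : W → X} (h : SC n F E φ) :
    SC n F.ext (splitE E u w k) (fun z => φ z.1) :=
  ⟨fun _ => pk_smoothAlong_fst (hD.mfd _) (fun _ hz => hz.1) (h.1 _), h.2.split⟩

/-- **the product metric on the split.** -/
theorem pk_split_metric [FiniteDimensional ℝ W] (hD : IsDiag n M F E) {h : Ten W}
    (hh : IsPMetric n F E h) : IsPMetric n F.ext (splitE E u w k) (extTen h) where
  met := fun _ => pk_isMetricOn_ext (hD.mfd _) (fun _ hz => hz.1) (hh.met _)
  compat := by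
    have := (hh.compat.split (u := u) (w := w) (k := k))
    intro o K hK
    obtain ⟨R, hR⟩ := this o K hK
    refine ⟨R, fun z hz hq hlt => ?_⟩
    have e : h (F.ext.drop o z).1 = h z.1 := hR z hz hq hlt
    unfold extTen
    rw [e]
  normal := by
    rintro α' z hz (_ | i) h0 w'
    · have h1 : F.ext.e none = ((0 : W), (1 : ℝ)) := rfl
      rw [h1, extTen_apply, extTen_apply, F.ext_t_none]
      simp
    · have h1 : F.ext.e (some i) = (F.e i, (0 : ℝ)) := rfl
      obtain ⟨a1, a2⟩ := hh.normal _ z.1 hz.1 i h0 w'.1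
      rw [h1, extTen_apply, extTen_apply, F.ext_t_some]
      simp [a1, a2]

end split

/-! ### the labels on the split -/

section labels

variable [Fintype ι] {F : Frame V W ι} {u w : W → ℝ} {k : ℝ → ℝ}

/-- the data of the new stage: everything is pulled back by `Prod.fst`, the potentials are
multiplied by `κ`, the drift `dr'` is free. -/
noncomputable def PData.split {I : Type} (P : PData W ι I) (u w : W → ℝ) (k : ℝ → ℝ) (κ : ℝ)
    (dr' : W × ℝ → ℝ) : PData (W × ℝ) (Option ι) I where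
  E := splitE P.E u w k
  h := extTen P.h
  dr := dr'
  mu := fun j z => P.mu j z.1
  pot := fun j z => κ * P.pot j z.1
  Up := fun j => Prod.fst ⁻¹' P.Up j
  Un := fun j => Prod.fst ⁻¹' P.Un j

theorem rdist_nonneg (X : Set W) (h : Ten W) (x y : W) : 0 ≤ rdist X h x y := by
  unfold rdist
  apply Real.sInf_nonneg
  rintro L ⟨c, _, _, _, _, rfl⟩
  exact intervalIntegral.integral_nonneg zero_le_one fun t _ => Real.sqrt_nonneg _

theorem SlopeLE.mono {X : Set W} {h : Ten W} {f : W → ℝ} {z : W} {c c' : ℝ}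
    (hs : SlopeLE X h f z c) (hc : c ≤ c') : SlopeLE X h f z c' := by
  intro ε hε
  obtain ⟨N, hN, hle⟩ := hs ε hε
  refine ⟨N, hN, fun y hy y' hy' => (hle y hy y' hy').trans ?_⟩
  exact mul_le_mul_of_nonneg_right (by linarith) (rdist_nonneg _ _ _ _)

theorem pk_exists_join_nhd [FiniteDimensional ℝ W] {d : ℕ} {Z : Set W} (hZ : IsMfd d Z) {z : W} (hz : z ∈ Z) :
    ∃ O ∈ 𝓝 z, ∀ y ∈ O ∩ Z, ∀ y' ∈ O ∩ Z, if_Join Z y y' := by
  obtain ⟨ψ, U, hp, u, hu, rfl⟩ := hZ z hz
  obtain ⟨r, hr, hb⟩ := Metric.isOpen_iff.1 (if_open hp) u hu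
  obtain ⟨O, hO, hOe⟩ := if_image_open hp Metric.isOpen_ball hb
  have hm : ψ u ∈ ψ '' Metric.ball u r := ⟨u, Metric.mem_ball_self hr, rfl⟩
  refine ⟨O, hO.mem_nhds (hOe ▸ hm : ψ u ∈ Z ∩ O).2, fun y hy y' hy' => ?_⟩
  obtain ⟨a, ha, rfl⟩ : y ∈ ψ '' Metric.ball u r := hOe ▸ (⟨hy.2, hy.1⟩ : y ∈ Z ∩ O)
  obtain ⟨a', ha', rfl⟩ : y' ∈ ψ '' Metric.ball u r := hOe ▸ (⟨hy'.2, hy'.1⟩ : y' ∈ Z ∩ O)
  exact if_join_of_segment hp (((convex_ball u r).segment_subset ha ha').trans hb)

/-- **the projection is `1`-Lipschitz**: slopes do not increase under pull-back.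
(Leaf: a `C¹` curve `c` in `Z` projects to the `C¹` curve `Prod.fst ∘ c` in `X`, whose `h`-length is
at most the `extTen h`-length of `c`; points of `Z` near `z` are joined by curves in `Z`.) -/
theorem pk_slope_fst [FiniteDimensional ℝ W] {d d' : ℕ} {X : Set W} (hX : IsMfd d X)
    {Z : Set (W × ℝ)} (hZ : IsMfd d' Z) (hZX : Z ⊆ Prod.fst ⁻¹' X) {h : Ten W}
    (hh : IsMetricOn d X h) {f : W → ℝ} {z : W × ℝ} (hz : z ∈ Z) {c : ℝ} (hc : 0 ≤ c)
    (hs : SlopeLE X h f z.1 c) : SlopeLE Z (extTen h) (fun y => f y.1) z c := by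
  intro ε hε
  obtain ⟨N, hN, hle⟩ := hs ε hε
  obtain ⟨O, hO, hjoin⟩ := pk_exists_join_nhd hZ hz
  have hhT : IsTenOn d X h := (if_isMetricOn_iff.1 hh).1
  have hhT' : IsTenOn d' Z (extTen h) := (if_isMetricOn_iff.1 (pk_isMetricOn_ext hX hZX hh)).1
  have hm0 : (0 : ℝ) ∈ Set.Icc (0 : ℝ) 1 := ⟨le_rfl, zero_le_one⟩
  have hm1 : (1 : ℝ) ∈ Set.Icc (0 : ℝ) 1 := ⟨zero_le_one, le_rfl⟩
  refine ⟨Prod.fst ⁻¹' N ∩ O, Filter.inter_mem (continuous_fst.continuousAt.preimage_mem_nhds hN)
    hO, fun y hy y' hy' => ?_⟩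
  refine (hle y.1 ⟨hy.1.1, hZX hy.2⟩ y'.1 ⟨hy'.1.1, hZX hy'.2⟩).trans ?_
  refine mul_le_mul_of_nonneg_left ?_ (by linarith)
  refine if_le_rdist (hjoin y ⟨hy.1.2, hy.2⟩ y' ⟨hy'.1.2, hy'.2⟩) fun γ hγ e0 e1 => ?_
  have hadm : if_Adm X (fun t => (γ t).1) :=
    ⟨contDiff_fst.comp hγ.1, fun t ht => hZX (hγ.2 t ht)⟩
  refine (if_rdist_le' hadm h (by rw [e0]) (by rw [e1])).trans ?_
  unfold if_len
  refine intervalIntegral.integral_mono_on zero_le_one
    (if_speed_intervalIntegrable hX hhT hadm hm0 hm1)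
    (if_speed_intervalIntegrable hZ hhT' hγ hm0 hm1) fun t _ => ?_
  have hd : deriv (fun t => (γ t).1) t = (deriv γ t).1 :=
    ((ContinuousLinearMap.fst ℝ W ℝ).hasFDerivAt.comp_hasDerivAt t
      (hγ.1.differentiable (by simp) t).hasDerivAt).deriv
  unfold if_speed
  rw [hd, extTen_apply]
  exact Real.sqrt_le_sqrt (by nlinarith [mul_self_nonneg (deriv γ t).2])

theorem RelOpen.split {E : Stat ι → Set W} {U : Set W} (h : RelOpen E U) :
    RelOpen (splitE E u w k) (Prod.fst ⁻¹' U) := by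
  rintro α' z ⟨hzU, hz⟩
  obtain ⟨N, hN, hsub⟩ := h _ z.1 ⟨hzU, hz.1⟩
  exact ⟨Prod.fst ⁻¹' N, continuous_fst.continuousAt.preimage_mem_nhds hN,
    fun y hy => hsub ⟨hy.1, hy.2.1⟩⟩

/-- conditions on a remaining label pass to the split. -/
theorem LabelOk.split [FiniteDimensional ℝ W] {B : Base V} {P : PData W ι B.J} {a a' : ℝ}
    {j : B.J} (hD : IsDiag B.n B.M F P.E) (hC : IsCut B.n F P.E u w k)
    (hm : IsPMetric B.n F P.E P.h) (hL : LabelOk B F P a j) (ha0 : 0 ≤ a) (ha : a ≤ a')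
    (hp : 0 < B.pst j) {κ : ℝ} (hκ : 1 ≤ κ) (dr' : W × ℝ → ℝ) :
    LabelOk B F.ext (P.split u w k κ dr') a' j where
  mu_cc := hL.mu_cc.split
  slope := by
    intro α' z hz h1 h2
    have hz1 : z.1 ∈ P.E (fun i => α' (some i)) := hz.1
    have hpot : 0 < P.pot j z.1 := lt_of_lt_of_le hp (hL.pot_ge _ (mem_tot.2 ⟨_, hz1⟩))
    have hs := hL.slope _ z.1 hz1 h1 h2
    have hc0 : 0 ≤ (a * (P.mu j z.1).toReal ^ 2 + P.pot j z.1) / 2 := by positivity
    have := pk_slope_fst (hD.mfd _) ((pk_split_diag hD hC).mfd α') (fun _ hy => hy.1) (hm.met _)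
      hz hc0 hs
    refine this.mono ?_
    show (a * (P.mu j z.1).toReal ^ 2 + P.pot j z.1) / 2 ≤
      (a' * (P.mu j z.1).toReal ^ 2 + κ * P.pot j z.1) / 2
    have h3 : a * (P.mu j z.1).toReal ^ 2 ≤ a' * (P.mu j z.1).toReal ^ 2 :=
      mul_le_mul_of_nonneg_right ha (by positivity)
    have h4 : P.pot j z.1 ≤ κ * P.pot j z.1 := le_mul_of_one_le_left hpot.le hκ
    linarith
  pot_sc := by
    have h1 := hL.pot_sc.split (u := u) (w := w) (k := k) hD
    refine ⟨fun α' ψ U hψ => ?_, fun o K hK => ?_⟩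
    · exact contDiffOn_const.mul (h1.1 α' ψ U hψ)
    · obtain ⟨R, hR⟩ := h1.2 o K hK
      refine ⟨R, fun z hz hq hlt => ?_⟩
      show κ * P.pot j (F.ext.drop o z).1 = κ * P.pot j z.1
      have e : P.pot j (F.ext.drop o z).1 = P.pot j z.1 := hR z hz hq hlt
      rw [e]
  pot_ge := by
    intro z hz
    have hz1 : z.1 ∈ tot P.E := fst_mem_tot hz
    have h1 := hL.pot_ge _ hz1
    have h4 : P.pot j z.1 ≤ κ * P.pot j z.1 := le_mul_of_one_le_left (by linarith) hκ
    exact h1.trans h4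
  up_open := hL.up_open.split
  un_open := hL.un_open.split
  up_compat := hL.up_compat.split
  un_compat := hL.un_compat.split
  up_pole := by
    intro α' z hz hcl
    have h1 : z.1 ∈ closure (P.Up j ∩ P.E (fun i => α' (some i))) := by
      have := image_closure_subset_closure_image (f := Prod.fst) continuous_fst ⟨z, hcl, rfl⟩
      refine closure_mono ?_ this
      rintro _ ⟨y, hy, rfl⟩
      exact ⟨hy.1, hy.2.1⟩
    obtain ⟨N, hN, hpole⟩ := hL.up_pole _ z.1 hz.1 h1
    exact ⟨Prod.fst ⁻¹' N, continuous_fst.continuousAt.preimage_mem_nhds hN,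
      fun y hy => hpole y.1 ⟨hy.1, hy.2.1⟩⟩
  un_pole := by
    intro α' z hz hcl
    have h1 : z.1 ∈ closure (P.Un j ∩ P.E (fun i => α' (some i))) := by
      have := image_closure_subset_closure_image (f := Prod.fst) continuous_fst ⟨z, hcl, rfl⟩
      refine closure_mono ?_ this
      rintro _ ⟨y, hy, rfl⟩
      exact ⟨hy.1, hy.2.1⟩
    obtain ⟨N, hN, hpole⟩ := hL.un_pole _ z.1 hz.1 h1
    exact ⟨Prod.fst ⁻¹' N, continuous_fst.continuousAt.preimage_mem_nhds hN,
      fun y hy => hpole y.1 ⟨hy.1, hy.2.1⟩⟩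
  forced_up := fun z hz hq => hL.forced_up z.1 (fst_mem_tot hz) hq
  forced_un := fun z hz hq => hL.forced_un z.1 (fst_mem_tot hz) hq

end labels

end Claimed.Agent.R315
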