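import Claimed.Agent.R315.Pk.PressD
import Claimed.Agent.R315.Ct.Defs

/-!
# Row 315, package B1, part E: assembly of `ct_pressure` (P Lemma B.1)

PACKAGE PK-PRESS-E (one owner; ~400 lines; glue + elementary inequalities).  `ct_pressure_pf` has literally the statement of
`ct_pressure` (`Ct/CutE.lean`), which will be redirected to it.

PLAN.  `a = pkA s ∈ [.60,.63]`, `L = H.label j0 hj`, `π = B.pst j0 > 0`, `pot = P.pot j0 ≥ π` on `tot E`.
1. `T` = sum of threshold functions of the diagram, `P.h`, `P.mu j0`, `P.pot j0` (`IsDiag.exists_thr`, `Compat.exists_thr`, `.mono`).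
2. `Cq` from `pk_q_sq_le`; `Cw` from `pkBlend_gradSq_le` (for this `T`).
3. `κ` from `pk_exists_tol (m := 1)` with `b x = min (1 / (3 + max (Λ x) 0)) (a / (2 * (1 + Cq x)))` (locally bounded below by positive
   constants because `Λ` and `Cq` are locally bounded above).  `‖iteratedFDeriv ℝ 0 κ x‖ = |κ x|`, `‖iteratedFDeriv ℝ 1 κ x‖ = ‖fderiv ℝ κ x‖`
   (`norm_iteratedFDeriv_zero`, `norm_iteratedFDeriv_one`/`norm_fderiv_iteratedFDeriv`).
   `m y = 1 / κ (q y)`: `ContDiff`, `> 0`, `≥ 3 + Λ (q y)`; `gradSq m ≤ (a m²/2)²`: `m = (fun x => 1/κ x) ∘ q`, `pk_gradSq_comp_q`,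
   `‖fderiv (1/κ) x‖ = ‖fderiv κ x‖/κ x²`.
4. `zc y = pkClip (P.mu j0 y) (m y)`: `ContinuousOn` every `E α` (`pkClip_continuous`, `L.mu_cc.1`), `Thr F E zc T`, slope
   `≤ Fb := (a zc² + pot)/2` (`pk_clip_slope`, `L.slope`).  `Fb` is continuous on `E α`, `≥ 0`, `Thr F E Fb T`.
5. `δ₀` from `pk_exists_tol (m := 0)` with `b x = min (min (1/4) (10⁻³ √π)) (10⁻³ π / (1 + Cw x))`; `ε y = δ₀ (q y)` (`≤ 10⁻³ π` too).
   `pk_smoothing` on each `E α`: `v α`; `u = pkGlue E v`; `p₀ = pkBlend F T u`; `SC` by `pkBlend_sc`.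
6. `|p₀ - zc| ≤ δ₀ ∘ q` (`pkBlend_sub_le`, `Thr.dropS`, `pkWt_dropS_mem`); `gradSq p₀ ≤ (Fb + δ₀ + Cw δ₀)²` (`pkBlend_gradSq_le` with `G = Fb + δ₀ ∘ q`),
   so `2 gradN p₀ ≤ a zc² + pot + .004 π ≤ .63 zc² + 1.005 pot`.
7. `e = p₀ - zc`, `e² ≤ 10⁻⁶ pot`: `.63 zc² ≤ .65 p₀² + 20.475 e²` (`pk_ineq1`); `.65 y² ≤ .67 (y + c)² + 21.775 c²` (`pk_ineq2`);
   `cs = min (1/2) (.01 √π)`, `c² < 10⁻⁴ π ≤ 10⁻⁴ pot`.  Total: `≤ .67 (p₀ + c)² + (1.005 + .0000205 + .0021775) pot`.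
8. poles: `μ = ⊤ ⇒ zc = m ≥ 3 + Λ`, `|p₀ - zc| ≤ 1/4`.
-/

set_option autoImplicit false
set_option linter.unusedSectionVars false
open scoped ContDiff Topology
open MeasureTheory Claims.C0499

namespace Claimed.Agent.R315

theorem pk_ineq1 (z e : ℝ) : 0.63 * z ^ 2 ≤ 0.65 * (z + e) ^ 2 + 20.475 * e ^ 2 := by
  nlinarith [sq_nonneg (z + 32.5 * e)]

theorem pk_ineq2 (y c : ℝ) : 0.65 * y ^ 2 ≤ 0.67 * (y + c) ^ 2 + 21.775 * c ^ 2 := by
  nlinarith [sq_nonneg (y + 33.5 * c)]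

variable {V W : Type} [NormedAddCommGroup V] [NormedSpace ℝ V] [NormedAddCommGroup W]
  [NormedSpace ℝ W] {ι : Type}

/-- the clipping level `m = 1/κ ∘ q`. -/
theorem pk_press_level [FiniteDimensional ℝ V] [FiniteDimensional ℝ W] [Fintype ι] {n : ℕ}
    {M : Set V} {F : Frame V W ι} {E : Stat ι → Set W} {h : Ten W} (hD : IsDiag n M F E)
    (hh : IsPMetric n F E h) {a : ℝ} (ha : 0 < a) (Λ : V → ℝ)
    (hΛ : ∀ K : Set V, IsCompact K → BddAbove (Λ '' K)) :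
    ∃ mm : V → ℝ, ContDiff ℝ ∞ mm ∧ (∀ x, 0 < mm x) ∧ (∀ x, 3 + Λ x ≤ mm x) ∧
      ∀ α, ∀ z ∈ E α, gradSq (n - hits α) (E α) h (fun y => mm (F.q y)) z ≤
        (a * mm (F.q z) ^ 2 / 2) ^ 2 := by
  obtain ⟨Cq, hCqs, hCq0, hCq⟩ := pk_q_sq_le hD hh
  obtain ⟨κ, hκs, hκpos, hκb⟩ := pk_exists_tol
    (b := fun x => min (1 / (3 + max (Λ x) 0)) (a / (2 * (1 + Cq x)))) (fun K hK => by
      obtain ⟨C, hC⟩ := hΛ K hK
      obtain ⟨C', hC'⟩ := hK.exists_bound_of_continuousOn hCqs.continuous.continuousOn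
      have hC'0 : ∀ x ∈ K, Cq x ≤ max C' 0 := fun x hx =>
        ((le_abs_self _).trans (hC' x hx)).trans (le_max_left _ _)
      refine ⟨min (1 / (3 + max C 0)) (a / (2 * (1 + max C' 0))), by positivity, fun x hx => ?_⟩
      refine min_le_min ?_ ?_
      · have h1 : Λ x ≤ C := hC ⟨x, hx, rfl⟩
        have h2 : max (Λ x) 0 ≤ max C 0 := max_le_max h1 le_rfl
        have h3 : 0 ≤ max (Λ x) 0 := le_max_right _ _
        exact one_div_le_one_div_of_le (by linarith) (by linarith)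
      · have h1 := hC'0 x hx
        have h2 := hCq0 x
        exact div_le_div_of_nonneg_left ha.le (by linarith) (by linarith)) 1
  have hκ0 : ∀ x, κ x ≤ 1 / (3 + max (Λ x) 0) := by
    intro x
    have := hκb x 0 (by norm_num)
    rw [norm_iteratedFDeriv_zero, Real.norm_eq_abs] at this
    exact ((le_abs_self _).trans this).trans (min_le_left _ _)
  have hκ1 : ∀ x, ‖fderiv ℝ κ x‖ ≤ a / (2 * (1 + Cq x)) := by
    intro x
    have := hκb x 1 le_rfl
    rw [norm_iteratedFDeriv_one] at this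
    exact this.trans (min_le_right _ _)
  have hmms : ContDiff ℝ ∞ fun x => (κ x)⁻¹ := hκs.inv fun x => (hκpos x).ne'
  refine ⟨fun x => (κ x)⁻¹, hmms, fun x => inv_pos.2 (hκpos x), fun x => ?_, fun α z hz => ?_⟩
  · have h3 : 0 ≤ max (Λ x) 0 := le_max_right _ _
    have h4 : Λ x ≤ max (Λ x) 0 := le_max_left _ _
    have h5 : 3 + max (Λ x) 0 ≤ (κ x)⁻¹ := by
      rw [le_inv_comm₀ (by linarith) (hκpos x), ← one_div]
      exact hκ0 x
    linarith
  · refine (pk_gradSq_comp_q hD hh hCq hmms hz).trans ?_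
    set x := F.q z with hx
    have hd : fderiv ℝ (fun x => (κ x)⁻¹) x = -((κ x) ^ 2)⁻¹ • fderiv ℝ κ x := by
      have h1 : HasFDerivAt κ (fderiv ℝ κ x) x :=
        (hκs.differentiable (by simp) x).hasFDerivAt
      have h2 := (hasDerivAt_inv (hκpos x).ne').comp_hasFDerivAt x h1
      exact h2.fderiv
    have hn : ‖fderiv ℝ (fun x => (κ x)⁻¹) x‖ = ((κ x)⁻¹) ^ 2 * ‖fderiv ℝ κ x‖ := by
      rw [hd, norm_smul, norm_neg, Real.norm_eq_abs, abs_of_nonneg (by positivity), inv_pow]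
    rw [hn]
    have h0 := hCq0 x
    have h1 := hκ1 x
    have h2 : a / (2 * (1 + Cq x)) * Cq x ≤ a / 2 := by
      rw [div_mul_eq_mul_div, div_le_div_iff₀ (by linarith) (by norm_num)]
      nlinarith
    have h3 : ‖fderiv ℝ κ x‖ * Cq x ≤ a / 2 :=
      (mul_le_mul_of_nonneg_right h1 h0).trans h2
    have h4 : 0 ≤ ((κ x)⁻¹) ^ 2 := by positivity
    refine pow_le_pow_left₀ (by positivity) ?_ 2
    calc ((κ x)⁻¹) ^ 2 * ‖fderiv ℝ κ x‖ * Cq x = ((κ x)⁻¹) ^ 2 * (‖fderiv ℝ κ x‖ * Cq x) := by ring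
      _ ≤ ((κ x)⁻¹) ^ 2 * (a / 2) := mul_le_mul_of_nonneg_left h3 h4
      _ = a * (κ x)⁻¹ ^ 2 / 2 := by ring

/-- **Realising the processed profile** (P Lemma B.1). -/
theorem ct_pressure_pf [FiniteDimensional ℝ V] [FiniteDimensional ℝ W] [Fintype ι] (B : Base V)
    (hB : B.Ok) (F : Frame V W ι) (P : PData W ι B.J) (rem : Set B.J) (s c : ℝ)
    (H : Inv B F P rem s c) (hs0 : 0 ≤ s) (hs1 : s ≤ 1) (j0 : B.J) (hj : j0 ∈ rem) (Λ : V → ℝ)
    (hΛ : ∀ K : Set V, IsCompact K → BddAbove (Λ '' K)) :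
    ∃ (p₀ : W → ℝ) (cs : ℝ), 0 < cs ∧ cs ≤ 1 ∧ SC B.n F P.E p₀ ∧
      (∀ c' : ℝ, |c'| < cs → ∀ α, ∀ z ∈ P.E α,
        2 * gradN (B.n - hits α) (P.E α) P.h p₀ z ≤ 0.67 * (p₀ z + c') ^ 2 + 1.02 * P.pot j0 z) ∧
      (∀ z ∈ tot P.E, P.mu j0 z = ⊤ → Λ (F.q z) + 1 ≤ p₀ z) ∧
      (∀ z ∈ tot P.E, P.mu j0 z = ⊥ → p₀ z ≤ -(Λ (F.q z) + 1)) := by
  classical
  have hD := H.diag
  have hh := H.met
  have L := H.label j0 hj
  have ha1 : (0.60 : ℝ) ≤ pkA s := by unfold pkA; linarith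
  have ha2 : pkA s ≤ (0.63 : ℝ) := by unfold pkA; linarith
  set a := pkA s with ha
  have hπ : 0 < B.pst j0 := hB.pst_pos j0
  set π := B.pst j0 with hπdef
  -- thresholds
  obtain ⟨T1, h1s, h10, h1⟩ := hD.exists_thr
  obtain ⟨T2, h2s, h20, h2⟩ := hh.compat.exists_thr
  obtain ⟨T3, h3s, h30, h3⟩ := L.mu_cc.2.exists_thr
  obtain ⟨T4, h4s, h40, h4⟩ := L.pot_sc.2.exists_thr
  set T : V → ℝ := fun x => T1 x + T2 x + T3 x + T4 x with hTdef
  have hT0 : ∀ x, 0 ≤ T x := fun x => by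
    simp only [hTdef]; linarith [h10 x, h20 x, h30 x, h40 x]
  have hTs : ContDiff ℝ ∞ T := ((h1s.add h2s).add h3s).add h4s
  have hTD : DThr F P.E T := h1.mono fun x => by
    simp only [hTdef]; linarith [h10 x, h20 x, h30 x, h40 x]
  have hTh : Thr F P.E P.h T := h2.mono fun x => by
    simp only [hTdef]; linarith [h10 x, h20 x, h30 x, h40 x]
  have hTmu : Thr F P.E (P.mu j0) T := h3.mono fun x => by
    simp only [hTdef]; linarith [h10 x, h20 x, h30 x, h40 x]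
  have hTpot : Thr F P.E (P.pot j0) T := h4.mono fun x => by
    simp only [hTdef]; linarith [h10 x, h20 x, h30 x, h40 x]
  obtain ⟨Cw, hCwc, hCw0, hCw⟩ := pkBlend_gradSq_le hD hh hT0 hTs hTD hTh
  obtain ⟨mm, hmms, hmmpos, hmmΛ, hmmg⟩ := pk_press_level hD hh (by linarith : 0 < a) Λ hΛ
  -- the clipped profile
  set zc : W → ℝ := fun y => pkClip (P.mu j0 y) (mm (F.q y)) with hzc
  set Fb : W → ℝ := fun y => (a * zc y ^ 2 + P.pot j0 y) / 2 with hFb
  have hpotπ : ∀ z ∈ tot P.E, π ≤ P.pot j0 z := L.pot_ge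
  have hmsm : ∀ α, SmoothAlong (B.n - hits α) (P.E α) (fun y => mm (F.q y)) := fun α =>
    if_smoothAlong_of_contDiff (hmms.comp F.q.contDiff)
  have hzcc : ∀ α, ContinuousOn zc (P.E α) := fun α =>
    pkClip_continuous.comp_continuousOn
      ((L.mu_cc.1 α).prodMk (hmms.continuous.comp F.q.continuous).continuousOn)
  have hpotc : ∀ α, ContinuousOn (P.pot j0) (P.E α) := fun α =>
    if_smoothAlong_continuousOn (hD.mfd α) (L.pot_sc.1 α)
  have hFbc : ∀ α, ContinuousOn Fb (P.E α) := fun α =>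
    (((hzcc α).pow 2).const_smul a |>.add (hpotc α)).div_const 2
  have hFb0 : ∀ z ∈ tot P.E, 0 ≤ Fb z := fun z hz => by
    have h5 := hpotπ z hz
    have h6 : 0 ≤ a * zc z ^ 2 := mul_nonneg (by linarith) (sq_nonneg _)
    simp only [hFb]
    linarith
  have hzcT : Thr F P.E zc T := fun i z hz hi => by
    simp only [hzc]
    rw [hTmu i z hz hi, F.q_drop]
  have hFbT : Thr F P.E Fb T := fun i z hz hi => by
    simp only [hFb]
    rw [hzcT i z hz hi, hTpot i z hz hi]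
  have hslope : ∀ α, ∀ x ∈ P.E α, SlopeLE (P.E α) P.h zc x (Fb x) := fun α =>
    pk_clip_slope (hD.mfd α) (hh.met α) (by linarith : 0 ≤ a) (L.mu_cc.1 α) (hmsm α)
      (fun x _ => hmmpos _) (fun x hx => hπ.le.trans (hpotπ x (mem_tot.2 ⟨α, hx⟩))) (hmmg α)
      (L.slope α)
  -- the tolerance
  obtain ⟨δ₀, hδs, hδpos, hδb⟩ := pk_exists_tol
    (b := fun x => min (min (1 / 4) (0.001 * Real.sqrt π)) (0.001 * π / (1 + Cw x)))
    (fun K hK => by
      obtain ⟨C', hC'⟩ := hK.exists_bound_of_continuousOn hCwc.continuousOn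
      have hC'0 : ∀ x ∈ K, Cw x ≤ max C' 0 := fun x hx =>
        ((le_abs_self _).trans (hC' x hx)).trans (le_max_left _ _)
      have hsq : 0 < Real.sqrt π := Real.sqrt_pos.2 hπ
      refine ⟨min (min (1 / 4) (0.001 * Real.sqrt π)) (0.001 * π / (1 + max C' 0)),
        by positivity, fun x hx => min_le_min le_rfl ?_⟩
      have h1 := hC'0 x hx
      have h2 := hCw0 x
      exact div_le_div_of_nonneg_left (by positivity) (by linarith) (by linarith)) 0
  have hδle : ∀ x, δ₀ x ≤ min (min (1 / 4) (0.001 * Real.sqrt π)) (0.001 * π / (1 + Cw x)) := by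
    intro x
    have := hδb x 0 le_rfl
    rw [norm_iteratedFDeriv_zero, Real.norm_eq_abs] at this
    exact (le_abs_self _).trans this
  have hδ1 : ∀ x, δ₀ x ≤ 1 / 4 := fun x => ((hδle x).trans (min_le_left _ _)).trans (min_le_left _ _)
  have hδ2 : ∀ x, δ₀ x ≤ 0.001 * Real.sqrt π := fun x =>
    ((hδle x).trans (min_le_left _ _)).trans (min_le_right _ _)
  have hδ3 : ∀ x, δ₀ x * (1 + Cw x) ≤ 0.001 * π := fun x => by
    have := (hδle x).trans (min_le_right _ _)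
    rwa [le_div_iff₀ (by linarith [hCw0 x])] at this
  -- individual smoothings
  choose v hv1 hv2 hv3 using fun α => pk_smoothing (hD.mfd α) (hD.closed α) (hh.met α) (hFbc α)
    (fun x hx => hFb0 x (mem_tot.2 ⟨α, hx⟩))
    (ε := fun y => δ₀ (F.q y)) (hδs.continuous.comp F.q.continuous).continuousOn
    (fun x _ => hδpos _) (hslope α)
  set u : W → ℝ := pkGlue P.E v with hu
  have hueq : ∀ α, Set.EqOn u (v α) (P.E α) := fun α z hz => pkGlue_eq hD v hz
  have husm : ∀ α, SmoothAlong (B.n - hits α) (P.E α) u := fun α =>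
    pk_smoothAlong_congr (hv1 α) (hueq α)
  have hud : ∀ z ∈ tot P.E, |u z - zc z| ≤ δ₀ (F.q z) := fun z hz => by
    obtain ⟨α, hα⟩ := mem_tot.1 hz
    rw [hueq α hα]
    exact hv2 α z hα
  set G : W → ℝ := fun y => Fb y + δ₀ (F.q y) with hG
  have hGT : Thr F P.E G T := fun i z hz hi => by
    simp only [hG]
    rw [hFbT i z hz hi, F.q_drop]
  have hG0 : ∀ z ∈ tot P.E, 0 ≤ G z := fun z hz => by
    have := hFb0 z hz
    have := (hδpos (F.q z)).le
    simp only [hG]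
    linarith
  have hug : ∀ α, ∀ z ∈ P.E α, gradSq (B.n - hits α) (P.E α) P.h u z ≤ G z ^ 2 := fun α z hz => by
    rw [if_gradSq_congr (g' := P.h) (f' := v α) Filter.univ_mem (fun _ _ => rfl)
      (fun y hy => hueq α hy.1)]
    exact hv3 α z hz
  have hgrad := hCw u zc G δ₀ husm hzcT hGT hG0 hud hug
  have hclose : ∀ z ∈ tot P.E, |pkBlend F T u z - zc z| ≤ δ₀ (F.q z) := fun z hz => by
    obtain ⟨α, hα⟩ := mem_tot.1 hz
    refine pkBlend_sub_le F T u fun S hS => ?_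
    have hmem := pkWt_dropS_mem hD hT0 hTD hα hS
    have h5 := hud _ (mem_tot.2 ⟨_, hmem⟩)
    rw [F.q_dropS, hzcT.dropS hD hT0 hTD S hz fun i hi => by
      linarith [(pkWt_ne_zero F hS).1 i hi]] at h5
    exact h5
  have hsq : 0 < Real.sqrt π := Real.sqrt_pos.2 hπ
  have hsqsq : Real.sqrt π ^ 2 = π := Real.sq_sqrt hπ.le
  refine ⟨pkBlend F T u, min (1 / 2) (0.01 * Real.sqrt π), by positivity,
    (min_le_left _ _).trans (by norm_num), pkBlend_sc hD hT0 hTs hTD husm, ?_, ?_, ?_⟩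
  · intro c' hc' α z hz
    have hzt : z ∈ tot P.E := mem_tot.2 ⟨α, hz⟩
    have hg1 := hgrad α z hz
    have hnn : 0 ≤ G z + Cw (F.q z) * δ₀ (F.q z) := by
      have := hG0 z hzt
      have := mul_nonneg (hCw0 (F.q z)) (hδpos (F.q z)).le
      linarith
    have hg2 : gradN (B.n - hits α) (P.E α) P.h (pkBlend F T u) z ≤
        G z + Cw (F.q z) * δ₀ (F.q z) := by
      unfold gradN
      rw [← Real.sqrt_sq hnn]
      exact Real.sqrt_le_sqrt hg1
    have hpot := hpotπ z hzt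
    set e := pkBlend F T u z - zc z with he
    have he1 : |e| ≤ 0.001 * Real.sqrt π := (hclose z hzt).trans (hδ2 _)
    have he2 : e ^ 2 ≤ 0.000001 * π := by
      have : e ^ 2 ≤ (0.001 * Real.sqrt π) ^ 2 := by
        rw [← sq_abs e]
        exact pow_le_pow_left₀ (abs_nonneg _) he1 2
      rw [mul_pow, hsqsq] at this
      linarith
    have hc1 : |c'| ≤ 0.01 * Real.sqrt π := hc'.le.trans (min_le_right _ _)
    have hc2 : c' ^ 2 ≤ 0.0001 * π := by
      have : c' ^ 2 ≤ (0.01 * Real.sqrt π) ^ 2 := by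
        rw [← sq_abs c']
        exact pow_le_pow_left₀ (abs_nonneg _) hc1 2
      rw [mul_pow, hsqsq] at this
      linarith
    have h6 := pk_ineq1 (zc z) e
    have h7 : zc z + e = pkBlend F T u z := by rw [he]; ring
    rw [h7] at h6
    have h8 := pk_ineq2 (pkBlend F T u z) c'
    have h9 := hδ3 (F.q z)
    have h10 : 2 * (G z + Cw (F.q z) * δ₀ (F.q z)) =
        a * zc z ^ 2 + P.pot j0 z + 2 * (δ₀ (F.q z) * (1 + Cw (F.q z))) := by
      simp only [hG, hFb]; ring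
    have h11 : a * zc z ^ 2 ≤ 0.63 * zc z ^ 2 := mul_le_mul_of_nonneg_right ha2 (sq_nonneg _)
    nlinarith
  · intro z hz hμ
    have h5 : zc z = mm (F.q z) := by
      simp only [hzc]
      rw [hμ]
      exact pkClip_of_le (hmmpos _).le le_top
    have h6 := abs_le.1 (hclose z hz)
    have h7 := hδ1 (F.q z)
    have h8 := hmmΛ (F.q z)
    linarith [h6.1]
  · intro z hz hμ
    have h5 : zc z = -mm (F.q z) := by
      simp only [hzc]
      rw [hμ]
      exact pkClip_of_ge bot_le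
    have h6 := abs_le.1 (hclose z hz)
    have h7 := hδ1 (F.q z)
    have h8 := hmmΛ (F.q z)
    linarith [h6.2]

end Claimed.Agent.R315
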