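import Claimed.Agent.R315.Pk.ColC
import Claimed.Agent.R315.Pack011

/-!
# Row 315, collars, part D: assembly of `IsCollar`

PACKAGE PK-COL-D (one owner; ~600 lines; no paper).  `c y s = fl_α s y`, `rr x = fl_α (- u x) x` for `y, x ∈ E α` (glued by `pkGlue`), `e = e0 ∘ q` with `e0` of `pk_col_width`.
`pk_collar_pf` (same statement as `pk_collar` in `Pk/Link.lean`) is PROVED here from the field lemmas below.

Standing hypotheses of the field lemmas = `ColCtx`.  For `p ∈ collarDom E u e α`: `p.1 ∈ E α`, `u p.1 = 0`, `|p.2| < e0 (q p.1)`, so `ColGood` gives `(p.2, p.1) ∈ dom_α` etc.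
PLANS.
* `colC_eq`, `colR_eq`: `pkGlue_eq`.
* `ColCtx.mem`: `pk_flow_mem` (`IsNField.tan`).   `ColCtx.u_c`: `IsNField.u_fl`, `ua_eq` at both ends.   `ColCtx.zero`: `ODE.fl_zero`.
* `ColCtx.cont`: `ODE.contDiffOn_fl_infty .. |>.continuousOn` composed with `Prod.swap`, `ContinuousOn.congr` with `colC_eq`.
* `ColCtx.rr_c`: `colR_eq` at `c y s ∈ E α`, `u (c y s) = s`, `ODE.fl_neg`.
* `ColCtx.rr_cont`: on `collarIm α ⊆ E α`: `x ↦ (- u x, x)` is continuous on `E α` with values in `dom_α` on `collarIm α` (`fl_neg`).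
* `ColCtx.isOpen`: `x = fl_α s y`.  `∀ᶠ x' in 𝓝[E α] x, (- u x', x') ∈ dom_α ∧ |u x'| < e0 (q (fl_α (- u x') x'))` (`isOpen_dom`, continuity within `E α`; at `x' = x` this is `|s| < e0 (q y)`).  For such `x'`: `y' = fl_α (- u x') x' ∈ E α`, `u y' = 0` (`u_fl`),
  `x' = fl_α (u x') y'` (`fl_neg`), so `x' ∈ collarIm α`.  `mem_nhdsWithin_iff_exists_mem_nhds_inter`.
* `ColCtx.compat`: `K' = cthickening ‖F.q‖ K`, `R = ` bound of `T` on `K'`.  `drop i y ∈ E β` is a wall point with the same `q`, so `ColGood` at `drop i y` gives `hs`, `hfar` of `ColData.flow_drop`; then `drop i (fl_β s (drop i y) + t i y • e i) = fl_β s (drop i y)` as `t i = 0` on `E β`.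
* `ColCtx.small`, `ColCtx.bdd`: `ColGood`.
-/

set_option autoImplicit false
set_option linter.unusedSectionVars false
open scoped ContDiff Topology
open MeasureTheory Claims.C0499
open Claimed.Agent.R316

namespace Claimed.Agent.R315

variable {V W : Type} [NormedAddCommGroup V] [NormedSpace ℝ V] [NormedAddCommGroup W]
  [NormedSpace ℝ W] {ι : Type}

/-- collar coordinates. -/
noncomputable def colC [Fintype ι] (E : Stat ι → Set W) (fa : Stat ι → W → W) (Oa : Stat ι → Set W) (y : W)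
    (s : ℝ) : W := pkGlue E (fun α y => ODE.fl (fa α) (Oa α) s y) y

/-- collar retraction. -/
noncomputable def colR [Fintype ι] (E : Stat ι → Set W) (u : W → ℝ) (fa : Stat ι → W → W)
    (Oa : Stat ι → Set W) (x : W) : W := pkGlue E (fun α x => ODE.fl (fa α) (Oa α) (- u x) x) x

/-- everything that is known about the ingredients of the collar. -/
structure ColCtx [Fintype ι] (n : ℕ) (M : Set V) (g : Ten V) (F : Frame V W ι)
    (E : Stat ι → Set W) (h : Ten W) (u : W → ℝ) (ua : Stat ι → W → ℝ) (fa : Stat ι → W → W)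
    (Oa : Stat ι → Set W) (T e0 : V → ℝ) (ε : ℝ) : Prop where
  diag : IsDiag n M F E
  met : IsPMetric n F E h
  u_sc : SC n F E u
  data : ColData n E h u ua fa Oa
  thr : ColThr F E h u T
  e0_smooth : ContDiff ℝ ∞ e0
  e0_pos : ∀ x, 0 < e0 x
  good : ∀ y ∈ tot E, ColGood M g F E u fa Oa ε (e0 (F.q y)) y

variable [Fintype ι] [FiniteDimensional ℝ W] {n : ℕ} {M : Set V} {g : Ten V} {F : Frame V W ι}
  {E : Stat ι → Set W} {h : Ten W} {u : W → ℝ} {ua : Stat ι → W → ℝ} {fa : Stat ι → W → W}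
  {Oa : Stat ι → Set W} {T e0 : V → ℝ} {ε : ℝ}

theorem colC_eq (hD : IsDiag n M F E) {α : Stat ι} {y : W} (hy : y ∈ E α) (s : ℝ) :
    colC E fa Oa y s = ODE.fl (fa α) (Oa α) s y :=
  pkGlue_eq hD _ hy

theorem colR_eq (hD : IsDiag n M F E) {α : Stat ι} {x : W} (hx : x ∈ E α) :
    colR E u fa Oa x = ODE.fl (fa α) (Oa α) (- u x) x :=
  pkGlue_eq hD _ hx

namespace ColCtx

variable (X : ColCtx n M g F E h u ua fa Oa T e0 ε)
include X

theorem e_cc : CC F E (fun y => e0 (F.q y)) :=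
  ⟨fun _ => (X.e0_smooth.continuous.comp F.q.continuous).continuousOn,
    fun i _ _ => ⟨0, fun z _ _ _ => by simp only [F.q_drop]⟩⟩

theorem dom_mem (α : Stat ι) (p : W × ℝ) (hp : p ∈ collarDom E u (fun y => e0 (F.q y)) α) :
    (p.2, p.1) ∈ ODE.dom (fa α) (Oa α) :=
  (X.good p.1 (mem_tot.2 ⟨α, hp.1⟩) α hp.1 hp.2.1 p.2 hp.2.2.le).1

theorem smooth1 (α : Stat ι) : ContDiffOn ℝ 1 (fa α) (Oa α) :=
  (X.data.nf α).smooth.of_le (by exact_mod_cast le_top)

theorem fl_memE {α : Stat ι} {x : W} {t : ℝ} (hx : x ∈ E α)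
    (ht : (t, x) ∈ ODE.dom (fa α) (Oa α)) : ODE.fl (fa α) (Oa α) t x ∈ E α :=
  pk_flow_mem (X.diag.mfd α) (X.diag.closed α) (X.data.nf α).isOpen (X.data.nf α).smooth
    (fun _ hx hΩ => (X.data.nf α).tan hx hΩ) hx ht

theorem u_flE {α : Stat ι} {x : W} {t : ℝ} (hx : x ∈ E α)
    (ht : (t, x) ∈ ODE.dom (fa α) (Oa α)) : u (ODE.fl (fa α) (Oa α) t x) = u x + t := by
  have h1 := (X.data.nf α).u_fl (X.diag.mfd α) (X.diag.closed α) (X.met.met α)
    (X.data.ua_smooth α) hx ht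
  rwa [X.data.ua_eq α (X.fl_memE hx ht), X.data.ua_eq α hx] at h1

theorem cont_fl (α : Stat ι) : ContinuousOn (fun p : ℝ × W => ODE.fl (fa α) (Oa α) p.1 p.2)
    (ODE.dom (fa α) (Oa α)) :=
  (ODE.contDiffOn_fl_infty (X.data.nf α).isOpen (X.data.nf α).smooth).continuousOn

theorem isOpen_domE (α : Stat ι) : IsOpen (ODE.dom (fa α) (Oa α)) :=
  ODE.isOpen_dom (X.data.nf α).isOpen (X.smooth1 α)

/-- description of the points of the collar. -/
theorem im_spec {α : Stat ι} {x : W}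
    (hx : x ∈ collarIm E u (fun y => e0 (F.q y)) (colC E fa Oa) α) :
    x ∈ E α ∧ (- u x, x) ∈ ODE.dom (fa α) (Oa α) ∧
      |u x| < e0 (F.q (ODE.fl (fa α) (Oa α) (- u x) x)) := by
  obtain ⟨p, hp, rfl⟩ := hx
  have hd := X.dom_mem α p hp
  have e1 : colC E fa Oa p.1 p.2 = ODE.fl (fa α) (Oa α) p.2 p.1 := colC_eq X.diag hp.1 p.2
  have e2 : u (ODE.fl (fa α) (Oa α) p.2 p.1) = p.2 := by
    rw [X.u_flE hp.1 hd, hp.2.1, zero_add]
  have h3 := ODE.fl_neg (X.data.nf α).isOpen (X.smooth1 α) hd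
  simp only [e1, e2]
  exact ⟨X.fl_memE hp.1 hd, h3.1, by rw [h3.2]; exact hp.2.2⟩

theorem mem (α : Stat ι) (p : W × ℝ) (hp : p ∈ collarDom E u (fun y => e0 (F.q y)) α) :
    colC E fa Oa p.1 p.2 ∈ E α := by
  rw [colC_eq X.diag hp.1]
  exact X.fl_memE hp.1 (X.dom_mem α p hp)

theorem u_c (α : Stat ι) (p : W × ℝ) (hp : p ∈ collarDom E u (fun y => e0 (F.q y)) α) :
    u (colC E fa Oa p.1 p.2) = p.2 := by
  rw [colC_eq X.diag hp.1, X.u_flE hp.1 (X.dom_mem α p hp), hp.2.1, zero_add]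

theorem zero (y : W) (hy : y ∈ tot E) (_h0 : u y = 0) : colC E fa Oa y 0 = y := by
  obtain ⟨α, hα⟩ := mem_tot.1 hy
  rw [colC_eq X.diag hα, ODE.fl_zero]

theorem cont (α : Stat ι) : ContinuousOn (fun p : W × ℝ => colC E fa Oa p.1 p.2)
    (collarDom E u (fun y => e0 (F.q y)) α) := by
  have h1 : ContinuousOn (fun p : W × ℝ => ODE.fl (fa α) (Oa α) p.2 p.1)
      (collarDom E u (fun y => e0 (F.q y)) α) :=
    (X.cont_fl α).comp (f := fun p : W × ℝ => (p.2, p.1)) continuous_swap.continuousOn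
      (fun p hp => X.dom_mem α p hp)
  exact h1.congr fun p hp => colC_eq X.diag hp.1 p.2

theorem rr_c (α : Stat ι) (p : W × ℝ) (hp : p ∈ collarDom E u (fun y => e0 (F.q y)) α) :
    colR E u fa Oa (colC E fa Oa p.1 p.2) = p.1 := by
  have hd := X.dom_mem α p hp
  rw [colR_eq X.diag (X.mem α p hp), X.u_c α p hp, colC_eq X.diag hp.1]
  exact (ODE.fl_neg (X.data.nf α).isOpen (X.smooth1 α) hd).2

theorem rr_cont (α : Stat ι) : ContinuousOn (colR E u fa Oa)
    (collarIm E u (fun y => e0 (F.q y)) (colC E fa Oa) α) := by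
  have hc : Continuous (fun x : W => (- ua α x, x)) :=
    ((X.data.ua_smooth α).continuous.neg).prodMk continuous_id
  have h1 : ContinuousOn (fun x : W => ODE.fl (fa α) (Oa α) (- ua α x) x)
      (collarIm E u (fun y => e0 (F.q y)) (colC E fa Oa) α) :=
    (X.cont_fl α).comp (f := fun x : W => (- ua α x, x)) hc.continuousOn (fun x hx => by
      obtain ⟨h2, h3, -⟩ := X.im_spec hx
      change (- ua α x, x) ∈ _
      rw [X.data.ua_eq α h2]
      exact h3)
  refine h1.congr fun x hx => ?_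
  obtain ⟨h2, -, -⟩ := X.im_spec hx
  rw [colR_eq X.diag h2]
  change _ = ODE.fl (fa α) (Oa α) (- ua α x) x
  rw [X.data.ua_eq α h2]

theorem isOpen (α : Stat ι) (x : W)
    (hx : x ∈ collarIm E u (fun y => e0 (F.q y)) (colC E fa Oa) α) :
    ∃ N ∈ 𝓝 x, N ∩ E α ⊆ collarIm E u (fun y => e0 (F.q y)) (colC E fa Oa) α := by
  obtain ⟨h2, h3, h4⟩ := X.im_spec hx
  have hc : Continuous (fun x : W => (- ua α x, x)) :=
    ((X.data.ua_smooth α).continuous.neg).prodMk continuous_id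
  have hux : ua α x = u x := X.data.ua_eq α h2
  have h3' : (- ua α x, x) ∈ ODE.dom (fa α) (Oa α) := by rw [hux]; exact h3
  have hev1 : ∀ᶠ x' in 𝓝 x, (- ua α x', x') ∈ ODE.dom (fa α) (Oa α) :=
    hc.continuousAt.eventually ((X.isOpen_domE α).mem_nhds h3')
  have hG : ContinuousAt (fun x' : W => ODE.fl (fa α) (Oa α) (- ua α x') x') x :=
    ContinuousAt.comp (f := fun x' : W => (- ua α x', x'))
      (g := fun p : ℝ × W => ODE.fl (fa α) (Oa α) p.1 p.2)
      ((X.cont_fl α).continuousAt ((X.isOpen_domE α).mem_nhds h3')) hc.continuousAt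
  have hL : ContinuousAt (fun x' : W => |ua α x'|) x :=
    (X.data.ua_smooth α).continuous.abs.continuousAt
  have hR : ContinuousAt (fun x' : W => e0 (F.q (ODE.fl (fa α) (Oa α) (- ua α x') x'))) x :=
    ContinuousAt.comp (g := fun z : W => e0 (F.q z))
      (X.e0_smooth.continuous.comp F.q.continuous).continuousAt hG
  have hev2 : ∀ᶠ x' in 𝓝 x, |ua α x'| < e0 (F.q (ODE.fl (fa α) (Oa α) (- ua α x') x')) :=
    hL.eventually_lt hR (by rw [hux]; exact h4)
  refine ⟨_, hev1.and hev2, ?_⟩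
  rintro x' ⟨⟨k1, k2⟩, k3⟩
  have hux' : ua α x' = u x' := X.data.ua_eq α k3
  rw [hux'] at k1 k2
  have hy := X.fl_memE k3 k1
  have huy : u (ODE.fl (fa α) (Oa α) (- u x') x') = 0 := by
    rw [X.u_flE k3 k1]; ring
  have hback := ODE.fl_neg (X.data.nf α).isOpen (X.smooth1 α) k1
  rw [neg_neg] at hback
  refine ⟨(ODE.fl (fa α) (Oa α) (- u x') x', u x'), ⟨hy, huy, k2⟩, ?_⟩
  change colC E fa Oa (ODE.fl (fa α) (Oa α) (- u x') x') (u x') = x'
  rw [colC_eq X.diag hy]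
  exact hback.2

theorem compat [FiniteDimensional ℝ V] (i : ι) (K : Set V) (hK : IsCompact K) :
    ∃ R : ℝ, ∀ α, ∀ p ∈ collarDom E u (fun y => e0 (F.q y)) α, F.q p.1 ∈ K → R < |F.t i p.1| →
      colC E fa Oa (F.drop i p.1) p.2 = F.drop i (colC E fa Oa p.1 p.2) ∧
        F.t i (colC E fa Oa p.1 p.2) = F.t i p.1 := by
  have hK' : IsCompact (Metric.cthickening ‖F.q‖ K) := hK.cthickening
  obtain ⟨R, hR⟩ := (hK'.image X.thr.smooth.continuous).bddAbove
  refine ⟨R, fun α p hp hq hlt => ?_⟩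
  obtain ⟨y, s⟩ := p
  obtain ⟨hy, hu0, hs⟩ := hp
  simp only at hy hu0 hs hq hlt ⊢
  have hTK : ∀ x : V, ‖x - F.q y‖ ≤ ‖F.q‖ → T x ≤ R := fun x hx =>
    hR ⟨x, Metric.mem_cthickening_of_dist_le x (F.q y) _ K hq (by rw [dist_eq_norm]; exact hx), rfl⟩
  have hTy : T (F.q y) < |F.t i y| :=
    lt_of_le_of_lt (hTK _ (by simp)) hlt
  have hdy : F.drop i y ∈ E (α.face i) := X.thr.diag.drop_mem X.diag X.thr.nonneg hy hTy
  have hud : u (F.drop i y) = 0 := by
    rw [X.thr.u i y (mem_tot.2 ⟨α, hy⟩) hTy, hu0]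
  have hgood := X.good (F.drop i y) (mem_tot.2 ⟨_, hdy⟩) (α.face i) hdy hud
  rw [F.q_drop] at hgood
  have hfar : ∀ r ∈ Set.uIcc 0 s,
      T (F.q (ODE.fl (fa (α.face i)) (Oa (α.face i)) r (F.drop i y))) < |F.t i y| := by
    intro r hr
    have hr' : |r| ≤ e0 (F.q y) := by
      have : |r| ≤ |s| := by
        rcases Set.mem_uIcc.1 hr with ⟨a, b⟩ | ⟨a, b⟩
        · rw [abs_of_nonneg a, abs_of_nonneg (a.trans b)]; exact b
        · rw [abs_of_nonpos b, abs_of_nonpos (a.trans b)]; linarith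
      exact this.trans hs.le
    refine lt_of_le_of_lt (hTK _ ?_) hlt
    have h1 := (hgood r hr').2.1
    calc ‖F.q (ODE.fl (fa (α.face i)) (Oa (α.face i)) r (F.drop i y)) - F.q y‖
        = ‖F.q (ODE.fl (fa (α.face i)) (Oa (α.face i)) r (F.drop i y) - F.drop i y)‖ := by
          rw [map_sub, F.q_drop]
      _ ≤ ‖F.q‖ * ‖ODE.fl (fa (α.face i)) (Oa (α.face i)) r (F.drop i y) - F.drop i y‖ :=
          F.q.le_opNorm _
      _ ≤ ‖F.q‖ * 1 := mul_le_mul_of_nonneg_left h1 (norm_nonneg _)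
      _ = ‖F.q‖ := mul_one _
  have hsd := (hgood s hs.le).1
  obtain ⟨-, hfl⟩ := X.data.flow_drop X.diag X.met X.thr hy hsd hfar
  have hz := X.fl_memE hdy hsd
  have hface : (α.face i) i = 0 := by
    classical
    simp [Stat.face]
  have htz : F.t i (ODE.fl (fa (α.face i)) (Oa (α.face i)) s (F.drop i y)) = 0 :=
    X.diag.t_hit _ _ hz i hface
  rw [colC_eq X.diag hdy, colC_eq X.diag hy, hfl, F.drop_add_smul, F.drop_of_t_eq_zero htz]
  refine ⟨rfl, ?_⟩
  rw [map_add, map_smul, htz, F.t_e, zero_add, smul_eq_mul, mul_one]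

theorem small (α : Stat ι) (p : W × ℝ) (hp : p ∈ collarDom E u (fun y => e0 (F.q y)) α) :
    rdist M g (F.q p.1) (F.q (colC E fa Oa p.1 p.2)) ≤ ε / 2 := by
  rw [colC_eq X.diag hp.1]
  exact (X.good p.1 (mem_tot.2 ⟨α, hp.1⟩) α hp.1 hp.2.1 p.2 hp.2.2.le).2.2

theorem bdd (α : Stat ι) (p : W × ℝ) (hp : p ∈ collarDom E u (fun y => e0 (F.q y)) α) :
    ‖colC E fa Oa p.1 p.2 - p.1‖ ≤ 1 := by
  rw [colC_eq X.diag hp.1]
  exact (X.good p.1 (mem_tot.2 ⟨α, hp.1⟩) α hp.1 hp.2.1 p.2 hp.2.2.le).2.1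

theorem isCollar [FiniteDimensional ℝ V] :
    IsCollar M g F E u (fun y => e0 (F.q y)) (colC E fa Oa) (colR E u fa Oa) ε where
  e_cc := X.e_cc
  e_pos := fun y _ => X.e0_pos _
  mem := X.mem
  u_c := X.u_c
  zero := X.zero
  cont := X.cont
  rr_c := X.rr_c
  rr_cont := X.rr_cont
  isOpen := X.isOpen
  compat := X.compat
  small := X.small
  bdd := X.bdd

end ColCtx

/-- **Existence of compatible collars** (statement of `pk_collar`). -/
theorem pk_collar_pf [FiniteDimensional ℝ V] {n : ℕ} {M : Set V}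
    {g : Ten V} (hM : IsMfd n M) (hMc : IsClosed M) (hconn : IsConnected M)
    (hg : IsMetricOn n M g) (hpr : IsProperOn M g) {F : Frame V W ι} {E : Stat ι → Set W}
    (hD : IsDiag n M F E) {h : Ten W} (hh : IsPMetric n F E h) {u w : W → ℝ} {k : ℝ → ℝ}
    (hC : IsCut n F E u w k) {ε : ℝ} (hε : 0 < ε) :
    ∃ (e : W → ℝ) (c : W → ℝ → W) (rr : W → W), IsCollar M g F E u e c rr ε := by
  obtain ⟨ua, fa, Oa, H⟩ := pk_exists_colData hD hh hC.u_sc.1
  obtain ⟨T, hT⟩ := pk_exists_colThr hD hh hC.u_sc.2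
  obtain ⟨e0, h1, h2, h3⟩ := pk_col_width hM hconn hg hD hh hC.u_sc.1 hC.reg H hT hε
  have X : ColCtx n M g F E h u ua fa Oa T e0 ε := ⟨hD, hh, hC.u_sc, H, hT, h1, h2, h3⟩
  exact ⟨_, _, _, X.isCollar⟩

end Claimed.Agent.R315
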