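import Claimed.Agent.R315.Pack005
import Claimed.Agent.R315.Pack003

/-!
# Row 315, no one-dimensional packets (P Lemma 6.5), part A: unit speed arcs in a 1-manifold

PACKAGE PK-DIM1-A (one owner; ~800 lines; no paper).  `X ⊆ W` a 1-manifold (`IsMfd 1 X`) with metric `h`.

* `IsArc X h γ a b` : `u ↦ γ (u 0)` is a parametrisation of `X` on `{u | u 0 ∈ (a,b)}` with unit speed.
* `IsLArc X h γ L` : `γ` is an arc near every `s ∈ [0, L]` (immersed unit speed curve, possibly closed).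

PLANS.
* `pk_arc_exists`: param `ψ` at `z = ψ u₀`, `G s = cm h ψ (single 0 s) 0 0 > 0` smooth on an open interval `I ∋ s₀ = u₀ 0` (shrink `U` to a ball = interval);
  `σ s = ∫_{s₀}^s √(G)` smooth with `σ' = √G > 0`; local inverse `τ` near `0` (`if_exists_local_inverse` of `If/Retr.lean` in `E 1`, or
  `HasStrictDerivAt.localInverse` + `ContDiffAt.to_localInverse`); `γ = ψ ∘ single 0 ∘ τ`; `IsParam` by `if_comp` (`IfParam.lean`: reparametrisation by a diffeomorphism);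
  speed: `γ' = ψ'(τ) τ'`, `h(γ',γ') = G(τ) τ'² = 1`.
* `IsArc.shift/rev/mono/congr`: `if_comp` with affine maps of `E 1`, `if_mono`, `if_congr`.
* `pk_arc_unif`: cover `K` by the relatively open sets `γ_z '' (-ε_z/2, ε_z/2)` (`if_image_open`), finite subcover, `δ = min ε_z / 2`; recentre by `IsArc.shift`, `IsArc.mono`.
* `pk_arc_trans`: transition map `τ = if_tr` between the two params (`if_tr_contDiffAt`, `if_fderiv_eq`), in one variable `γ₁ s = γ₂ (t s)` near `0`, `t 0 = 0`,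
  `1 = h(γ₁',γ₁') = t'² h(γ₂',γ₂') = t'²`; `t'` continuous, so `t' ≡ 1` or `t' ≡ -1` near `0` (`t' 0 = ±1`, continuity, `t'² = 1`); integrate
  (`is_const_of_deriv_eq_zero` on an interval for `t s ∓ s`).
* `pk_larc_extend`: by `pk_arc_trans` for `s ↦ γ (L + s)` and `γ₁` (replace `γ₁` by its reverse if necessary) `γ (L + s) = γ₁ s` for `|s| < ε`.  `γ' s = γ s` for `s ≤ L`, `γ₁ (s - L)` for `s > L`.
  `γ' = γ` on `(-∞, L + ε)`, `γ' = γ₁ (· - L)` on `(L - ε, ∞)`; `IsArc.congr`, `IsArc.mono`.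
* `pk_larc_dist`: `c t = γ (L * if_st t)` is `ContDiff ℝ 1` (locally `γ` is smooth near `[0,L]`, `if_st t ∈ [0,1]`), admissible in `X`, its image is connected and contains `γ 0`, so it lies in
  the component `X₀`; `if_len h c = ∫ L st' = L` (`if_speed_comp`, `if_integral_speed_comp` in `If/Concat.lean`); `if_rdist_le'`.
* `pk_larc_exists`: `K = {y ∈ X₀ | rdist X₀ h z y ≤ L + 1}` compact; `δ` from `pk_arc_unif`; induction on `k`: a long arc of length `min L (k δ/2)`.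
-/

set_option autoImplicit false
set_option linter.unusedSectionVars false
open scoped ContDiff Topology
open MeasureTheory Claims.C0499

namespace Claimed.Agent.R315

variable {W : Type} [NormedAddCommGroup W] [NormedSpace ℝ W]

/-- unit speed parametrisation on the interval `(a, b)`. -/
def IsArc (X : Set W) (h : Ten W) (γ : ℝ → W) (a b : ℝ) : Prop :=
  IsParam X (fun u : E 1 => γ (u 0)) {u | u 0 ∈ Set.Ioo a b} ∧
    ∀ s ∈ Set.Ioo a b, h (γ s) (deriv γ s) (deriv γ s) = 1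

/-- immersed unit speed curve on `[0, L]`. -/
def IsLArc (X : Set W) (h : Ten W) (γ : ℝ → W) (L : ℝ) : Prop :=
  ∀ s ∈ Set.Icc 0 L, ∃ ε > 0, IsArc X h γ (s - ε) (s + ε)

/-! ### the line `E 1` -/

theorem pkda_io_apply (s : ℝ) : (s • (eb 0 : E 1)) 0 = s := by simp

theorem pkda_io_proj (u : E 1) : (u 0) • (eb 0 : E 1) = u := by
  ext i
  obtain rfl : i = 0 := Subsingleton.elim _ _
  simp

theorem pkda_io_contDiff : ContDiff ℝ ∞ (fun s : ℝ => s • (eb 0 : E 1)) :=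
  contDiff_id.smul contDiff_const

theorem pkda_pr_contDiff : ContDiff ℝ ∞ (fun u : E 1 => u 0) :=
  (EuclideanSpace.proj (0 : Fin 1) : E 1 →L[ℝ] ℝ).contDiff

theorem pkda_isOpen {S : Set ℝ} (hS : IsOpen S) : IsOpen {u : E 1 | u 0 ∈ S} :=
  hS.preimage pkda_pr_contDiff.continuous

/-- derivative of `u ↦ t (u 0) • e₀`. -/
theorem pkda_hasFDerivAt {t : ℝ → ℝ} {t' : ℝ} {w : E 1} (ht : HasDerivAt t t' (w 0)) :
    HasFDerivAt (fun u : E 1 => t (u 0) • (eb 0 : E 1)) (t' • ContinuousLinearMap.id ℝ (E 1)) w := by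
  have h1 : HasFDerivAt (fun u : E 1 => u 0) (EuclideanSpace.proj (0 : Fin 1) : E 1 →L[ℝ] ℝ) w :=
    (EuclideanSpace.proj (0 : Fin 1) : E 1 →L[ℝ] ℝ).hasFDerivAt
  have h2 : HasFDerivAt (fun u : E 1 => t (u 0)) _ w := ht.hasFDerivAt.comp w h1
  have h3 := h2.smul_const (eb 0 : E 1)
  refine h3.congr_fderiv ?_
  ext v i
  obtain rfl : i = 0 := Subsingleton.elim _ _
  simp [mul_comm]

/-- reparametrisation of a parametrisation of a curve. -/
theorem pkda_reparam {X : Set W} {ψ : E 1 → W} {U : Set (E 1)} (hp : IsParam X ψ U) {t : ℝ → ℝ}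
    {S : Set ℝ} (hS : IsOpen S) (ht : ContDiffOn ℝ ∞ t S) (hinj : Set.InjOn t S)
    (hd : ∀ s ∈ S, deriv t s ≠ 0) (hm : ∀ s ∈ S, t s • (eb 0 : E 1) ∈ U) :
    IsParam X (fun u : E 1 => ψ (t (u 0) • (eb 0 : E 1))) {u | u 0 ∈ S} := by
  refine if_comp hp (τ := fun u : E 1 => t (u 0) • (eb 0 : E 1)) (pkda_isOpen hS) ?_ ?_ ?_ ?_
  · exact (ht.comp pkda_pr_contDiff.contDiffOn fun u hu => hu).smul contDiffOn_const
  · intro u hu v hv he
    have h1 : t (u 0) = t (v 0) := by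
      have := congrArg (fun x : E 1 => x 0) he
      simpa using this
    have h2 := hinj hu hv h1
    rw [← pkda_io_proj u, ← pkda_io_proj v, h2]
  · intro w hw
    have h1 : HasDerivAt t (deriv t (w 0)) (w 0) :=
      ((ht.contDiffAt (hS.mem_nhds hw)).differentiableAt (by simp)).hasDerivAt
    rw [(pkda_hasFDerivAt h1).fderiv]
    intro x y hxy
    simpa [hd _ hw] using hxy
  · intro u hu
    exact hm _ hu

/-- primitive of a smooth function on an interval -/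
theorem pkda_prim {g : ℝ → ℝ} {a b s₀ : ℝ} (hg : ContDiffOn ℝ ∞ g (Set.Ioo a b))
    (hs₀ : s₀ ∈ Set.Ioo a b) :
    (∀ s ∈ Set.Ioo a b, HasDerivAt (fun s => ∫ x in s₀..s, g x) (g s) s) ∧
      ContDiffOn ℝ ∞ (fun s => ∫ x in s₀..s, g x) (Set.Ioo a b) := by
  have hd : ∀ s ∈ Set.Ioo a b, HasDerivAt (fun s => ∫ x in s₀..s, g x) (g s) s := by
    intro s hs
    have hsub : Set.uIcc s₀ s ⊆ Set.Ioo a b := by
      intro x hx
      rcases Set.mem_uIcc.1 hx with h | h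
      · exact ⟨lt_of_lt_of_le hs₀.1 h.1, lt_of_le_of_lt h.2 hs.2⟩
      · exact ⟨lt_of_lt_of_le hs.1 h.1, lt_of_le_of_lt h.2 hs₀.2⟩
    exact intervalIntegral.integral_hasDerivAt_right
      ((hg.continuousOn.mono hsub).intervalIntegrable)
      (hg.continuousOn.stronglyMeasurableAtFilter isOpen_Ioo s hs)
      (hg.continuousOn.continuousAt (isOpen_Ioo.mem_nhds hs))
  refine ⟨hd, (contDiffOn_infty_iff_deriv_of_isOpen isOpen_Ioo).2
    ⟨fun s hs => (hd s hs).differentiableAt.differentiableWithinAt, hg.congr fun s hs => (hd s hs).deriv⟩⟩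

/-- smooth local inverse in one variable -/
theorem pkda_inverse {σ : ℝ → ℝ} {S : Set ℝ} (hS : IsOpen S) (hσ : ContDiffOn ℝ ∞ σ S)
    (hd : ∀ s ∈ S, deriv σ s ≠ 0) {s₀ : ℝ} (hs₀ : s₀ ∈ S) :
    ∃ (t : ℝ → ℝ) (T : Set ℝ), IsOpen T ∧ σ s₀ ∈ T ∧ ContDiffOn ℝ ∞ t T ∧ t (σ s₀) = s₀ ∧
      ∀ y ∈ T, t y ∈ S ∧ σ (t y) = y := by
  have hat : ∀ s ∈ S, ContDiffAt ℝ ∞ σ s := fun s hs => hσ.contDiffAt (hS.mem_nhds hs)
  have hs : HasStrictDerivAt σ (deriv σ s₀) s₀ := (hat s₀ hs₀).hasStrictDerivAt (by simp)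
  have hs' := hs.hasStrictFDerivAt_equiv (hd s₀ hs₀)
  set e := hs'.toOpenPartialHomeomorph σ with he
  have hecoe : (e : ℝ → ℝ) = σ := hs'.toOpenPartialHomeomorph_coe
  have hsrc : s₀ ∈ e.source := hs'.mem_toOpenPartialHomeomorph_source
  refine ⟨e.symm, e.target ∩ e.symm ⁻¹' S, e.isOpen_inter_preimage_symm hS, ?_, ?_, ?_, ?_⟩
  · rw [← hecoe]
    exact ⟨e.map_source hsrc, by rw [Set.mem_preimage, e.left_inv hsrc]; exact hs₀⟩
  · intro y hy
    have h1 := hat _ hy.2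
    have h2 : HasDerivAt σ (deriv σ (e.symm y)) (e.symm y) :=
      (h1.differentiableAt (by simp)).hasDerivAt
    exact (e.contDiffAt_symm_deriv (hd _ hy.2) hy.1 (hecoe ▸ h2) (hecoe ▸ h1)).contDiffWithinAt
  · rw [← hecoe]
    exact e.left_inv hsrc
  · intro y hy
    refine ⟨hy.2, ?_⟩
    rw [← hecoe]
    exact e.right_inv hy.1

variable [FiniteDimensional ℝ W] {X : Set W} {h : Ten W}

theorem IsArc.contDiffOn {γ : ℝ → W} {a b : ℝ} (hγ : IsArc X h γ a b) :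
    ContDiffOn ℝ ∞ γ (Set.Ioo a b) := by
  have h3 : ContDiffOn ℝ ∞ ((fun u : E 1 => γ (u 0)) ∘ fun s : ℝ => s • (eb 0 : E 1))
      (Set.Ioo a b) := (if_smooth hγ.1).comp pkda_io_contDiff.contDiffOn (fun s hs => by
    show (s • (eb 0 : E 1)) 0 ∈ Set.Ioo a b
    simpa using hs)
  refine h3.congr fun s _ => ?_
  simp

theorem IsArc.mem {γ : ℝ → W} {a b s : ℝ} (hγ : IsArc X h γ a b) (hs : s ∈ Set.Ioo a b) :
    γ s ∈ X := by
  have := if_mem hγ.1 (u := s • (eb 0 : E 1)) (by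
    show (s • (eb 0 : E 1)) 0 ∈ Set.Ioo a b
    simpa using hs)
  simpa using this

theorem IsArc.mono {γ : ℝ → W} {a b a' b' : ℝ} (hγ : IsArc X h γ a b) (ha : a ≤ a') (hb : b' ≤ b) :
    IsArc X h γ a' b' :=
  ⟨if_mono hγ.1 (pkda_isOpen isOpen_Ioo) fun _ hu => Set.Ioo_subset_Ioo ha hb hu,
    fun s hs => hγ.2 s (Set.Ioo_subset_Ioo ha hb hs)⟩

theorem IsArc.congr {γ γ' : ℝ → W} {a b : ℝ} (hγ : IsArc X h γ a b)
    (he : Set.EqOn γ' γ (Set.Ioo a b)) : IsArc X h γ' a b := by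
  refine ⟨if_congr hγ.1 fun u hu => he hu, fun s hs => ?_⟩
  have h1 : γ' =ᶠ[𝓝 s] γ := he.eventuallyEq_of_mem (isOpen_Ioo.mem_nhds hs)
  rw [h1.deriv_eq, he hs]
  exact hγ.2 s hs

theorem IsArc.shift {γ : ℝ → W} {a b : ℝ} (hγ : IsArc X h γ a b) (c : ℝ) :
    IsArc X h (fun s => γ (s + c)) (a - c) (b - c) := by
  have hm : ∀ s ∈ Set.Ioo (a - c) (b - c), s + c ∈ Set.Ioo a b := fun s hs =>
    ⟨by linarith [hs.1], by linarith [hs.2]⟩
  refine ⟨?_, fun s hs => ?_⟩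
  · have := pkda_reparam hγ.1 (t := fun s => s + c) (isOpen_Ioo (a := a - c) (b := b - c))
      (contDiff_id.add contDiff_const).contDiffOn (fun x _ y _ hxy => by simpa using hxy)
      (fun s _ => by simp) (fun s hs => by
        show ((s + c) • (eb 0 : E 1)) 0 ∈ Set.Ioo a b
        rw [pkda_io_apply]
        exact hm s hs)
    simpa only [pkda_io_apply] using this
  · rw [deriv_comp_add_const]
    exact hγ.2 _ (hm s hs)

theorem IsArc.rev {γ : ℝ → W} {a b : ℝ} (hγ : IsArc X h γ a b) :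
    IsArc X h (fun s => γ (-s)) (-b) (-a) := by
  have hm : ∀ s ∈ Set.Ioo (-b) (-a), -s ∈ Set.Ioo a b := fun s hs =>
    ⟨by linarith [hs.2], by linarith [hs.1]⟩
  refine ⟨?_, fun s hs => ?_⟩
  · have := pkda_reparam hγ.1 (t := fun s => -s) (isOpen_Ioo (a := -b) (b := -a))
      contDiff_id.neg.contDiffOn (fun x _ y _ hxy => by simpa using hxy)
      (fun s _ => by simp) (fun s hs => by
        show ((-s) • (eb 0 : E 1)) 0 ∈ Set.Ioo a b
        rw [pkda_io_apply]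
        exact hm s hs)
    simpa only [pkda_io_apply] using this
  · rw [deriv_comp_neg]
    simp only [map_neg, neg_apply, neg_neg]
    exact hγ.2 _ (hm s hs)

theorem pk_arc_exists (hX : IsMfd 1 X) (hh : IsMetricOn 1 X h) {z : W} (hz : z ∈ X) :
    ∃ (γ : ℝ → W) (ε : ℝ), 0 < ε ∧ IsArc X h γ (-ε) ε ∧ γ 0 = z := by
  obtain ⟨ψ, U, hp, u₀, hu₀, rfl⟩ := hX z hz
  set I : Set ℝ := {s | s • (eb 0 : E 1) ∈ U} with hIdef
  have hI : IsOpen I := (if_open hp).preimage pkda_io_contDiff.continuous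
  set s₀ := u₀ 0 with hs₀def
  have hs₀ : s₀ ∈ I := by
    show (u₀ 0) • (eb 0 : E 1) ∈ U
    rw [pkda_io_proj]
    exact hu₀
  set G : ℝ → ℝ := fun s => cm h ψ (s • (eb 0 : E 1)) 0 0 with hGdef
  have hG : ContDiffOn ℝ ∞ G I :=
    ((hh ψ U hp).1 0 0).comp pkda_io_contDiff.contDiffOn (fun s hs => hs)
  have hG0 : ∀ s ∈ I, 0 < G s := fun s hs => ((hh ψ U hp).2 _ hs).diag_pos
  have hg : ContDiffOn ℝ ∞ (fun s => Real.sqrt (G s)) I := hG.sqrt fun s hs => (hG0 s hs).ne'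
  obtain ⟨r, hr, hrI⟩ := Metric.isOpen_iff.1 hI s₀ hs₀
  rw [Real.ball_eq_Ioo] at hrI
  have hs₀J : s₀ ∈ Set.Ioo (s₀ - r) (s₀ + r) := ⟨by linarith, by linarith⟩
  obtain ⟨hσd, hσ⟩ := pkda_prim (hg.mono hrI) hs₀J
  set σ : ℝ → ℝ := fun s => ∫ x in s₀..s, Real.sqrt (G x) with hσdef
  have hσ0 : σ s₀ = 0 := by simp [hσdef]
  obtain ⟨t, T, hT, h0T, ht, ht0, htT⟩ := pkda_inverse isOpen_Ioo hσ (fun s hs => by
    rw [(hσd s hs).deriv]
    exact (Real.sqrt_pos.2 (hG0 s (hrI hs))).ne') hs₀J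
  rw [hσ0] at h0T ht0
  obtain ⟨ε, hε, hεT⟩ := Metric.isOpen_iff.1 hT 0 h0T
  rw [Real.ball_eq_Ioo, zero_sub, zero_add] at hεT
  have htd : ∀ s ∈ Set.Ioo (-ε) ε, HasDerivAt t (deriv t s) s := fun s hs =>
    ((ht.contDiffAt (hT.mem_nhds (hεT hs))).differentiableAt (by simp)).hasDerivAt
  have hmul : ∀ s ∈ Set.Ioo (-ε) ε, Real.sqrt (G (t s)) * deriv t s = 1 := by
    intro s hs
    have h1 := (hσd (t s) (htT s (hεT hs)).1).comp s (htd s hs)
    have h2 : (σ ∘ t) =ᶠ[𝓝 s] id := by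
      filter_upwards [hT.mem_nhds (hεT hs)] with y hy using (htT y hy).2
    have h3 := h2.deriv_eq
    rw [h1.deriv, deriv_id] at h3
    exact h3
  have hmI : ∀ s ∈ Set.Ioo (-ε) ε, t s ∈ I := fun s hs => hrI (htT s (hεT hs)).1
  refine ⟨fun s => ψ (t s • (eb 0 : E 1)), ε, hε, ⟨?_, fun s hs => ?_⟩, ?_⟩
  · refine pkda_reparam hp isOpen_Ioo (ht.mono hεT) ?_ ?_ hmI
    · intro x hx y hy hxy
      rw [← (htT x (hεT hx)).2, ← (htT y (hεT hy)).2, hxy]
    · intro s hs h0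
      have := hmul s hs
      rw [h0, mul_zero] at this
      exact zero_ne_one this
  · have h1 : HasDerivAt (fun s => t s • (eb 0 : E 1)) (deriv t s • (eb 0 : E 1)) s :=
      (htd s hs).smul_const _
    have h2 := (if_differentiableAt hp (hmI s hs)).hasFDerivAt.comp_hasDerivAt s h1
    have h3 : deriv (fun s => ψ (t s • (eb 0 : E 1))) s
        = deriv t s • fderiv ℝ ψ (t s • (eb 0 : E 1)) (eb 0) := by
      rw [← map_smul]
      exact h2.deriv
    rw [h3]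
    simp only [map_smul, smul_apply, smul_eq_mul]
    have h4 : h (ψ (t s • (eb 0 : E 1))) (fderiv ℝ ψ (t s • (eb 0 : E 1)) (eb 0))
        (fderiv ℝ ψ (t s • (eb 0 : E 1)) (eb 0)) = G (t s) := rfl
    rw [h4]
    have h5 := hmul s hs
    have h6 := Real.sq_sqrt (hG0 _ (hmI s hs)).le
    calc deriv t s * (deriv t s * G (t s))
        = deriv t s * (deriv t s * Real.sqrt (G (t s)) ^ 2) := by rw [h6]
      _ = (Real.sqrt (G (t s)) * deriv t s) ^ 2 := by ring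
      _ = 1 := by rw [h5]; norm_num
  · show ψ (t 0 • (eb 0 : E 1)) = ψ u₀
    rw [ht0, hs₀def, pkda_io_proj]

theorem pk_arc_unif (hX : IsMfd 1 X) (hh : IsMetricOn 1 X h) {K : Set W} (hK : IsCompact K)
    (hKX : K ⊆ X) : ∃ δ : ℝ, 0 < δ ∧ ∀ z ∈ K, ∃ γ : ℝ → W, IsArc X h γ (-δ) δ ∧ γ 0 = z := by
  have H : ∀ z : W, ∃ (V : Set W) (e : ℝ), (z ∈ K → V ∈ 𝓝 z) ∧ 0 < e ∧
      ∀ y ∈ X ∩ V, ∃ γ : ℝ → W, IsArc X h γ (-e) e ∧ γ 0 = y := by
    intro z
    by_cases hz : z ∈ K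
    · obtain ⟨γ, ε, hε, hγ, h0⟩ := pk_arc_exists hX hh (hKX hz)
      obtain ⟨V, hV, hVe⟩ := if_image_open hγ.1 (W := {u : E 1 | u 0 ∈ Set.Ioo (-(ε / 2)) (ε / 2)})
        (pkda_isOpen isOpen_Ioo)
        (fun u hu => Set.Ioo_subset_Ioo (by linarith) (by linarith) hu)
      refine ⟨V, ε / 2, fun _ => hV.mem_nhds ?_, by linarith, fun y hy => ?_⟩
      · have : z ∈ X ∩ V := by
          rw [← hVe]
          refine ⟨(0 : ℝ) • (eb 0 : E 1), ?_, ?_⟩
          · show ((0 : ℝ) • (eb 0 : E 1)) 0 ∈ Set.Ioo (-(ε / 2)) (ε / 2)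
            rw [pkda_io_apply]
            exact ⟨by linarith, by linarith⟩
          · show γ (((0 : ℝ) • (eb 0 : E 1)) 0) = z
            rw [pkda_io_apply]
            exact h0
        exact this.2
      · rw [← hVe] at hy
        obtain ⟨u, hu, rfl⟩ := hy
        have hu' : u 0 ∈ Set.Ioo (-(ε / 2)) (ε / 2) := hu
        refine ⟨fun s => γ (s + u 0), (hγ.shift (u 0)).mono ?_ ?_, ?_⟩
        · linarith [hu'.1]
        · linarith [hu'.2]
        · show γ (0 + u 0) = γ (u 0)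
          rw [zero_add]
    · exact ⟨∅, 1, fun h' => absurd h' hz, one_pos, fun y hy => absurd hy.2 (Set.notMem_empty y)⟩
  choose V e hV he hVe using H
  have hmin : ∀ t : Finset W, ∃ δ : ℝ, 0 < δ ∧ ∀ z ∈ t, δ ≤ e z := by
    intro t
    classical
    induction t using Finset.induction_on with
    | empty => exact ⟨1, one_pos, by simp⟩
    | insert a s ha ih =>
      obtain ⟨δ, hδ, h'⟩ := ih
      refine ⟨min δ (e a), lt_min hδ (he a), fun z hz => ?_⟩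
      rcases Finset.mem_insert.1 hz with rfl | hz
      · exact min_le_right _ _
      · exact (min_le_left _ _).trans (h' z hz)
  obtain ⟨t, -, hcov⟩ := hK.elim_nhds_subcover V fun z hz => hV z hz
  obtain ⟨δ, hδ, hδe⟩ := hmin t
  refine ⟨δ, hδ, fun y hy => ?_⟩
  obtain ⟨z, hzt, hyV⟩ := Set.mem_iUnion₂.1 (hcov hy)
  obtain ⟨γ, hγ, h0⟩ := hVe z y ⟨hKX hy, hyV⟩
  exact ⟨γ, hγ.mono (by linarith [hδe z hzt]) (hδe z hzt), h0⟩

theorem pk_arc_trans (hh : IsMetricOn 1 X h) {γ₁ γ₂ : ℝ → W} {ε₁ ε₂ : ℝ} (h1 : 0 < ε₁)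
    (h2 : 0 < ε₂) (hγ₁ : IsArc X h γ₁ (-ε₁) ε₁) (hγ₂ : IsArc X h γ₂ (-ε₂) ε₂) (h0 : γ₁ 0 = γ₂ 0) :
    ∃ ε > 0, (∀ s, |s| < ε → γ₁ s = γ₂ s) ∨ ∀ s, |s| < ε → γ₁ s = γ₂ (-s) := by
  set ψ₁ : E 1 → W := fun u => γ₁ (u 0) with hψ₁
  set ψ₂ : E 1 → W := fun u => γ₂ (u 0) with hψ₂
  set U₁ : Set (E 1) := {u | u 0 ∈ Set.Ioo (-ε₁) ε₁} with hU₁
  set U₂ : Set (E 1) := {u | u 0 ∈ Set.Ioo (-ε₂) ε₂} with hU₂
  have hp₁ : IsParam X ψ₁ U₁ := hγ₁.1
  have hp₂ : IsParam X ψ₂ U₂ := hγ₂.1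
  set D := if_trDom ψ₁ U₁ ψ₂ U₂ with hD
  have hDo : IsOpen D := if_isOpen_trDom hp₁ hp₂
  set τ := if_tr ψ₂ U₂ ψ₁ with hτ
  set S : Set ℝ := {s | s • (eb 0 : E 1) ∈ D} with hS
  have hSo : IsOpen S := hDo.preimage pkda_io_contDiff.continuous
  set t : ℝ → ℝ := fun s => (τ (s • (eb 0 : E 1))) 0 with ht
  have hz1 : ((0 : ℝ) • (eb 0 : E 1)) ∈ U₁ := by
    show ((0 : ℝ) • (eb 0 : E 1)) 0 ∈ Set.Ioo (-ε₁) ε₁
    rw [pkda_io_apply]
    exact ⟨by linarith, h1⟩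
  have hz2 : ((0 : ℝ) • (eb 0 : E 1)) ∈ U₂ := by
    show ((0 : ℝ) • (eb 0 : E 1)) 0 ∈ Set.Ioo (-ε₂) ε₂
    rw [pkda_io_apply]
    exact ⟨by linarith, h2⟩
  have hz12 : ψ₁ ((0 : ℝ) • (eb 0 : E 1)) = ψ₂ ((0 : ℝ) • (eb 0 : E 1)) := by
    show γ₁ (((0 : ℝ) • (eb 0 : E 1)) 0) = γ₂ (((0 : ℝ) • (eb 0 : E 1)) 0)
    rw [pkda_io_apply]
    exact h0
  have h0S : (0 : ℝ) ∈ S := if_mem_trDom hz1 hz2 hz12
  have ht0 : t 0 = 0 := by
    show (τ ((0 : ℝ) • (eb 0 : E 1))) 0 = 0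
    rw [hτ, if_tr_eq hp₂ hz2 hz12, pkda_io_apply]
  have hts : ContDiffOn ℝ ∞ t S :=
    pkda_pr_contDiff.comp_contDiffOn
      ((if_tr_contDiffOn hp₁ hp₂).comp pkda_io_contDiff.contDiffOn fun s hs => hs)
  have hspec : ∀ s ∈ S, γ₂ (t s) = γ₁ s := by
    intro s hs
    have := if_tr_spec (ψ := ψ₁) (U := U₁) (ψ' := ψ₂) (U' := U₂) hs
    have e : ψ₁ (s • (eb 0 : E 1)) = γ₁ s := by
      show γ₁ ((s • (eb 0 : E 1)) 0) = γ₁ s
      rw [pkda_io_apply]
    rw [e] at this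
    exact this
  have hmem2 : ∀ s ∈ S, t s ∈ Set.Ioo (-ε₂) ε₂ := fun s hs =>
    if_tr_mem (ψ := ψ₁) (U := U₁) (ψ' := ψ₂) (U' := U₂) hs
  have hmem1 : ∀ s ∈ S, s ∈ Set.Ioo (-ε₁) ε₁ := by
    intro s hs
    have : (s • (eb 0 : E 1)) 0 ∈ Set.Ioo (-ε₁) ε₁ := hs.1
    rwa [pkda_io_apply] at this
  obtain ⟨ε, hε, hεS⟩ := Metric.isOpen_iff.1 hSo 0 h0S
  rw [Real.ball_eq_Ioo, zero_sub, zero_add] at hεS
  have htd : ∀ s ∈ S, HasDerivAt t (deriv t s) s := fun s hs =>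
    ((hts.contDiffAt (hSo.mem_nhds hs)).differentiableAt (by simp)).hasDerivAt
  have hsq : ∀ s ∈ S, deriv t s ^ 2 = 1 := by
    intro s hs
    have a1 : HasDerivAt γ₂ (deriv γ₂ (t s)) (t s) :=
      ((hγ₂.contDiffOn.contDiffAt (isOpen_Ioo.mem_nhds (hmem2 s hs))).differentiableAt
        (by simp)).hasDerivAt
    have a2 := a1.scomp s (htd s hs)
    have a3 : γ₁ =ᶠ[𝓝 s] γ₂ ∘ t := by
      filter_upwards [hSo.mem_nhds hs] with y hy using (hspec y hy).symm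
    have a4 := hγ₁.2 s (hmem1 s hs)
    rw [a3.deriv_eq, a2.deriv, ← hspec s hs] at a4
    simp only [map_smul, smul_apply, smul_eq_mul] at a4
    rw [hγ₂.2 _ (hmem2 s hs)] at a4
    nlinarith
  have hconst : ∀ s ∈ Set.Ioo (-ε) ε, deriv t s = deriv t 0 := by
    intro s hs
    refine isPreconnected_Ioo.constant_of_mapsTo (T := ({1, -1} : Set ℝ))
      (Set.toFinite _).isDiscrete (f := deriv t)
      ((hts.continuousOn_deriv_of_isOpen hSo (by simp)).mono hεS) ?_ hs ⟨by linarith, hε⟩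
    intro y hy
    have := hsq y (hεS hy)
    rcases sq_eq_one_iff.1 this with h' | h'
    · exact Or.inl h'
    · exact Or.inr h'
  have hI0 : (0 : ℝ) ∈ Set.Ioo (-ε) ε := ⟨by linarith, hε⟩
  have hlin : ∀ s ∈ Set.Ioo (-ε) ε, t s = deriv t 0 * s := by
    have := isOpen_Ioo.eqOn_of_deriv_eq (𝕜 := ℝ) (f := t) (g := fun s => deriv t 0 * s)
      (isPreconnected_Ioo (a := -ε) (b := ε))
      (fun s hs => (htd s (hεS hs)).differentiableAt.differentiableWithinAt)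
      (fun s _ => ((differentiableAt_id).const_mul _).differentiableWithinAt)
      (fun s hs => by
        rw [hconst s hs]
        simp) hI0 (by simp [ht0])
    exact this
  refine ⟨ε, hε, ?_⟩
  rcases sq_eq_one_iff.1 (hsq 0 h0S) with h' | h'
  · left
    intro s hs
    have hs' : s ∈ Set.Ioo (-ε) ε := abs_lt.1 hs
    rw [← hspec s (hεS hs'), hlin s hs', h', one_mul]
  · right
    intro s hs
    have hs' : s ∈ Set.Ioo (-ε) ε := abs_lt.1 hs
    rw [← hspec s (hεS hs'), hlin s hs', h', neg_one_mul]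

theorem pk_larc_extend (hh : IsMetricOn 1 X h) {γ γ₁ : ℝ → W} {L δ : ℝ} (hL : 0 ≤ L) (hδ : 0 < δ)
    (hγ : IsLArc X h γ L) (hγ₁ : IsArc X h γ₁ (-δ) δ) (h0 : γ₁ 0 = γ L) :
    ∃ γ' : ℝ → W, IsLArc X h γ' (L + δ / 2) ∧ γ' 0 = γ 0 := by
  obtain ⟨ε₀, hε₀, harc⟩ := hγ L ⟨hL, le_rfl⟩
  have harc' : IsArc X h (fun s => γ (s + L)) (-ε₀) ε₀ :=
    (harc.shift L).mono (by linarith) (by linarith)
  obtain ⟨γ₂, ε, hε, hγ₂, heq⟩ : ∃ (γ₂ : ℝ → W) (ε : ℝ), 0 < ε ∧ IsArc X h γ₂ (-δ) δ ∧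
      ∀ s, |s| < ε → γ (s + L) = γ₂ s := by
    obtain ⟨ε, hε, hc | hc⟩ := pk_arc_trans hh hε₀ hδ harc' hγ₁ (by
      show γ (0 + L) = γ₁ 0
      rw [zero_add, h0])
    · exact ⟨γ₁, ε, hε, hγ₁, hc⟩
    · exact ⟨fun s => γ₁ (-s), ε, hε, hγ₁.rev.mono le_rfl (by linarith), hc⟩
  classical
  set γ' : ℝ → W := fun s => if s ≤ L then γ s else γ₂ (s - L) with hγ'
  have hA : ∀ s, s < L + ε → γ' s = γ s := by
    intro s hs
    by_cases hsL : s ≤ L
    · simp only [hγ', if_pos hsL]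
    · simp only [hγ', if_neg hsL]
      push Not at hsL
      rw [← heq (s - L) (by rw [abs_lt]; constructor <;> linarith), sub_add_cancel]
  refine ⟨γ', fun s hs => ?_, by simp only [hγ', if_pos hL]⟩
  by_cases hsL : s ≤ L
  · obtain ⟨e, he, ha⟩ := hγ s ⟨hs.1, hsL⟩
    refine ⟨min e ε, lt_min he hε, ?_⟩
    refine (ha.mono (by linarith [min_le_left e ε]) (by linarith [min_le_left e ε])).congr ?_
    intro x hx
    exact hA x (by linarith [hx.2, min_le_right e ε])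
  · push Not at hsL
    refine ⟨min (δ / 2) (s - L), lt_min (by linarith) (by linarith), ?_⟩
    have h1 := min_le_left (δ / 2) (s - L)
    have h2 := min_le_right (δ / 2) (s - L)
    refine ((hγ₂.shift (-L)).mono (by linarith) (by linarith [hs.2])).congr ?_
    intro x hx
    have hx' : ¬ x ≤ L := by
      push Not
      linarith [hx.1]
    simp only [hγ', if_neg hx', sub_eq_add_neg]

theorem pk_larc_dist (hX : IsMfd 1 X) (hh : IsMetricOn 1 X h) {γ : ℝ → W} {L : ℝ} (hL : 0 ≤ L)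
    (hγ : IsLArc X h γ L) : γ L ∈ connectedComponentIn X (γ 0) ∧
      rdist (connectedComponentIn X (γ 0)) h (γ 0) (γ L) ≤ L := by
  have hat : ∀ s ∈ Set.Icc 0 L, ContDiffAt ℝ ∞ γ s := by
    intro s hs
    obtain ⟨e, he, ha⟩ := hγ s hs
    exact ha.contDiffOn.contDiffAt (isOpen_Ioo.mem_nhds ⟨by linarith, by linarith⟩)
  have hmemX : ∀ s ∈ Set.Icc 0 L, γ s ∈ X := by
    intro s hs
    obtain ⟨e, he, ha⟩ := hγ s hs
    exact ha.mem ⟨by linarith, by linarith⟩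
  have hsp : ∀ s ∈ Set.Icc 0 L, if_speed h γ s = 1 := by
    intro s hs
    obtain ⟨e, he, ha⟩ := hγ s hs
    unfold if_speed
    rw [ha.2 s ⟨by linarith, by linarith⟩, Real.sqrt_one]
  have hsub : γ '' Set.Icc 0 L ⊆ connectedComponentIn X (γ 0) := by
    refine IsPreconnected.subset_connectedComponentIn ?_ ⟨0, ⟨le_rfl, hL⟩, rfl⟩ ?_
    · exact isPreconnected_Icc.image γ fun s hs => (hat s hs).continuousAt.continuousWithinAt
    · rintro _ ⟨s, hs, rfl⟩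
      exact hmemX s hs
  set φ : ℝ → ℝ := fun t => L * if_st t with hφ
  have hφm : ∀ t, φ t ∈ Set.Icc 0 L := fun t =>
    ⟨mul_nonneg hL (if_st_mem t).1, by
      have := mul_le_mul_of_nonneg_left (if_st_mem t).2 hL
      simpa using this⟩
  have hφs : ContDiff ℝ 1 φ := contDiff_const.mul if_st_contDiff
  have hφd : ∀ t, deriv φ t = L * deriv if_st t := fun t =>
    deriv_const_mul _ (if_st_differentiableAt t)
  have hc : if_Adm (connectedComponentIn X (γ 0)) (γ ∘ φ) := by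
    refine ⟨contDiff_iff_contDiffAt.2 fun t => ?_, fun t _ => hsub ⟨φ t, hφm t, rfl⟩⟩
    exact ((hat _ (hφm t)).of_le (by simp)).comp t hφs.contDiffAt
  have hlen : if_len h (γ ∘ φ) = L := by
    unfold if_len
    have : ∀ t, if_speed h (γ ∘ φ) t = L * deriv if_st t := by
      intro t
      rw [if_speed_comp h ((hat _ (hφm t)).differentiableAt (by simp))
        (hφs.differentiable (by simp) t) (by
          rw [hφd]
          exact mul_nonneg hL (if_st_deriv_nonneg t)), hsp _ (hφm t), one_mul, hφd]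
    simp only [this]
    rw [intervalIntegral.integral_const_mul, if_st_integral_deriv, mul_one]
  refine ⟨hsub ⟨L, ⟨hL, le_rfl⟩, rfl⟩, ?_⟩
  have := if_rdist_le' hc h (x := γ 0) (y := γ L) (by simp [hφ, if_st]) (by simp [hφ, if_st])
  rwa [hlen] at this

/-- **long arcs exist in a complete 1-manifold.** -/
theorem pk_larc_exists (hX : IsMfd 1 X) (hh : IsMetricOn 1 X h) {z : W} (hz : z ∈ X)
    (hpr : IsProperOn (connectedComponentIn X z) h) (L : ℝ) (hL : 0 ≤ L) :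
    ∃ γ : ℝ → W, IsLArc X h γ L ∧ γ 0 = z := by
  have hz₀ : z ∈ connectedComponentIn X z := mem_connectedComponentIn hz
  have hK := hpr z hz₀ (L + 1)
  obtain ⟨δ, hδ, hunif⟩ := pk_arc_unif hX hh hK fun y hy => connectedComponentIn_subset X z hy.1
  have key : ∀ k : ℕ, ∃ γ : ℝ → W, IsLArc X h γ (min L (k * (δ / 2))) ∧ γ 0 = z := by
    intro k
    induction k with
    | zero =>
      obtain ⟨γ, ε, hε, hγ, h0⟩ := pk_arc_exists hX hh hz
      refine ⟨γ, fun s hs => ⟨ε, hε, ?_⟩, h0⟩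
      have hs0 : s = 0 := by
        have h1 := hs.2
        have h2 : min L ((0 : ℕ) * (δ / 2)) ≤ 0 := by simp
        exact le_antisymm (h1.trans h2) hs.1
      rw [hs0]
      exact hγ.mono (by linarith) (by linarith)
    | succ k ih =>
      obtain ⟨γ, hγ, h0⟩ := ih
      have hℓ : 0 ≤ min L (k * (δ / 2)) := le_min hL (by positivity)
      obtain ⟨hm, hd⟩ := pk_larc_dist hX hh hℓ hγ
      rw [h0] at hm hd
      obtain ⟨γ₁, hγ₁, h1⟩ := hunif (γ (min L (k * (δ / 2))))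
        ⟨hm, hd.trans ((min_le_left _ _).trans (by linarith))⟩
      obtain ⟨γ', hγ', h0'⟩ := pk_larc_extend hh hℓ hδ hγ hγ₁ h1
      refine ⟨γ', fun s hs => hγ' s ⟨hs.1, hs.2.trans ?_⟩, h0'.trans h0⟩
      push_cast
      rcases le_total L (k * (δ / 2)) with hc | hc
      · rw [min_eq_left hc]
        exact (min_le_left _ _).trans (by linarith)
      · rw [min_eq_right hc]
        exact (min_le_right _ _).trans (by linarith)
  obtain ⟨k, hk⟩ := exists_nat_ge (L / (δ / 2))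
  obtain ⟨γ, hγ, h0⟩ := key k
  rw [div_le_iff₀ (by positivity)] at hk
  rw [min_eq_left hk] at hγ
  exact ⟨γ, hγ, h0⟩

end Claimed.Agent.R315
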