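import Claimed.Agent.R315.Pack004
import Claimed.Agent.R315.Pack002

/-!
# Row 315, stage zero (P Lemma 6.1), part A: the crossing profile, the triangle wave, distance to a set

PACKAGE PK-INIT-A (one owner; ~500 lines; Mathlib only + `IsRd`; no paper).

* `pkT p = 2π √(2/p)` length of the crossing `2|y'| = y²/2 + p`; `y (s) = √(2p) cot (s √(p/8))`, `0 < s < pkT p`.
* `pkY p s : EReal` : `⊤` for `s ≤ 2`, `y (s - 2)` for `2 < s < 2 + pkT p`, `⊥` for `2 + pkT p ≤ s`.
* `pkTri P s` = distance of `s` to the lattice `2 P ℤ` (triangle wave).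
* `pkDistTo M h A z = inf_{y ∈ A} rdist M h y z`.

PLANS.
* `pkY_continuous`: on `(2, 2 + T)` composition of continuous functions (`sin > 0` there: `(s-2) √(p/8) ∈ (0, π)` because
  `pkT p * √(p/8) = π`); at `s = 2`: `cot x → +∞` as `x → 0+` (`cos → 1`, `sin → 0+`), `EReal.tendsto_coe_nhds_top_iff`; at `2 + T`: `cot x → -∞` as `x → π-`.
  Use `continuous_iff_continuousAt` and split `𝓝 s = 𝓝[≤] s ⊔ 𝓝[>] s`.
* `pkY_hasDerivAt`: `d/dx (cos x / sin x) = - 1 - cot² x`; with `k = √(p/8)`, `√(2p) k = p/2`, `k/√(2p) = 1/4`: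
  `y' = - √(2p) k (1 + y²/(2p)) = - (p + y²/2)/2`.  Near `s₀` the function `toReal ∘ pkY p` IS the real formula.
* `pkY_slope`: the derivative `s ↦ -(y(s)²/2 + p)/2` is continuous at `s₀`; mean value inequality on a small interval
  (`Convex.norm_image_sub_le_of_norm_hasDerivWithin_le`).
* `pkTri`: `Metric.infDist` is 1-Lipschitz (`Metric.lipschitz_infDist_pt`/`Metric.infDist_le_infDist_add_dist`); at `2Pk + P` every lattice point has distance
  `P |2 (k - m) + 1| ≥ P` and `2Pk` has distance `P`.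
* `pkDistTo`: the set is bounded below by `0` (`if_rdist_nonneg`), nonempty; triangle inequality `IsRd.tri` and symmetry give the Lipschitz
  bound (`csInf_le`, `le_csInf`); continuity from the Lipschitz bound and `IsRd.cont`, `IsRd.self`.
-/

set_option autoImplicit false
set_option linter.unusedSectionVars false
open scoped ContDiff Topology
open MeasureTheory Claims.C0499

namespace Claimed.Agent.R315

open Filter

/-- length of the crossing. -/
noncomputable def pkT (p : ℝ) : ℝ := 2 * Real.pi * Real.sqrt (2 / p)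

/-- the finite part of the crossing. -/
noncomputable def pkYr (p s : ℝ) : ℝ :=
  Real.sqrt (2 * p) * (Real.cos ((s - 2) * Real.sqrt (p / 8)) / Real.sin ((s - 2) * Real.sqrt (p / 8)))

/-- the crossing, extended by its poles. -/
noncomputable def pkY (p s : ℝ) : EReal :=
  if s ≤ 2 then ⊤ else if 2 + pkT p ≤ s then ⊥ else (pkYr p s : EReal)

theorem pkT_pos {p : ℝ} (hp : 0 < p) : 0 < pkT p := by
  unfold pkT
  have h1 : 0 < Real.sqrt (2 / p) := Real.sqrt_pos.2 (by positivity)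
  have := Real.pi_pos
  positivity

theorem pkY_eq_top {p s : ℝ} (hp : 0 < p) : pkY p s = ⊤ ↔ s ≤ 2 := by
  unfold pkY
  split_ifs with h1 h2
  · simp [h1]
  · simp [h1]
  · simp [h1]

theorem pkY_eq_bot {p s : ℝ} (hp : 0 < p) : pkY p s = ⊥ ↔ 2 + pkT p ≤ s := by
  have hT := pkT_pos hp
  unfold pkY
  split_ifs with h1 h2
  · have : ¬ (2 + pkT p ≤ s) := by linarith
    simp [this]
  · simp [h2]
  · simp [h2]

theorem pka_k_pos {p : ℝ} (hp : 0 < p) : 0 < Real.sqrt (p / 8) := Real.sqrt_pos.2 (by positivity)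

theorem pka_T_mul {p : ℝ} (hp : 0 < p) : pkT p * Real.sqrt (p / 8) = Real.pi := by
  unfold pkT
  rw [mul_assoc, ← Real.sqrt_mul (by positivity)]
  have e : 2 / p * (p / 8) = (1 / 2) ^ 2 := by
    field_simp
    norm_num
  rw [e, Real.sqrt_sq (by norm_num)]
  ring

theorem pka_sqrt_mul {p : ℝ} (hp : 0 < p) : Real.sqrt (2 * p) * Real.sqrt (p / 8) = p / 2 := by
  rw [← Real.sqrt_mul (by positivity)]
  have e : 2 * p * (p / 8) = (p / 2) ^ 2 := by ring
  rw [e, Real.sqrt_sq (by positivity)]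

theorem pka_Yr_eq (p s : ℝ) :
    pkYr p s = Real.sqrt (2 * p) * Real.tan (Real.pi / 2 - (s - 2) * Real.sqrt (p / 8)) := by
  unfold pkYr
  rw [Real.tan_pi_div_two_sub, Real.tan_eq_sin_div_cos, inv_div]

theorem pka_Y_eq {p s : ℝ} (h1 : 2 < s) (h2 : s < 2 + pkT p) : pkY p s = (pkYr p s : EReal) := by
  unfold pkY
  rw [if_neg (not_le.2 h1), if_neg (not_le.2 h2)]

theorem pka_u_mem {p s : ℝ} (hp : 0 < p) (h1 : 2 < s) (h2 : s < 2 + pkT p) :
    Real.pi / 2 - (s - 2) * Real.sqrt (p / 8) ∈ Set.Ioo (-(Real.pi / 2)) (Real.pi / 2) := by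
  have hk := pka_k_pos hp
  have h3 : (s - 2) * Real.sqrt (p / 8) < pkT p * Real.sqrt (p / 8) :=
    mul_lt_mul_of_pos_right (by linarith) hk
  rw [pka_T_mul hp] at h3
  have h4 : 0 < (s - 2) * Real.sqrt (p / 8) := mul_pos (by linarith) hk
  constructor <;> linarith

theorem pka_Yr_hasDerivAt {p s : ℝ} (hp : 0 < p) (h1 : 2 < s) (h2 : s < 2 + pkT p) :
    HasDerivAt (pkYr p) (-((pkYr p s) ^ 2 / 2 + p) / 2) s := by
  have hcos : Real.cos (Real.pi / 2 - (s - 2) * Real.sqrt (p / 8)) ≠ 0 :=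
    (Real.cos_pos_of_mem_Ioo (pka_u_mem hp h1 h2)).ne'
  have hu : HasDerivAt (fun x : ℝ => Real.pi / 2 - (x - 2) * Real.sqrt (p / 8)) (-(Real.sqrt (p / 8))) s := by
    have := (((hasDerivAt_id s).sub_const 2).mul_const (Real.sqrt (p / 8))).const_sub (Real.pi / 2)
    simpa using this
  have ht := ((Real.hasDerivAt_tan hcos).comp s hu).const_mul (Real.sqrt (2 * p))
  have e1 : (fun x => Real.sqrt (2 * p) * (Real.tan ∘ fun x : ℝ => Real.pi / 2 - (x - 2) * Real.sqrt (p / 8)) x)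
      = pkYr p := by
    funext x
    rw [pka_Yr_eq]
    rfl
  rw [e1] at ht
  suffices hval : -((pkYr p s) ^ 2 / 2 + p) / 2 = Real.sqrt (2 * p) *
      (1 / Real.cos (Real.pi / 2 - (s - 2) * Real.sqrt (p / 8)) ^ 2 * -(Real.sqrt (p / 8))) by
    rw [hval]
    exact ht
  rw [pka_Yr_eq, Real.tan_eq_sin_div_cos]
  have hs2 := Real.sin_sq_add_cos_sq (Real.pi / 2 - (s - 2) * Real.sqrt (p / 8))
  have hsq : Real.sqrt (2 * p) ^ 2 = 2 * p := Real.sq_sqrt (by positivity)
  have hm := pka_sqrt_mul hp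
  set c := Real.cos (Real.pi / 2 - (s - 2) * Real.sqrt (p / 8)) with hc
  set sn := Real.sin (Real.pi / 2 - (s - 2) * Real.sqrt (p / 8)) with hsn
  set A := Real.sqrt (2 * p) with hA
  set k := Real.sqrt (p / 8) with hk
  have e2 : A * (1 / c ^ 2 * -k) = -(p / 2) / c ^ 2 := by
    rw [← hm]
    field_simp
  rw [e2]
  have e3 : (A * (sn / c)) ^ 2 = 2 * p * sn ^ 2 / c ^ 2 := by
    rw [mul_pow, div_pow, hsq]
    ring
  rw [e3]
  have e4 : sn ^ 2 = 1 - c ^ 2 := by linarith
  rw [e4]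
  field_simp
  ring

theorem pkY_continuous {p : ℝ} (hp : 0 < p) : Continuous (pkY p) := by
  have hT := pkT_pos hp
  have hk := pka_k_pos hp
  have h2p : 0 < Real.sqrt (2 * p) := Real.sqrt_pos.2 (by positivity)
  rw [continuous_iff_continuousAt]
  intro s₀
  rcases lt_trichotomy s₀ 2 with h | h | h
  · have : pkY p =ᶠ[𝓝 s₀] fun _ => (⊤ : EReal) := by
      filter_upwards [Iio_mem_nhds h] with s hs
      exact (pkY_eq_top hp).2 (le_of_lt hs)
    exact continuousAt_const.congr this.symm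
  · subst h
    have htop : pkY p 2 = ⊤ := (pkY_eq_top hp).2 le_rfl
    unfold ContinuousAt
    rw [htop, EReal.tendsto_nhds_top_iff_real]
    intro x
    have hu : Tendsto (fun s : ℝ => Real.pi / 2 - (s - 2) * Real.sqrt (p / 8)) (𝓝[>] (2 : ℝ))
        (𝓝[<] (Real.pi / 2)) := by
      rw [tendsto_nhdsWithin_iff]
      constructor
      · have hc : Continuous fun s : ℝ => Real.pi / 2 - (s - 2) * Real.sqrt (p / 8) := by fun_prop
        have := (hc.tendsto 2).mono_left (nhdsWithin_le_nhds (s := Set.Ioi (2 : ℝ)))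
        simpa using this
      · filter_upwards [self_mem_nhdsWithin] with s hs
        have hs' : 2 < s := hs
        show Real.pi / 2 - (s - 2) * Real.sqrt (p / 8) < Real.pi / 2
        have : 0 < (s - 2) * Real.sqrt (p / 8) := mul_pos (by linarith) hk
        linarith
    have ht : Tendsto (fun s : ℝ => pkYr p s) (𝓝[>] (2 : ℝ)) atTop := by
      have := (Real.tendsto_tan_pi_div_two.comp hu).const_mul_atTop h2p
      refine this.congr fun s => ?_
      rw [pka_Yr_eq]
      rfl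
    have h1 := ht.eventually_gt_atTop x
    rw [eventually_nhdsWithin_iff] at h1
    filter_upwards [h1, Iio_mem_nhds (show (2 : ℝ) < 2 + pkT p by linarith)] with s hs hs2
    by_cases hle : s ≤ 2
    · rw [(pkY_eq_top hp).2 hle]
      exact EReal.coe_lt_top x
    · have hs2' : s < 2 + pkT p := hs2
      rw [pka_Y_eq (lt_of_not_ge hle) hs2']
      exact EReal.coe_lt_coe_iff.2 (hs (lt_of_not_ge hle))
  · rcases lt_trichotomy s₀ (2 + pkT p) with h' | h' | h'
    · have he : pkY p =ᶠ[𝓝 s₀] fun s => ((pkYr p s : ℝ) : EReal) := by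
        filter_upwards [Ioi_mem_nhds h, Iio_mem_nhds h'] with s hs hs'
        exact pka_Y_eq hs hs'
      refine ContinuousAt.congr ?_ he.symm
      exact continuous_coe_real_ereal.continuousAt.comp (pka_Yr_hasDerivAt hp h h').continuousAt
    · have hbot : pkY p s₀ = ⊥ := (pkY_eq_bot hp).2 h'.ge
      unfold ContinuousAt
      rw [hbot, EReal.tendsto_nhds_bot_iff_real]
      intro x
      have hu : Tendsto (fun s : ℝ => Real.pi / 2 - (s - 2) * Real.sqrt (p / 8)) (𝓝[<] s₀)
          (𝓝[>] (-(Real.pi / 2))) := by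
        rw [tendsto_nhdsWithin_iff]
        constructor
        · have hc : Continuous fun s : ℝ => Real.pi / 2 - (s - 2) * Real.sqrt (p / 8) := by fun_prop
          have := (hc.tendsto s₀).mono_left (nhdsWithin_le_nhds (s := Set.Iio s₀))
          have e : Real.pi / 2 - (s₀ - 2) * Real.sqrt (p / 8) = -(Real.pi / 2) := by
            rw [h', add_sub_cancel_left, pka_T_mul hp]
            ring
          rwa [e] at this
        · filter_upwards [self_mem_nhdsWithin] with s hs
          have hs' : s < s₀ := hs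
          show -(Real.pi / 2) < Real.pi / 2 - (s - 2) * Real.sqrt (p / 8)
          have h3 : (s - 2) * Real.sqrt (p / 8) < pkT p * Real.sqrt (p / 8) :=
            mul_lt_mul_of_pos_right (by linarith) hk
          rw [pka_T_mul hp] at h3
          linarith
      have ht : Tendsto (fun s : ℝ => pkYr p s) (𝓝[<] s₀) atBot := by
        have := (Real.tendsto_tan_neg_pi_div_two.comp hu).const_mul_atBot h2p
        refine this.congr fun s => ?_
        rw [pka_Yr_eq]
        rfl
      have h1 := ht.eventually_lt_atBot x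
      rw [eventually_nhdsWithin_iff] at h1
      filter_upwards [h1, Ioi_mem_nhds h] with s hs hs2
      by_cases hle : s₀ ≤ s
      · rw [(pkY_eq_bot hp).2 (h' ▸ hle)]
        exact EReal.bot_lt_coe x
      · have hlt : s < s₀ := lt_of_not_ge hle
        rw [pka_Y_eq hs2 (h' ▸ hlt)]
        exact EReal.coe_lt_coe_iff.2 (hs hlt)
    · have : pkY p =ᶠ[𝓝 s₀] fun _ => (⊥ : EReal) := by
        filter_upwards [Ioi_mem_nhds h'] with s hs
        exact (pkY_eq_bot hp).2 (le_of_lt hs)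
      exact continuousAt_const.congr this.symm

theorem pkY_hasDerivAt {p s : ℝ} (hp : 0 < p) (h1 : 2 < s) (h2 : s < 2 + pkT p) :
    HasDerivAt (fun x => (pkY p x).toReal) (-((pkY p s).toReal ^ 2 / 2 + p) / 2) s := by
  have he : (fun x => (pkY p x).toReal) =ᶠ[𝓝 s] pkYr p := by
    filter_upwards [Ioi_mem_nhds h1, Iio_mem_nhds h2] with x hx hx'
    rw [pka_Y_eq hx hx', EReal.toReal_coe]
  rw [pka_Y_eq h1 h2, EReal.toReal_coe]
  exact (pka_Yr_hasDerivAt hp h1 h2).congr_of_eventuallyEq he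

/-- local Lipschitz constant of the crossing. -/
theorem pkY_slope {p s₀ : ℝ} (hp : 0 < p) (h1 : 2 < s₀) (h2 : s₀ < 2 + pkT p) {ε : ℝ}
    (hε : 0 < ε) : ∃ δ > 0, ∀ s s', |s - s₀| < δ → |s' - s₀| < δ →
      |(pkY p s).toReal - (pkY p s').toReal| ≤
        (((pkY p s₀).toReal ^ 2 / 2 + p) / 2 + ε) * |s - s'| := by
  set Y : ℝ → ℝ := fun x => (pkY p x).toReal with hY
  have hcY : ContinuousAt Y s₀ := (pkY_hasDerivAt hp h1 h2).continuousAt
  have hcD : ContinuousAt (fun x => -((Y x) ^ 2 / 2 + p) / 2) s₀ := by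
    have := (((hcY.pow 2).div_const 2).add (continuousAt_const (y := p))).neg.div_const 2
    exact this
  have hev : ∀ᶠ x in 𝓝 s₀, 2 < x ∧ x < 2 + pkT p ∧
      |(-((Y x) ^ 2 / 2 + p) / 2) - (-((Y s₀) ^ 2 / 2 + p) / 2)| < ε := by
    have h3 := Metric.continuousAt_iff'.1 hcD ε hε
    filter_upwards [Ioi_mem_nhds h1, Iio_mem_nhds h2, h3] with x hx hx' hx''
    exact ⟨hx, hx', by rwa [Real.dist_eq] at hx''⟩
  obtain ⟨δ, hδ, hball⟩ := Metric.eventually_nhds_iff.1 hev
  refine ⟨δ, hδ, fun s s' hs hs' => ?_⟩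
  have hms : s ∈ Metric.ball s₀ δ := by rwa [Metric.mem_ball, Real.dist_eq]
  have hms' : s' ∈ Metric.ball s₀ δ := by rwa [Metric.mem_ball, Real.dist_eq]
  have hmv := Convex.norm_image_sub_le_of_norm_hasDerivWithin_le (f := Y)
    (f' := fun x => -((Y x) ^ 2 / 2 + p) / 2) (C := ((Y s₀) ^ 2 / 2 + p) / 2 + ε)
    (s := Metric.ball s₀ δ) (x := s') (y := s)
    (fun x hx => by
      obtain ⟨a1, a2, -⟩ := hball hx
      exact (pkY_hasDerivAt hp a1 a2).hasDerivWithinAt)
    (fun x hx => by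
      obtain ⟨-, -, a3⟩ := hball hx
      rw [Real.norm_eq_abs]
      have h0 : |(-((Y s₀) ^ 2 / 2 + p) / 2)| = ((Y s₀) ^ 2 / 2 + p) / 2 := by
        rw [neg_div, abs_neg, abs_of_nonneg (by positivity)]
      have h4 := abs_sub_abs_le_abs_sub (-((Y x) ^ 2 / 2 + p) / 2) (-((Y s₀) ^ 2 / 2 + p) / 2)
      rw [h0] at h4
      linarith)
    (convex_ball s₀ δ) hms' hms
  rwa [Real.norm_eq_abs, Real.norm_eq_abs] at hmv

/-! ### the triangle wave -/

/-- distance to the lattice `2 P ℤ`. -/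
noncomputable def pkTri (P s : ℝ) : ℝ := Metric.infDist s (Set.range fun k : ℤ => 2 * P * k)

theorem pkTri_lip (P s s' : ℝ) : |pkTri P s - pkTri P s'| ≤ |s - s'| := by
  have h := (Metric.lipschitz_infDist_pt (Set.range fun k : ℤ => 2 * P * k)).dist_le_mul s s'
  rw [Real.dist_eq, Real.dist_eq] at h
  unfold pkTri
  simpa using h

theorem pkTri_even (P : ℝ) (k : ℤ) : pkTri P (2 * P * k) = 0 := by
  exact Metric.infDist_zero_of_mem ⟨k, rfl⟩

theorem pkTri_odd {P : ℝ} (hP : 0 < P) (k : ℤ) : pkTri P (2 * P * k + P) = P := by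
  apply le_antisymm
  · have h := Metric.infDist_le_dist_of_mem (x := 2 * P * k + P)
      (show (2 * P * k : ℝ) ∈ Set.range fun k : ℤ => 2 * P * (k : ℝ) from ⟨k, rfl⟩)
    rw [Real.dist_eq, add_sub_cancel_left, abs_of_pos hP] at h
    exact h
  · refine (Metric.le_infDist (Set.range_nonempty _)).2 ?_
    rintro _ ⟨m, rfl⟩
    rw [Real.dist_eq]
    have e : 2 * P * (k : ℝ) + P - 2 * P * (m : ℝ) = P * ((2 * (k - m) + 1 : ℤ) : ℝ) := by
      push_cast
      ring
    rw [e, abs_mul, abs_of_pos hP]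
    have h1 : (1 : ℝ) ≤ |((2 * (k - m) + 1 : ℤ) : ℝ)| := by
      rw [← Int.cast_abs]
      have : (1 : ℤ) ≤ |2 * (k - m) + 1| := Int.one_le_abs (by omega)
      exact_mod_cast this
    nlinarith

/-! ### distance to a set -/

variable {V : Type} [NormedAddCommGroup V] [NormedSpace ℝ V]

/-- `inf_{y ∈ A} rdist M h y z`. -/
noncomputable def pkDistTo (M : Set V) (h : Ten V) (A : Set V) (z : V) : ℝ :=
  sInf {r | ∃ y ∈ A, r = rdist M h y z}

variable {M : Set V} {h : Ten V} {A : Set V}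

theorem pka_distTo_le {x y : V} (hy : y ∈ A) : pkDistTo M h A x ≤ rdist M h y x := by
  refine csInf_le ⟨0, ?_⟩ ⟨y, hy, rfl⟩
  rintro _ ⟨y', -, rfl⟩
  exact if_rdist_nonneg M h y' x

theorem pka_le_distTo (hne : A.Nonempty) {x : V} {r : ℝ} (hr : ∀ y ∈ A, r ≤ rdist M h y x) :
    r ≤ pkDistTo M h A x := by
  obtain ⟨y₀, hy₀⟩ := hne
  refine le_csInf ⟨_, y₀, hy₀, rfl⟩ ?_
  rintro _ ⟨y, hy, rfl⟩
  exact hr y hy

theorem pkDistTo_lip (hR : IsRd M h) (hA : A ⊆ M) (hne : A.Nonempty) {x y : V} (hx : x ∈ M)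
    (hy : y ∈ M) : |pkDistTo M h A x - pkDistTo M h A y| ≤ rdist M h x y := by
  have key : ∀ x ∈ M, ∀ y ∈ M, pkDistTo M h A x - rdist M h x y ≤ pkDistTo M h A y := by
    intro x hx y hy
    refine pka_le_distTo hne fun y' hy' => ?_
    have h1 : pkDistTo M h A x ≤ rdist M h y' x := pka_distTo_le hy'
    have h2 := hR.tri y' (hA hy') y hy x hx
    rw [hR.symm y hy x hx] at h2
    linarith
  rw [abs_le]
  have h1 := key x hx y hy
  have h2 := key y hy x hx
  rw [hR.symm y hy x hx] at h2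
  constructor <;> linarith

theorem pkDistTo_of_mem (hR : IsRd M h) (hA : A ⊆ M) {x : V} (hx : x ∈ A) :
    pkDistTo M h A x = 0 := by
  apply le_antisymm
  · have := pka_distTo_le (M := M) (h := h) (x := x) hx
    rwa [hR.self x (hA hx)] at this
  · exact pka_le_distTo ⟨x, hx⟩ fun y _ => if_rdist_nonneg M h y x

theorem le_pkDistTo (hne : A.Nonempty) {x : V} {r : ℝ} (hr : ∀ y ∈ A, r ≤ rdist M h y x) :
    r ≤ pkDistTo M h A x := by
  exact pka_le_distTo hne hr

/-- a function which is 1-Lipschitz for `rdist` is continuous on `M`. -/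
theorem pk_continuousOn_of_lip (hR : IsRd M h) {d : V → ℝ}
    (hd : ∀ x ∈ M, ∀ y ∈ M, |d x - d y| ≤ rdist M h x y) : ContinuousOn d M := by
  intro x hx
  have hc : Tendsto (rdist M h x) (𝓝[M] x) (𝓝 0) := by
    have := hR.cont x hx x hx
    unfold ContinuousWithinAt at this
    rwa [hR.self x hx] at this
  unfold ContinuousWithinAt
  rw [tendsto_iff_norm_sub_tendsto_zero]
  refine squeeze_zero' (Eventually.of_forall fun y => norm_nonneg _) ?_ hc
  refine eventually_nhdsWithin_of_forall fun y hy => ?_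
  rw [Real.norm_eq_abs, hR.symm x hx y hy]
  exact hd y hy x hx

end Claimed.Agent.R315
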