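import Claimed.Agent.R315.Pack004

/-!
# Row 315, packets: the localisation hypothesis (LOC) of one step   (RULING 10 (3); proposal of helper36; (BAND) added by helper29 for the unit UT)

`pk_step` is only used in two situations (`Pk/Out.lean`, `pk_next_state`):
* `r = 0`: the radial label at stage zero: `ι` is EMPTY (no old tails at all: `Compat` is vacuous, `pkBlend u = u`, (AC) is vacuous);
  the undecided set of the radial label is the union of the compact annuli `{1 ≤ tri (ρ) ≤ T + 3, k P ≤ ρ ≤ (k + 1) P}`;
* `r ≥ 1`: `j0 = some i` is a centre label: `Conf F P.E` holds and `M \ (inn j0 ∪ out j0)` lies in the COMPACT ball `K0 = {y ∈ M | rdist (x i) y ≤ 2 D}`.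
  By `LabelOk.forced_up/forced_un` the undecided set of `j0` (hence the wall, the strip, guard ∩ wall) lies over `K0`.

BOTH CASES AT ONCE: `PkBand F P j0`: the label `j0` is DECIDED (`z ∈ Up j0 ∨ z ∈ Un j0`) at all points of the diagram which do not lie over a locally finite family of pairwise disjoint COMPACT bands `K k ⊆ V`.

`PkLoc B F P j0` is threaded through `pk_step`, `pk_step_pf`, `rg_step_need`, `rg_out_need` (`Pk/Chain.lean`), `rg_out_pf` and the four contracts of `Rg/Top.lean`; it is PROVED where `pk_step` is applied.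
-/

set_option autoImplicit false

namespace Claimed.Agent.R315

variable {V W : Type} [NormedAddCommGroup V] [NormedSpace ℝ V] [NormedAddCommGroup W]
  [NormedSpace ℝ W] {ι I : Type}

/-- **(BAND)**: the label `j0` is decided off a locally finite family of pairwise disjoint compact bands of `V`. -/
def PkBand (F : Frame V W ι) (P : PData W ι I) (j0 : I) : Prop :=
  ∃ K : ℕ → Set V, (∀ k, IsCompact (K k)) ∧ Pairwise (Function.onFun Disjoint K) ∧
    (∀ C : Set V, IsCompact C → {k | (K k ∩ C).Nonempty}.Finite) ∧
    ∀ z ∈ tot P.E, (∀ k, F.q z ∉ K k) → z ∈ P.Up j0 ∨ z ∈ P.Un j0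

/-- one band. -/
theorem pkBand_of_compact {F : Frame V W ι} {P : PData W ι I} {j0 : I} {K0 : Set V}
    (hK0 : IsCompact K0)
    (h : ∀ z ∈ tot P.E, F.q z ∉ K0 → z ∈ P.Up j0 ∨ z ∈ P.Un j0) : PkBand F P j0 := by
  refine ⟨fun k => if k = 0 then K0 else ∅, fun k => ?_, fun k l hkl => ?_, fun C _ => ?_,
    fun z hz hk => h z hz (by simpa using hk 0)⟩
  · by_cases hk : k = 0
    · simp only [hk, if_true]; exact hK0
    · simp only [hk, if_false]; exact isCompact_empty
  · show Disjoint (if k = 0 then K0 else ∅) (if l = 0 then K0 else ∅)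
    by_cases hk : k = 0
    · have hl : l ≠ 0 := fun hl => hkl (hk.trans hl.symm)
      simp [hl]
    · simp [hk]
  · refine (Set.finite_singleton 0).subset fun k hk => ?_
    by_contra hne
    have hne' : k ≠ 0 := hne
    obtain ⟨x, hx, -⟩ := hk
    simp [hne'] at hx

/-- **(LOC)**: either there are no old tails, or the packets are confined and the label `j0` is forced off a compact subset of `V`;
in both cases (BAND) holds. -/
def PkLoc (B : Base V) (F : Frame V W ι) (P : PData W ι B.J) (j0 : B.J) : Prop :=
  (IsEmpty ι ∨ (Conf F P.E ∧ ∃ K0 : Set V, IsCompact K0 ∧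
    ∀ y ∈ B.M, y ∉ K0 → y ∈ B.inn j0 ∨ y ∈ B.out j0)) ∧ PkBand F P j0

end Claimed.Agent.R315
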