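import Claimed.Agent.R315.Sh.Glob
import Claimed.Agent.R315.Pack009
import Claimed.Agent.R315.Rg.Top

/-!
# Row 315, packets: the chain of ONE STEP (P Proposition 6.4): `pk_step_pf`  (GLUE, proved)

`Inv` at the parent  --[`ct_cut`, Ct/CutF.lean, App B]-->  `CutOK` (pressure `p`, phases `A`)
  --[`sh_shield`, Sh/Glob.lean, App C + D]-->  `ShieldOK` (updated labels `P1`, guard, budget)
  --[`rg_step`, App E, owner helper209 (Rg)]-->  `Inv` at the new stage, `Conf`, `Link`, signs of `u` on the forced sets.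

`rg_step_need` is PROVED (helper83, `Rg/Inv.lean`: `rg_step_of_out`) from the CONTRACT `rg_out_need` with package Rg (existence of `RgOut`), stated here so that the chain is closed; the captain replaces
its `sorry` by the export of `Rg/Top.lean` (or changes the statement together with this file).  What Pk provides for it: `pk_split` (`Pk/Link.lean`: `IsDiag`, `IsPMetric`, `Link` of `splitE E u w k` for every `IsCut`),
`pk_split_conf`, `LabelOk.split`, `SC.split`, `CC.split`, `Compat.split` (`Pk/Split.lean`), `pk_complete`, `pk_proper_of_conf` (`Pk/Geo.lean`), `pkBlend*`, `pk_urysohn`, `DThr`/`Thr` (`Pk/Blend.lean`, `Pk/Thr.lean`).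
The measurable structure on `W` is the Borel one (`borel W`), introduced here.
-/

set_option autoImplicit false
open scoped ContDiff Topology
open MeasureTheory Claims.C0499

namespace Claimed.Agent.R315

variable {V W : Type} [NormedAddCommGroup V] [NormedSpace ℝ V] [NormedAddCommGroup W]
  [NormedSpace ℝ W] {ι : Type}

/-- **CONTRACT with Rg (P Appendix E)**: the OUTPUT of the regularisation exists (`RgOut`, `Rg/Inv.lean`): an admissible cut `(u, w, k)` with the right signs on the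
cores of `j0`, a compatible metric `h'` on the split (`extTen P1.h`: `RgOut.of_ext`), `0 ≤ c ≤ 4` and a compatible `v > 0` with `-c Δ v + (Dsc - V*) v ≥ 0` at the points of the new required sets.
To be replaced by the theorem of `Rg/Top.lean` (captain).  (`rg_out_of_split`: it is enough to produce `RgSplit`.)   `e0 = (λ_r - λ_{r+1}) / 100`. -/
theorem rg_out_need [FiniteDimensional ℝ V] [FiniteDimensional ℝ W] [Fintype ι]
    [MeasurableSpace W] [BorelSpace W] (C : ShCtx V W ι) (hC : C.Ok)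
    (hloc : PkLoc C.B C.F C.P C.j0) (hsep : SepConf C.F C.P C.j0) (P1 : PData W ι C.B.J) (hS : ShieldOK C P1) (s' : ℝ)
    (hs : C.s < s') (hs' : s' ≤ 1) (he0 : C.e0 = (pkL C.s - pkL s') / 100) :
    ∃ (u w : W → ℝ) (k : ℝ → ℝ) (h' : Ten (W × ℝ)) (c : ℝ) (v : W × ℝ → ℝ),
      RgOut C P1 s' u w k h' c v :=
  rg_out_pf C hC hloc hsep P1 hS s' hs hs' he0

/-- from the shielded true cut to the next stage (PROVED from `rg_out_need` by `rg_step_of_out`, `Rg/Inv.lean`). -/
theorem rg_step_need [FiniteDimensional ℝ V] [FiniteDimensional ℝ W] [Fintype ι]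
    [MeasurableSpace W] [BorelSpace W] (C : ShCtx V W ι) (hC : C.Ok)
    (hloc : PkLoc C.B C.F C.P C.j0) (hsep : SepConf C.F C.P C.j0) (P1 : PData W ι C.B.J) (hS : ShieldOK C P1) (s' : ℝ)
    (hs : C.s < s') (hs' : s' ≤ 1) (he0 : C.e0 = (pkL C.s - pkL s') / 100) (ε : ℝ) (hε : 0 < ε) :
    ∃ (P' : PData (W × ℝ) (Option ι) C.B.J) (u : W → ℝ) (Φ : W → W × ℝ),
      Inv C.B C.F.ext P' (C.rem \ {C.j0}) s' ((1 + 3 * (s' - C.s) / 400) * C.c) ∧
      Conf C.F.ext P'.E ∧
      Link C.B C.F C.P.E P'.E u Φ ε ∧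
      (∀ z ∈ tot C.P.E, C.F.q z ∈ C.B.inn C.j0 → 0 < u z) ∧
      (∀ z ∈ tot C.P.E, C.F.q z ∈ C.B.out C.j0 → u z < 0) := by
  obtain ⟨u, w, k, h', c, v, hO⟩ := rg_out_need C hC hloc hsep P1 hS s' hs hs' he0
  exact rg_step_of_out C hC hsep P1 hS s' hs ε hε hO

/-- **One step** (statement of `pk_step`, `Pk/Out.lean`). -/
theorem pk_step_pf [FiniteDimensional ℝ V] [FiniteDimensional ℝ W] [Fintype ι] (B : Base V)
    (hB : B.Ok) (F : Frame V W ι)
    (P : PData W ι B.J) (rem : Set B.J) (s c : ℝ) (H : Inv B F P rem s c) (hs0 : 0 ≤ s)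
    (hdim : ∀ α, (P.E α).Nonempty → hits α + 2 ≤ B.n) (j0 : B.J) (hj : j0 ∈ rem)
    (hsep : SepConf F P j0) (hloc : PkLoc B F P j0) (s' : ℝ) (hs : s < s') (hs' : s' ≤ 1) (ε : ℝ)
    (hε : 0 < ε) :
    ∃ (P' : PData (W × ℝ) (Option ι) B.J) (u : W → ℝ) (Φ : W → W × ℝ),
      Inv B F.ext P' (rem \ {j0}) s' ((1 + 3 * (s' - s) / 400) * c) ∧
      Conf F.ext P'.E ∧
      Link B F P.E P'.E u Φ ε ∧
      (∀ z ∈ tot P.E, F.q z ∈ B.inn j0 → 0 < u z) ∧
      (∀ z ∈ tot P.E, F.q z ∈ B.out j0 → u z < 0) := by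
  letI : MeasurableSpace W := borel W
  haveI : BorelSpace W := ⟨rfl⟩
  have hs1 : s ≤ 1 := hs.le.trans hs'
  obtain ⟨p, A, hcut⟩ := ct_cut B hB F P rem s c H hs0 hs1 hdim j0 hj hsep
  let C : ShCtx V W ι := ⟨B, F, P, rem, s, c, j0, (pkL s - pkL s') / 100, p, A⟩
  have hC : C.Ok := ⟨hB, H, hs0, hs1, hdim, hj, hcut, by
    show 0 < (pkL s - pkL s') / 100
    unfold pkL
    linarith⟩
  obtain ⟨P1, hS⟩ := sh_shield C hC
  exact rg_step_need C hC hloc hsep P1 hS s' hs hs' rfl ε hε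

end Claimed.Agent.R315
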