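import Claimed.Agent.R315.Pack005
import Claimed.Agent.R315.Pk.Mfd
import Claimed.Agent.R316.Base.ODE.Flow

/-!
# Row 315, collars (P Lemma A.1, last paragraph), part A: the normalised gradient field and its flow on ONE manifold

PACKAGE PK-COL-A (one owner; ~800 lines; no paper).  `X ⊆ W` closed `d`-manifold, `h` metric, `u : W → ℝ` AMBIENT smooth.
Flows: `Claimed.Agent.R316.ODE` (`fl f Ω t x`, `dom f Ω`; PROVED there: `isOpen_dom`, `contDiffOn_fl_infty`, `hasDerivAt_fl`, `fl_zero`, `fl_add`, `fl_neg`,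
`eq_fl_of_hasDerivWithinAt`, `fl_map`, `mem_dom_of_mem_uIcc`, `fl_mem`, `exists_pos_forall_mem_dom`).

PLANS.
* `IsGradAt.unique`: `v - v'` is tangent (`TanAt.add`, `TanAt.smul`), `h x (v - v') w = 0` for tangent `w`, `TanAt.met_pos`.
* `pk_exists_grad_field`: define `g x` by choice (`if ∃ v, IsGradAt .. x v then choose else 0`).  In a param `ψ`: `v = ∑ i, (∑ j, G⁻¹ i j * pdiff (u ∘ ψ) j a) • fderiv ψ a (eb i)` is a gradient at `ψ a`
  (`pk_exists_grad` in `Pk/Tan.lean` gives the coordinate vector `Y`; `if_cm_bil`; `pk_fderiv_comp_param`; `if_bil_nondeg`/symmetry: `if_bil G Y a' = φ a'` for all `a'`);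
  by uniqueness `g ∘ ψ` is this smooth expression (`if_inv_contDiffOn`, `if_pdiff_contDiffOn` in `If/Smooth.lean`; `a ↦ fderiv ψ a (eb i)` is smooth: `ContDiffOn.fderiv_of_isOpen`).
* `IsGradAt.sq`: `pk_tan_sq_le` and `pk_gradSq_le` (both inequalities), or directly in a param with `pk_exists_grad`.
* `pk_gradSq_pos_of_regular`: in a param `fderiv (u ∘ ψ) a ≠ 0`; `gradSqC = if_bil G Y Y > 0` if `Y ≠ 0`; if `Y = 0` then `φ = if_bil G Y · = 0`.
* `pk_exists_nfield`: `γ = gradSq d X h u` is continuous on `X` (`if_gradSq_smoothAlong`), `X' = {x ∈ X | 0 < γ x} = X ∩ O'`, `O'` open; `x ↦ (γ x)⁻¹ • g x` is `SmoothAlong d X'`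
  (`if_smoothAlong_inter`; `Gs/Calc.lean` `gs_sm_*` or directly in params); `if_exists_extension` on `X'` gives `f`, `Ω₀ ⊇ X'`; `Ω = Ω₀ ∩ (O' ∪ Xᶜ)`.
* `pk_flow_mem` (a field which is tangent to `X` along `X ∩ Ω` preserves `X`): `S = {r ∈ uIcc 0 t | fl r x ∈ X}` is closed in `uIcc 0 t` (continuity of `r ↦ fl r x`, `X` closed), contains `0`, and is open in `uIcc 0 t`:
  at `p = fl r x = ψ a₀` put `U' = U ∩ ψ ⁻¹' Ω`, `g₀ a = ` the coordinate vector of `f (ψ a)`, i.e. `g₀ = (fderiv ρ (ψ a)) (f (ψ a))` with the retraction `ρ` of `if_exists_retr` (smooth); `fderiv ψ a (g₀ a) = f (ψ a)` because `f (ψ a)` is tangent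
  (`TanAt.exists_param`, `ρ ∘ ψ = id`); `ODE.fl_map` with `θ = ψ`: `fl f Ω τ (ψ a₀) = ψ (fl g₀ U' τ a₀) ∈ X` for small `|τ|` (`isOpen_dom`), `fl_add`.  Connectedness of `uIcc 0 t` (`IsPreconnected.subset_of_closure_inter_subset` or `isPreconnected_uIcc` + clopen argument).
* `IsNField.u_fl`: `r ↦ u (fl r x)` has derivative `fderiv u (fl r x) (f (fl r x)) = 1` on `uIcc 0 t`; (`hasDerivAt_fl`, `constant_of_has_deriv_right_zero`/`is_const_of_deriv_eq_zero` for `u (fl r x) - r` on the interval).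
-/

set_option autoImplicit false
set_option linter.unusedSectionVars false
open scoped ContDiff Topology
open MeasureTheory Claims.C0499
open Claimed.Agent.R316

namespace Claimed.Agent.R315

variable {W : Type} [NormedAddCommGroup W] [NormedSpace ℝ W]

/-- `v` is the `h`-gradient of `u` along `X` at `x`. -/
def IsGradAt (d : ℕ) (X : Set W) (h : Ten W) (u : W → ℝ) (x v : W) : Prop :=
  TanAt d X x v ∧ ∀ w, TanAt d X x w → h x v w = fderiv ℝ u x w

/-- `f` is an ambient extension, on the open set `Ω`, of `∇u/|∇u|²`; `X ∩ Ω = {x ∈ X | du ≠ 0}`. -/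
structure IsNField (d : ℕ) (X : Set W) (h : Ten W) (u : W → ℝ) (f : W → W) (Ω : Set W) : Prop where
  isOpen : IsOpen Ω
  smooth : ContDiffOn ℝ ∞ f Ω
  inter : ∀ x ∈ X, x ∈ Ω ↔ 0 < gradSq d X h u x
  grad : ∀ x ∈ X, x ∈ Ω → IsGradAt d X h u x (gradSq d X h u x • f x)

variable [FiniteDimensional ℝ W] {d : ℕ} {X : Set W} {h : Ten W} {u : W → ℝ}

theorem IsGradAt.unique (hh : IsMetricOn d X h) {x v v' : W} (hv : IsGradAt d X h u x v)
    (hv' : IsGradAt d X h u x v') : v = v' := by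
  by_contra hne
  have ht : TanAt d X x (v - v') := by
    have := hv.1.add (hv'.1.smul (-1))
    simpa [sub_eq_add_neg] using this
  have hpos := ht.met_pos hh (sub_ne_zero.2 hne)
  have h0 : h x (v - v') (v - v') = 0 := by
    have e : h x (v - v') (v - v') = h x v (v - v') - h x v' (v - v') := by
      rw [map_sub (h x) v v']; rfl
    rw [e, hv.2 _ ht, hv'.2 _ ht, sub_self]
  linarith

/-- the coordinate vector of the gradient in a parametrisation. -/
noncomputable def pkColY (h : Ten W) (u : W → ℝ) (ψ : E d → W) (a : E d) : E d :=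
  ∑ i, (∑ j, (cm h ψ a)⁻¹ i j * pdiff (u ∘ ψ) j a) • (eb i : E d)

theorem pkColY_apply (ψ : E d → W) (a : E d) (i : Fin d) :
    pkColY h u ψ a i = ∑ j, (cm h ψ a)⁻¹ i j * pdiff (u ∘ ψ) j a := by
  have := congrArg (fun v : E d => v i)
    (if_sum_eb (WithLp.toLp 2 fun i => ∑ j, (cm h ψ a)⁻¹ i j * pdiff (u ∘ ψ) j a : E d))
  simpa [pkColY] using this

theorem pkColY_bil (hh : IsMetricOn d X h) {ψ : E d → W} {U : Set (E d)} (hp : IsParam X ψ U)
    {a : E d} (ha : a ∈ U) (b : E d) :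
    if_bil (cm h ψ a) (pkColY h u ψ a) b = fderiv ℝ (u ∘ ψ) a b := by
  have hG := (hh ψ U hp).2 a ha
  have hun : IsUnit (cm h ψ a).det := isUnit_iff_ne_zero.2 hG.det_pos.ne'
  rw [if_bil_symm (if_isSymm_of_posSemidef hG.posSemidef), if_bil_eq_dot]
  have hY : ((pkColY h u ψ a : E d) : Fin d → ℝ) =
      (cm h ψ a)⁻¹.mulVec (fun j => pdiff (u ∘ ψ) j a) := by
    funext i
    rw [pkColY_apply]
    rfl
  rw [hY, Matrix.mulVec_mulVec, Matrix.mul_nonsing_inv _ hun, Matrix.one_mulVec,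
    if_clm_expand (fderiv ℝ (u ∘ ψ) a) b]
  rfl

theorem pk_col_grad_param (hh : IsMetricOn d X h) {ψ : E d → W} {U : Set (E d)}
    (hp : IsParam X ψ U) {a : E d} (ha : a ∈ U) (hu : DifferentiableAt ℝ u (ψ a)) :
    IsGradAt d X h u (ψ a) (fderiv ℝ ψ a (pkColY h u ψ a)) := by
  refine ⟨tanAt_param hp ha _, fun w hw => ?_⟩
  obtain ⟨b, rfl⟩ := hw.exists_param hp ha rfl
  rw [← if_cm_bil, pkColY_bil hh hp ha, pk_fderiv_comp_param hp ha hu]

theorem pk_col_exists_grad (hX : IsMfd d X) (hh : IsMetricOn d X h) (hu : ContDiff ℝ ∞ u) {x : W}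
    (hx : x ∈ X) : ∃ v, IsGradAt d X h u x v := by
  obtain ⟨ψ, U, hp, a, ha, rfl⟩ := hX x hx
  exact ⟨_, pk_col_grad_param hh hp ha (hu.differentiable (by simp) _)⟩

theorem pkColY_contDiffOn (hh : IsMetricOn d X h) (hu : ContDiff ℝ ∞ u) {ψ : E d → W}
    {U : Set (E d)} (hp : IsParam X ψ U) : ContDiffOn ℝ ∞ (pkColY h u ψ) U := by
  unfold pkColY
  refine ContDiffOn.sum fun i _ => ContDiffOn.fun_smul (ContDiffOn.sum fun j _ => ?_)
    contDiffOn_const
  exact (if_inv_contDiffOn (if_metC hh hp).smooth (if_metC hh hp).det_ne i j).mul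
    (if_pdiff_contDiffOn (if_open hp) (hu.comp_contDiffOn (if_smooth hp)) j)

theorem pk_exists_grad_field (hX : IsMfd d X) (hh : IsMetricOn d X h) (hu : ContDiff ℝ ∞ u) :
    ∃ g : W → W, SmoothAlong d X g ∧ ∀ x ∈ X, IsGradAt d X h u x (g x) := by
  classical
  have hex : ∀ x : W, ∃ v : W, x ∈ X → IsGradAt d X h u x v := by
    intro x
    by_cases hx : x ∈ X
    · obtain ⟨v, hv⟩ := pk_col_exists_grad hX hh hu hx
      exact ⟨v, fun _ => hv⟩
    · exact ⟨0, fun h => absurd h hx⟩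
  choose g hg using hex
  refine ⟨g, fun ψ U hp => ?_, hg⟩
  have h1 : ContDiffOn ℝ ∞ (fun a => fderiv ℝ ψ a (pkColY h u ψ a)) U :=
    ((if_smooth hp).fderiv_of_isOpen (if_open hp) (by simp)).clm_apply
      (pkColY_contDiffOn hh hu hp)
  refine h1.congr fun a ha => ?_
  exact (hg (ψ a) (if_mem hp ha)).unique hh
    (pk_col_grad_param hh hp ha (hu.differentiable (by simp) _))

theorem IsGradAt.sq (hX : IsMfd d X) (hh : IsMetricOn d X h) (hu : ContDiff ℝ ∞ u) {x v : W}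
    (hv : IsGradAt d X h u x v) :
    h x v v = gradSq d X h u x ∧ fderiv ℝ u x v = gradSq d X h u x := by
  have h1 : fderiv ℝ u x v = gradSq d X h u x := by
    obtain ⟨ψ, U, hp, a, ha, rfl⟩ := hX x hv.1.mem
    have hud : DifferentiableAt ℝ u (ψ a) := hu.differentiable (by simp) _
    rw [hv.unique hh (pk_col_grad_param hh hp ha hud), ← pk_fderiv_comp_param hp ha hud,
      if_gradSq_eq hh (if_smoothAlong_of_contDiff hu) hp ha, if_clm_expand]
    unfold gradSqC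
    refine Finset.sum_congr rfl fun i _ => ?_
    rw [pkColY_apply, Finset.sum_mul]
    refine Finset.sum_congr rfl fun j _ => ?_
    unfold pdiff
    ring
  exact ⟨(hv.2 v hv.1).trans h1, h1⟩

theorem pk_gradSq_pos_of_regular (hX : IsMfd d X) (hh : IsMetricOn d X h) (hu : ContDiff ℝ ∞ u)
    (hreg : RegularOn d X u) {x : W} (hx : x ∈ X) (h0 : u x = 0) : 0 < gradSq d X h u x := by
  obtain ⟨v, hv⟩ := pk_col_exists_grad hX hh hu hx
  rw [← (hv.sq hX hh hu).1]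
  refine hv.1.met_pos hh ?_
  rintro rfl
  obtain ⟨ψ, U, hp, a, ha, rfl⟩ := hX x hx
  refine hreg ψ U hp a ha h0 ?_
  ext b
  rw [pk_fderiv_comp_param hp ha (hu.differentiable (by simp) _), ← hv.2 _ (tanAt_param hp ha b)]
  simp

theorem pk_exists_nfield (hX : IsMfd d X) (hXc : IsClosed X) (hh : IsMetricOn d X h)
    (hu : ContDiff ℝ ∞ u) : ∃ (f : W → W) (Ω : Set W), IsNField d X h u f Ω := by
  obtain ⟨g, hgs, hg⟩ := pk_exists_grad_field hX hh hu
  obtain ⟨g', hg's, hg'⟩ := if_exists_extension_closed hX hXc hgs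
  obtain ⟨γ', hγ's, hγ'⟩ := if_exists_extension_closed hX hXc
    (if_gradSq_smoothAlong hh (if_smoothAlong_of_contDiff (d := d) (M := X) hu))
  refine ⟨fun x => (γ' x)⁻¹ • g' x, {x | 0 < γ' x}, ?_, ?_, ?_, ?_⟩
  · exact isOpen_lt continuous_const hγ's.continuous
  · exact (hγ's.contDiffOn.inv fun x (hx : 0 < γ' x) => hx.ne').smul hg's.contDiffOn
  · intro x hx
    show 0 < γ' x ↔ _
    rw [hγ' hx]
  · intro x hx (hxΩ : 0 < γ' x)
    rw [hγ' hx] at hxΩ
    show IsGradAt d X h u x (gradSq d X h u x • ((γ' x)⁻¹ • g' x))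
    rw [hγ' hx, hg' hx, smul_smul, mul_inv_cancel₀ hxΩ.ne', one_smul]
    exact hg x hx

theorem IsNField.tan {f : W → W} {Ω : Set W} (H : IsNField d X h u f Ω) {x : W} (hx : x ∈ X)
    (hΩ : x ∈ Ω) : TanAt d X x (f x) := by
  have hpos := (H.inter x hx).1 hΩ
  have := (H.grad x hx hΩ).1.smul (gradSq d X h u x)⁻¹
  rwa [smul_smul, inv_mul_cancel₀ hpos.ne', one_smul] at this

theorem IsNField.du (hX : IsMfd d X) (hh : IsMetricOn d X h) (hu : ContDiff ℝ ∞ u) {f : W → W}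
    {Ω : Set W} (H : IsNField d X h u f Ω) {x : W} (hx : x ∈ X) (hΩ : x ∈ Ω) :
    fderiv ℝ u x (f x) = 1 := by
  have hpos := (H.inter x hx).1 hΩ
  have := ((H.grad x hx hΩ).sq hX hh hu).2
  rw [map_smul, smul_eq_mul] at this
  exact mul_left_cancel₀ hpos.ne' (by rw [this, mul_one])

/-- local version of `pk_flow_mem`. -/
theorem pk_col_flow_local (hX : IsMfd d X) {f : W → W} {Ω : Set W} (hΩ : IsOpen Ω)
    (hf : ContDiffOn ℝ ∞ f Ω) (htan : ∀ x ∈ X, x ∈ Ω → TanAt d X x (f x)) {p : W}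
    (hp : p ∈ X) (hpΩ : p ∈ Ω) :
    ∃ ε > 0, ∀ τ : ℝ, |τ| ≤ ε → (τ, p) ∈ ODE.dom f Ω ∧ ODE.fl f Ω τ p ∈ X := by
  obtain ⟨ψ, U, hpar, a₀, ha₀, rfl⟩ := hX p hp
  obtain ⟨ρ, O, hO, hmO, hρ, -, hinv⟩ := if_exists_retr hpar ha₀
  set U' : Set (E d) := U ∩ ψ ⁻¹' (Ω ∩ O) with hU'
  have hU'o : IsOpen U' :=
    (if_continuousOn hpar).isOpen_inter_preimage (if_open hpar) (hΩ.inter hO)
  have ha₀' : a₀ ∈ U' := ⟨ha₀, hpΩ, hmO⟩
  set g₀ : E d → E d := fun a => fderiv ℝ ρ (ψ a) (f (ψ a)) with hg₀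
  have hψs : ContDiffOn ℝ ∞ ψ U' := (if_smooth hpar).mono Set.inter_subset_left
  have hg₀s : ContDiffOn ℝ ∞ g₀ U' := by
    refine ContDiffOn.clm_apply ?_ ?_
    · exact (hρ.fderiv_of_isOpen hO (by simp)).comp hψs fun a ha => ha.2.2
    · exact hf.comp hψs fun a ha => ha.2.1
  have hrel : ∀ a ∈ U', fderiv ℝ ψ a (g₀ a) = f (ψ a) := by
    intro a ha
    obtain ⟨b, hb⟩ := (htan (ψ a) (if_mem hpar ha.1) ha.2.1).exists_param hpar ha.1 rfl
    have hid : ρ ∘ ψ =ᶠ[𝓝 a] id := by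
      filter_upwards [hU'o.mem_nhds ha] with a' ha'
      have := (hinv (ψ a') ⟨if_mem hpar ha'.1, ha'.2.2⟩).2
      simp only [Function.comp_apply, id_eq]
      rw [this, if_leftInv hpar ha'.1]
    have hρd : DifferentiableAt ℝ ρ (ψ a) :=
      (hρ.contDiffAt (hO.mem_nhds ha.2.2)).differentiableAt (by simp)
    have hc := fderiv_comp a hρd (if_differentiableAt hpar ha.1)
    rw [hid.fderiv_eq, fderiv_id] at hc
    have hb' : g₀ a = b := by
      show fderiv ℝ ρ (ψ a) (f (ψ a)) = b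
      rw [← hb]
      have := congrArg (fun L : E d →L[ℝ] E d => L b) hc
      simpa using this.symm
    rw [hb', hb]
  obtain ⟨ε, hε, hdom⟩ := ODE.exists_pos_forall_mem_dom hU'o (hg₀s.of_le (by simp))
    (isCompact_singleton (x := a₀)) (Set.singleton_subset_iff.2 ha₀')
  refine ⟨ε, hε, fun τ hτ => ?_⟩
  have hd := hdom a₀ rfl τ hτ
  have := ODE.fl_map (f := g₀) (Ω := U') hΩ (hf.of_le (by simp)) (θ := ψ) (θ' := fderiv ℝ ψ)
    (fun y hy => (if_differentiableAt hpar hy.1).hasFDerivAt) (fun y hy => hy.2.1) hrel hd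
  refine ⟨this.1, ?_⟩
  rw [this.2]
  exact if_mem hpar (ODE.fl_mem hd).1

/-- a field which is tangent to the closed manifold `X` along `X ∩ Ω` preserves `X`. -/
theorem pk_flow_mem (hX : IsMfd d X) (hXc : IsClosed X) {f : W → W} {Ω : Set W} (hΩ : IsOpen Ω)
    (hf : ContDiffOn ℝ ∞ f Ω) (htan : ∀ x ∈ X, x ∈ Ω → TanAt d X x (f x)) {t : ℝ} {x : W}
    (hx : x ∈ X) (ht : (t, x) ∈ ODE.dom f Ω) : ODE.fl f Ω t x ∈ X := by
  have hf1 : ContDiffOn ℝ 1 f Ω := hf.of_le (by simp)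
  set D : Set ℝ := {r | (r, x) ∈ ODE.dom f Ω} with hD
  have hDo : IsOpen D :=
    (ODE.isOpen_dom hΩ hf1).preimage (Continuous.prodMk_left x)
  have hcont : ContinuousOn (fun r => ODE.fl f Ω r x) D := fun r hr =>
    (ODE.hasDerivAt_fl hΩ hf1 hr).continuousAt.continuousWithinAt
  set A : Set ℝ := {r | r ∈ D ∧ ODE.fl f Ω r x ∈ X} with hA
  set B : Set ℝ := D ∩ (fun r => ODE.fl f Ω r x) ⁻¹' Xᶜ with hB
  have hBo : IsOpen B := hcont.isOpen_inter_preimage hDo hXc.isOpen_compl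
  have hAo : IsOpen A := by
    rw [Metric.isOpen_iff]
    rintro r ⟨hrD, hrX⟩
    obtain ⟨ε, hε, hloc⟩ := pk_col_flow_local hX hΩ hf htan hrX (ODE.fl_mem hrD)
    refine ⟨ε, hε, fun s hs => ?_⟩
    have hs' : |s - r| ≤ ε := by
      rw [Metric.mem_ball, Real.dist_eq] at hs
      exact hs.le
    obtain ⟨h1, h2⟩ := hloc (s - r) hs'
    have h3 := ODE.fl_add hΩ hf1 hrD h1
    rw [sub_add_cancel] at h3
    exact ⟨h3.1, by rw [h3.2]; exact h2⟩
  have hsub : Set.uIcc 0 t ⊆ A := by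
    refine IsPreconnected.subset_left_of_subset_union hAo hBo ?_ ?_ ?_ isPreconnected_uIcc
    · rw [Set.disjoint_left]
      rintro r ⟨-, h1⟩ ⟨-, h2⟩
      exact h2 h1
    · intro r hr
      have hrD : r ∈ D := ODE.mem_dom_of_mem_uIcc ht hr
      by_cases hrX : ODE.fl f Ω r x ∈ X
      · exact Or.inl ⟨hrD, hrX⟩
      · exact Or.inr ⟨hrD, hrX⟩
    · refine ⟨0, Set.left_mem_uIcc, ODE.mem_dom_of_mem_uIcc ht Set.left_mem_uIcc, ?_⟩
      rw [ODE.fl_zero]
      exact hx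
  exact (hsub Set.right_mem_uIcc).2

theorem IsNField.u_fl (hX : IsMfd d X) (hXc : IsClosed X) (hh : IsMetricOn d X h)
    (hu : ContDiff ℝ ∞ u) {f : W → W} {Ω : Set W} (H : IsNField d X h u f Ω) {t : ℝ} {x : W}
    (hx : x ∈ X) (ht : (t, x) ∈ ODE.dom f Ω) : u (ODE.fl f Ω t x) = u x + t := by
  have hf1 : ContDiffOn ℝ 1 f Ω := H.smooth.of_le (by simp)
  set D : Set ℝ := {r | (r, x) ∈ ODE.dom f Ω} with hD
  have hDo : IsOpen D :=
    (ODE.isOpen_dom H.isOpen hf1).preimage (Continuous.prodMk_left x)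
  have h0D : (0 : ℝ) ∈ D := ODE.mem_dom_of_mem_uIcc ht Set.left_mem_uIcc
  have hDc : IsPreconnected D := by
    have : D.OrdConnected := by
      refine ⟨fun a ha b hb r hr => ?_⟩
      rcases le_total 0 r with h0 | h0
      · exact ODE.mem_dom_of_mem_uIcc hb (Set.mem_uIcc.2 (Or.inl ⟨h0, hr.2⟩))
      · exact ODE.mem_dom_of_mem_uIcc ha (Set.mem_uIcc.2 (Or.inr ⟨hr.1, h0⟩))
    exact this.isPreconnected
  have hder : ∀ r ∈ D, HasDerivAt (fun r => u (ODE.fl f Ω r x) - r) 0 r := by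
    intro r hr
    have hrX : ODE.fl f Ω r x ∈ X :=
      pk_flow_mem hX hXc H.isOpen H.smooth (fun y hy hyΩ => H.tan hy hyΩ) hx hr
    have h1 := ODE.hasDerivAt_fl H.isOpen hf1 hr
    have h2 : HasFDerivAt u (fderiv ℝ u (ODE.fl f Ω r x)) (ODE.fl f Ω r x) :=
      (hu.differentiable (by simp) _).hasFDerivAt
    have h3 := h2.comp_hasDerivAt r h1
    rw [H.du hX hh hu hrX (ODE.fl_mem hr)] at h3
    have h4 := h3.sub (hasDerivAt_id r)
    rw [sub_self] at h4
    exact h4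
  have hconst := IsOpen.is_const_of_deriv_eq_zero hDo hDc
    (fun r hr => (hder r hr).differentiableAt.differentiableWithinAt)
    (fun r hr => (hder r hr).deriv) (show t ∈ D from ht) h0D
  simp only [ODE.fl_zero, sub_zero] at hconst
  linarith

end Claimed.Agent.R315
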