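import Claimed.Agent.R315.Pk.ColA
import Claimed.Agent.R315.Pk.Split

/-!
# Row 315, collars, part B: the normalised gradient fields of a diagram are compatible

PROVED (helper29), sorry-free modulo `Pk/ColA.lean`.  PK-COL-B.  Input: `Pk/ColA.lean` (`IsGradAt`, `IsNField`), `Pk/Tan.lean` (`TanAt`, `tanAt_of_map`,
`IsPMetric.tail_form`, `DThr.tanAt_e`, `DThr.tanAt_drop`), `Pk/Thr.lean` (`DThr`, `Thr`, `DThr.drop_mem`).

`ColData`: for every status `α` an AMBIENT smooth extension `ua α` of `u|E α` and a normalised gradient field `(fa α, Oa α)` of `(E α, h, ua α)`.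
`ColThr`: ONE threshold function `T` for the diagram, the metric and `u`.

PLANS (`β = α.face i`, `z ∈ E α`, `T (q z) < |t i z|`, so `drop i z ∈ E β`, `DThr.drop_mem`).
* `TanAt.t_eq_zero`: `t i ∘ ψ = 0` on the open set `U` of a param of `E α` (`IsDiag.t_hit`), so `t i (fderiv ψ a b) = fderiv (t i ∘ ψ) a b = 0`.
* `DThr.tanAt_lift`: `v = fderiv ψ a b`, `ψ` param of `E β` at `drop i z = ψ a`.  `Φ a' = ψ a' + t i z • e i` maps a neighbourhood of `a` into `E α`
  (`hT i α _ (Φ a')`: `drop i (Φ a') = ψ a' ∈ E β` as `t i (ψ a') = 0`; `T (q (ψ a')) < α i * t i z = |t i z|` is an open condition, `IsDiag.sign_mul`), `fderiv Φ a b = v`, `Φ a = z`; `tanAt_of_map`.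
* `TanAt.fderiv_congr`: in a param `f ∘ ψ = f' ∘ ψ` near `a` (continuity of `ψ`, `ψ a' ∈ X`), `Filter.EventuallyEq.fderiv_eq`, `pk_fderiv_comp_param`.
* `ColData.grad_lift`: tangent by `DThr.tanAt_lift`.  For `w` tangent at `z`: `h z v w = h (drop z) (drop v) (drop w) + t i v * t i w` (`tail_form`), `t i v = 0` (`TanAt.t_eq_zero`), so `drop i v = v`;
  `drop i w` is tangent at `drop i z` (`DThr.tanAt_drop`), so `h (drop z) v (drop w) = fderiv (ua β) (drop z) (drop w) = fderiv (ua β ∘ drop i) z w` (chain rule, `drop i` is affine-linear: `fderiv (F.drop i) z w = F.drop i w`)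
  `= fderiv (ua α) z w` by `TanAt.fderiv_congr`: on `E α` near `z`: `ua α y = u y = u (drop i y) = ua β (drop i y)` (`hT.u`, `DThr.drop_mem`; the condition `T (q y) < |t i y|` is open).
* `ColData.gradSq_drop`: let `v` be the gradient at `drop i z` (`pk_exists_grad_field`); `IsGradAt.sq` at both points and `tail_form`.
* `ColData.mem_drop`: `IsNField.inter` twice + `gradSq_drop`.
* `ColData.fa_drop`: `γ • fa β (drop z)` is a gradient at `drop z`, lift it, `IsGradAt.unique` with `γ • fa α z`, cancel `γ > 0`.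
* `ColData.wall_mem`: `pk_gradSq_pos_of_regular` + `RegularOn.congr`.
-/

set_option autoImplicit false
set_option linter.unusedSectionVars false
open scoped ContDiff Topology
open MeasureTheory Claims.C0499
open Claimed.Agent.R316

namespace Claimed.Agent.R315

variable {V W : Type} [NormedAddCommGroup V] [NormedSpace ℝ V] [NormedAddCommGroup W]
  [NormedSpace ℝ W] {ι : Type}

/-- ambient extensions of `u` and normalised gradient fields on all status spaces. -/
structure ColData [Fintype ι] (n : ℕ) (E : Stat ι → Set W) (h : Ten W) (u : W → ℝ)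
    (ua : Stat ι → W → ℝ) (fa : Stat ι → W → W) (Oa : Stat ι → Set W) : Prop where
  ua_smooth : ∀ α, ContDiff ℝ ∞ (ua α)
  ua_eq : ∀ α, Set.EqOn (ua α) u (E α)
  nf : ∀ α, IsNField (n - hits α) (E α) h (ua α) (fa α) (Oa α)

/-- one threshold function for the diagram, the metric and the cut function. -/
structure ColThr (F : Frame V W ι) (E : Stat ι → Set W) (h : Ten W) (u : W → ℝ) (T : V → ℝ) :
    Prop where
  nonneg : ∀ x, 0 ≤ T x
  smooth : ContDiff ℝ ∞ T
  diag : DThr F E T
  met : Thr F E h T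
  u : Thr F E u T

variable [Fintype ι] [FiniteDimensional ℝ W] {n : ℕ} {M : Set V} {F : Frame V W ι}
  {E : Stat ι → Set W} {h : Ten W} {u : W → ℝ}

theorem pk_exists_colData (hD : IsDiag n M F E) (hh : IsPMetric n F E h)
    (hu : ∀ α, SmoothAlong (n - hits α) (E α) u) :
    ∃ (ua : Stat ι → W → ℝ) (fa : Stat ι → W → W) (Oa : Stat ι → Set W),
      ColData n E h u ua fa Oa := by
  choose ua hua1 hua2 using fun α => if_exists_extension_closed (hD.mfd α) (hD.closed α) (hu α)
  choose fa Oa hf using fun α => pk_exists_nfield (hD.mfd α) (hD.closed α) (hh.met α) (hua1 α)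
  exact ⟨ua, fa, Oa, hua1, hua2, hf⟩

theorem pk_exists_colThr [FiniteDimensional ℝ V] (hD : IsDiag n M F E) (hh : IsPMetric n F E h)
    (hu : Compat F E u) : ∃ T : V → ℝ, ColThr F E h u T := by
  obtain ⟨T1, h1s, h10, h1⟩ := hD.exists_thr
  obtain ⟨T2, h2s, h20, h2⟩ := hh.compat.exists_thr
  obtain ⟨T3, h3s, h30, h3⟩ := hu.exists_thr
  refine ⟨fun x => T1 x + T2 x + T3 x, fun x => by linarith [h10 x, h20 x, h30 x],
    (h1s.add h2s).add h3s, h1.mono fun x => by linarith [h10 x, h20 x, h30 x],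
    h2.mono fun x => by linarith [h10 x, h20 x, h30 x],
    h3.mono fun x => by linarith [h10 x, h20 x, h30 x]⟩

theorem RegularOn.congr {d : ℕ} {X : Set W} {u u' : W → ℝ} (h : RegularOn d X u)
    (he : Set.EqOn u' u X) : RegularOn d X u' := by
  intro ψ U hp a ha h0
  have h1 : u' ∘ ψ =ᶠ[𝓝 a] u ∘ ψ := by
    filter_upwards [(if_open hp).mem_nhds ha] with b hb
    exact he (if_mem hp hb)
  rw [h1.fderiv_eq]
  exact h ψ U hp a ha (by rw [← he (if_mem hp ha)]; exact h0)

theorem TanAt.t_eq_zero (hD : IsDiag n M F E) {α : Stat ι} {z w : W} {i : ι} (hα : α i = 0)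
    (hw : TanAt (n - hits α) (E α) z w) : F.t i w = 0 := by
  obtain ⟨ψ, U, a, b, hp, ha, rfl, rfl⟩ := hw
  have h1 : (fun c => F.t i (ψ c)) =ᶠ[𝓝 a] fun _ => (0 : ℝ) := by
    filter_upwards [(if_open hp).mem_nhds ha] with c hc
    exact hD.t_hit α _ (if_mem hp hc) i hα
  have h2 : fderiv ℝ (fun c => F.t i (ψ c)) a = (F.t i).comp (fderiv ℝ ψ a) :=
    ((F.t i).hasFDerivAt.comp a (if_differentiableAt hp ha).hasFDerivAt).fderiv
  have h3 : fderiv ℝ (fun c => F.t i (ψ c)) a = 0 := by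
    rw [h1.fderiv_eq]
    simp
  have h4 : ((F.t i).comp (fderiv ℝ ψ a)) b = 0 := by rw [← h2, h3]; rfl
  exact h4

theorem DThr.tanAt_lift (hD : IsDiag n M F E) {T : V → ℝ} (hT0 : ∀ x, 0 ≤ T x)
    (hTc : Continuous T) (hT : DThr F E T) {α : Stat ι} {z v : W} {i : ι} (hz : z ∈ E α)
    (hi : T (F.q z) < |F.t i z|)
    (hv : TanAt (n - hits (α.face i)) (E (α.face i)) (F.drop i z) v) :
    TanAt (n - hits α) (E α) z v := by
  classical
  obtain ⟨ψ, U, a, b, hp, ha, hza, rfl⟩ := hv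
  have h0 : F.t i z ≠ 0 := by
    intro h
    rw [h, abs_zero] at hi
    exact absurd hi (not_lt.2 (hT0 _))
  have hα : α i ≠ 0 := hD.ne_zero_of_t_ne hz h0
  have hface : (α.face i) i = 0 := by simp [Stat.face]
  have hψ := if_differentiableAt hp ha
  set Φ : R315.E (n - hits (α.face i)) → W := fun c => ψ c + F.t i z • F.e i with hΦdef
  have hΦd : HasFDerivAt Φ (fderiv ℝ ψ a) a := hψ.hasFDerivAt.add_const _
  have hΦa : Φ a = z := by
    simp only [hΦdef]
    rw [hza]
    exact (F.self_eq_drop_add i z).symm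
  have hc : ContinuousAt (fun c => T (F.q (ψ c))) a :=
    (hTc.comp F.q.continuous).continuousAt.comp hψ.continuousAt
  have hlt : T (F.q (ψ a)) < |F.t i z| := by rw [hza, F.q_drop]; exact hi
  have hmem : ∀ᶠ c in 𝓝 a, Φ c ∈ E α := by
    filter_upwards [hc.eventually (gt_mem_nhds hlt), (if_open hp).mem_nhds ha] with c hc1 hcU
    have ht0 : F.t i (ψ c) = 0 := hD.t_hit _ _ (if_mem hp hcU) i hface
    have hq : F.q (Φ c) = F.q (ψ c) := by simp [hΦdef, F.q_e]
    have ht : F.t i (Φ c) = F.t i z := by simp [hΦdef, ht0, F.t_e]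
    refine (hT i α hα (Φ c) ?_).2 ?_
    · rw [hq, ht, hD.sign_mul hz i]
      exact hc1
    · simp only [hΦdef]
      rw [F.drop_add_smul, F.drop_of_t_eq_zero ht0]
      exact if_mem hp hcU
  have := tanAt_of_map (hD.mfd α) hΦd.differentiableAt hmem b
  rw [hΦd.fderiv, hΦa] at this
  exact this

theorem TanAt.fderiv_congr {d : ℕ} {X : Set W} {z w : W} {f f' : W → ℝ}
    (hf : DifferentiableAt ℝ f z) (hf' : DifferentiableAt ℝ f' z)
    (heq : ∀ᶠ y in 𝓝[X] z, f y = f' y) (hw : TanAt d X z w) :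
    fderiv ℝ f z w = fderiv ℝ f' z w := by
  obtain ⟨ψ, U, a, b, hp, ha, rfl, rfl⟩ := hw
  rw [← pk_fderiv_comp_param hp ha hf, ← pk_fderiv_comp_param hp ha hf']
  have h1 : f ∘ ψ =ᶠ[𝓝 a] f' ∘ ψ := by
    obtain ⟨N, hN, hsub⟩ := mem_nhdsWithin_iff_exists_mem_nhds_inter.1 heq
    filter_upwards [(if_differentiableAt hp ha).continuousAt.eventually hN,
      (if_open hp).mem_nhds ha] with c hc hcU
    exact hsub ⟨hc, if_mem hp hcU⟩
  rw [h1.fderiv_eq]

/-- `F.drop i` as a continuous linear map. -/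
noncomputable def Frame.dropL (F : Frame V W ι) (i : ι) : W →L[ℝ] W :=
  ContinuousLinearMap.id ℝ W - (F.t i).smulRight (F.e i)

theorem Frame.dropL_apply (F : Frame V W ι) (i : ι) (x : W) : F.dropL i x = F.drop i x := by
  simp [Frame.dropL, Frame.drop]

section data

variable {ua : Stat ι → W → ℝ} {fa : Stat ι → W → W} {Oa : Stat ι → Set W} {T : V → ℝ}

theorem ColData.grad_lift (hD : IsDiag n M F E) (hh : IsPMetric n F E h)
    (H : ColData n E h u ua fa Oa) (hT : ColThr F E h u T) {α : Stat ι} {z v : W} {i : ι}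
    (hz : z ∈ E α) (hi : T (F.q z) < |F.t i z|)
    (hv : IsGradAt (n - hits (α.face i)) (E (α.face i)) h (ua (α.face i)) (F.drop i z) v) :
    IsGradAt (n - hits α) (E α) h (ua α) z v := by
  classical
  have hface : (α.face i) i = 0 := by simp [Stat.face]
  have hTc := hT.smooth.continuous
  refine ⟨hT.diag.tanAt_lift hD hT.nonneg hTc hz hi hv.1, fun w hw => ?_⟩
  have htv : F.t i v = 0 := hv.1.t_eq_zero hD hface
  rw [hh.tail_form hD hT.nonneg hT.diag hT.met hz hi v w, htv, zero_mul, add_zero,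
    F.drop_of_t_eq_zero htv, hv.2 _ (hT.diag.tanAt_drop hD hT.nonneg hTc hi hw)]
  -- chain rule
  have hd : DifferentiableAt ℝ (ua (α.face i)) (F.dropL i z) := by
    exact (H.ua_smooth _).differentiable (by simp) _
  have h1 : fderiv ℝ (fun y => ua (α.face i) (F.dropL i y)) z =
      (fderiv ℝ (ua (α.face i)) (F.dropL i z)).comp (F.dropL i) :=
    (hd.hasFDerivAt.comp z (F.dropL i).hasFDerivAt).fderiv
  have h2 : fderiv ℝ (ua (α.face i)) (F.drop i z) (F.drop i w) =
      fderiv ℝ (fun y => ua (α.face i) (F.dropL i y)) z w := by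
    rw [h1, ContinuousLinearMap.comp_apply, F.dropL_apply, F.dropL_apply]
  rw [h2]
  refine TanAt.fderiv_congr (hd.comp z (F.dropL i).differentiableAt)
    ((H.ua_smooth α).differentiable (by simp) z) ?_ hw
  have hc : Continuous fun y => |F.t i y| - T (F.q y) :=
    ((F.t i).continuous.abs).sub (hTc.comp F.q.continuous)
  have hev : ∀ᶠ y in 𝓝[E α] z, 0 < |F.t i y| - T (F.q y) :=
    (hc.continuousAt.eventually (lt_mem_nhds (sub_pos.2 hi))).filter_mono nhdsWithin_le_nhds
  filter_upwards [hev, self_mem_nhdsWithin] with y hy hyE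
  have hy' := sub_pos.1 hy
  rw [F.dropL_apply, H.ua_eq _ (hT.diag.drop_mem hD hT.nonneg hyE hy'), H.ua_eq α hyE]
  exact hT.u i y (mem_tot.2 ⟨α, hyE⟩) hy'

theorem ColData.gradSq_drop (hD : IsDiag n M F E) (hh : IsPMetric n F E h)
    (H : ColData n E h u ua fa Oa) (hT : ColThr F E h u T) {α : Stat ι} {z : W} {i : ι}
    (hz : z ∈ E α) (hi : T (F.q z) < |F.t i z|) :
    gradSq (n - hits α) (E α) h (ua α) z =
      gradSq (n - hits (α.face i)) (E (α.face i)) h (ua (α.face i)) (F.drop i z) := by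
  classical
  have hface : (α.face i) i = 0 := by simp [Stat.face]
  have hy := hT.diag.drop_mem hD hT.nonneg hz hi
  obtain ⟨g, -, hg⟩ := pk_exists_grad_field (hD.mfd (α.face i)) (hh.met (α.face i))
    (H.ua_smooth (α.face i))
  have hv := hg _ hy
  have hv' := H.grad_lift hD hh hT hz hi hv
  have h1 := (hv.sq (hD.mfd _) (hh.met _) (H.ua_smooth _)).1
  have h2 := (hv'.sq (hD.mfd _) (hh.met _) (H.ua_smooth _)).1
  have htv : F.t i (g (F.drop i z)) = 0 := hv.1.t_eq_zero hD hface
  rw [← h1, ← h2, hh.tail_form hD hT.nonneg hT.diag hT.met hz hi, htv, zero_mul, add_zero,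
    F.drop_of_t_eq_zero htv]

theorem ColData.mem_drop (hD : IsDiag n M F E) (hh : IsPMetric n F E h)
    (H : ColData n E h u ua fa Oa) (hT : ColThr F E h u T) {α : Stat ι} {z : W} {i : ι}
    (hz : z ∈ E α) (hi : T (F.q z) < |F.t i z|) : z ∈ Oa α ↔ F.drop i z ∈ Oa (α.face i) := by
  rw [(H.nf α).inter z hz, (H.nf (α.face i)).inter _ (hT.diag.drop_mem hD hT.nonneg hz hi),
    H.gradSq_drop hD hh hT hz hi]

theorem ColData.fa_drop (hD : IsDiag n M F E) (hh : IsPMetric n F E h)
    (H : ColData n E h u ua fa Oa) (hT : ColThr F E h u T) {α : Stat ι} {z : W} {i : ι}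
    (hz : z ∈ E α) (hi : T (F.q z) < |F.t i z|) (hO : z ∈ Oa α) :
    fa α z = fa (α.face i) (F.drop i z) := by
  have hy := hT.diag.drop_mem hD hT.nonneg hz hi
  have hO' := (H.mem_drop hD hh hT hz hi).1 hO
  have h1 := (H.nf α).grad z hz hO
  have h2 := H.grad_lift hD hh hT hz hi ((H.nf (α.face i)).grad _ hy hO')
  have h3 := h1.unique (hh.met α) h2
  rw [← H.gradSq_drop hD hh hT hz hi] at h3
  have hpos : 0 < gradSq (n - hits α) (E α) h (ua α) z := ((H.nf α).inter z hz).1 hO
  exact smul_right_injective W hpos.ne' h3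

theorem ColData.wall_mem (hD : IsDiag n M F E) (hh : IsPMetric n F E h)
    (H : ColData n E h u ua fa Oa) (hreg : ∀ α, RegularOn (n - hits α) (E α) u) {α : Stat ι}
    {z : W} (hz : z ∈ E α) (h0 : u z = 0) : z ∈ Oa α := by
  rw [(H.nf α).inter z hz]
  exact pk_gradSq_pos_of_regular (hD.mfd α) (hh.met α) (H.ua_smooth α)
    ((hreg α).congr (H.ua_eq α)) hz (by rw [H.ua_eq α hz]; exact h0)

end data

end Claimed.Agent.R315
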