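import Claimed.Agent.R315.Pk.ColB
import Claimed.Agent.R315.Pack002

/-!
# Row 315, collars, part C: the flows are compatible; uniform width

PACKAGE PK-COL-C (one owner; ~700 lines; no paper).  Input: `Pk/ColA.lean`, `Pk/ColB.lean`, `R316/Base/ODE/FlowBasic.lean`, `Flow.lean`, `Pk/Geom.lean` (`IsDiag.tail_induction`, `IsDiag.isCompact_trunc`).

PLANS (`β = α.face i`, `fl_α = ODE.fl (fa α) (Oa α)`).
* `ColData.flow_drop`: `c r = fl_β r (drop i y) + t i y • e i`, `r ∈ J = uIcc 0 s`.  `(r, drop i y) ∈ dom_β` (`ODE.mem_dom_of_mem_uIcc`), `p r := fl_β r (drop i y) ∈ E β` (`pk_flow_mem`, `IsNField.tan`; `drop i y ∈ E β` from `hfar 0`, `fl_zero`, `q_drop`, `DThr.drop_mem`),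
  `t i (p r) = 0`, so `drop i (c r) = p r`, `t i (c r) = t i y`, `q (c r) = q (p r)`; `c r ∈ E α` by `hT.diag i α _ (c r)` (`IsDiag.sign_mul` at `y`); `c r ∈ Oa α` (`ColData.mem_drop`, `ODE.fl_mem`);
  `HasDerivAt c (fa β (p r)) r` (`ODE.hasDerivAt_fl`), `fa β (p r) = fa α (c r)` (`ColData.fa_drop`).  `ODE.eq_fl_of_hasDerivWithinAt` with `t₀ = 0`; `c 0 = y` (`Frame.self_eq_drop_add`).
* `pk_col_base`: for one `α`: `C = {z ∈ E α | q z ∈ K ∧ ∀ i, |t i z| ≤ R} ∩ {u = 0}` is compact (`isCompact_trunc`, `u` continuous on `E α`), `C ⊆ Oa α` (`wall_mem`).  `G (s, z) = fl_α s z` is continuous on the open set `dom_α ⊇ {0} × C`.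
  The set `{(s, z) ∈ dom_α | ‖G (s,z) - z‖ < 1}` is open; for the distance use: `(s, z) ↦ rdist M g (q z) (q (G (s, z)))` is continuous on `dom_α ∩ (ℝ × E α)` (`if_rdist_continuousOn₂`, `IsDiag.q_mem`, `pk_flow_mem`), vanishes at `s = 0` (`if_rdist_self`-type lemma in `If/Dist.lean`).
  Compactness: by contradiction with sequences `(s_k, z_k)`, `s_k → 0`, `z_k → z ∈ C`, or `generalized_tube_lemma` in the subspace; take the minimum of the `δ_α` over the finite type `Stat ι`.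
* `pk_col_step`: `flow_drop` with `hfar` from `‖p r - drop i y‖ ≤ 1` (`ColGood` at `drop i y`, `|r| ≤ |s| ≤ δ`): `q (p r) ∈ K'`.  `u (drop i y) = u y` by `hT.u`.  `fl_α s y - y = p s - drop i y`, `q (fl_α s y) = q (p s)`.
* `pk_col_unif`: `K' = cthickening ‖F.q‖ K` compact, `R0 = ` bound of `T` on `K'` (`IsCompact.exists_bound_of_continuousOn`), `IsDiag.tail_induction hK R0`, `pk_col_base` with this `R`, `pk_col_step`.
* `pk_tol_of_local`: `b x = sSup {δ | 0 < δ ∧ δ ≤ 1 ∧ Pr δ x} / 2`, `pk_exists_tol` with `m = 0` (`norm_iteratedFDeriv_zero`); `κ x ≤ b x < sSup` gives `δ ≥ κ x` with `Pr δ x` (`exists_lt_of_lt_csSup`).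
* `pk_col_width`: `pk_tol_of_local` with `Pr δ x = ∀ y ∈ tot E, q y = x → ColGood .. δ y`.
-/

set_option autoImplicit false
set_option linter.unusedSectionVars false
open scoped ContDiff Topology
open MeasureTheory Claims.C0499
open Claimed.Agent.R316

namespace Claimed.Agent.R315

variable {V W : Type} [NormedAddCommGroup V] [NormedSpace ℝ V] [NormedAddCommGroup W]
  [NormedSpace ℝ W] {ι : Type}

/-- the flow lines which start at the wall point `y` exist and are short for `|s| ≤ δ`. -/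
def ColGood (M : Set V) (g : Ten V) (F : Frame V W ι) (E : Stat ι → Set W) (u : W → ℝ)
    (fa : Stat ι → W → W) (Oa : Stat ι → Set W) (ε δ : ℝ) (y : W) : Prop :=
  ∀ α, y ∈ E α → u y = 0 → ∀ s : ℝ, |s| ≤ δ → (s, y) ∈ ODE.dom (fa α) (Oa α) ∧
    ‖ODE.fl (fa α) (Oa α) s y - y‖ ≤ 1 ∧
    rdist M g (F.q y) (F.q (ODE.fl (fa α) (Oa α) s y)) ≤ ε / 2

/-- from tolerances which are uniform on compact sets to a tolerance function. -/
theorem pk_tol_of_local [FiniteDimensional ℝ V] {Pr : ℝ → V → Prop}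
    (hmono : ∀ δ δ' x, δ' ≤ δ → Pr δ x → Pr δ' x)
    (h : ∀ K : Set V, IsCompact K → ∃ δ : ℝ, 0 < δ ∧ ∀ x ∈ K, Pr δ x) :
    ∃ κ : V → ℝ, ContDiff ℝ ∞ κ ∧ (∀ x, 0 < κ x) ∧ ∀ x, Pr (κ x) x := by
  choose δ hδ0 hδ using fun k : ℕ => h (Metric.closedBall 0 k) (isCompact_closedBall 0 k)
  obtain ⟨κ, hκs, hκ0, hκ⟩ := pk_exists_tol (b := fun x : V => δ ⌈‖x‖⌉₊) (by
    intro K hK
    obtain ⟨C, hC⟩ := hK.isBounded.exists_norm_le
    have hne : ((Finset.range (⌈C⌉₊ + 1)).image δ).Nonempty :=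
      ⟨δ 0, Finset.mem_image.2 ⟨0, Finset.mem_range.2 (Nat.succ_pos _), rfl⟩⟩
    refine ⟨((Finset.range (⌈C⌉₊ + 1)).image δ).min' hne, ?_, fun x hx => ?_⟩
    · obtain ⟨k, -, hk⟩ := Finset.mem_image.1 (Finset.min'_mem _ hne)
      rw [← hk]
      exact hδ0 k
    · refine Finset.min'_le _ _ (Finset.mem_image.2 ⟨_, ?_, rfl⟩)
      exact Finset.mem_range.2 (Nat.lt_succ_of_le (Nat.ceil_mono (hC x hx)))) 0
  refine ⟨κ, hκs, hκ0, fun x => hmono _ _ x ?_ (hδ ⌈‖x‖⌉₊ x ?_)⟩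
  · have := hκ x 0 le_rfl
    rw [norm_iteratedFDeriv_zero] at this
    exact (le_abs_self _).trans this
  · rw [mem_closedBall_zero_iff]
    exact Nat.le_ceil _

theorem ColGood.mono {M : Set V} {g : Ten V} {F : Frame V W ι} {E : Stat ι → Set W} {u : W → ℝ}
    {fa : Stat ι → W → W} {Oa : Stat ι → Set W} {ε δ δ' : ℝ} {y : W} (hδ : δ' ≤ δ)
    (h : ColGood M g F E u fa Oa ε δ y) : ColGood M g F E u fa Oa ε δ' y :=
  fun α hy h0 s hs => h α hy h0 s (hs.trans hδ)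

variable [Fintype ι] [FiniteDimensional ℝ W] {n : ℕ} {M : Set V} {g : Ten V} {F : Frame V W ι}
  {E : Stat ι → Set W} {h : Ten W} {u : W → ℝ} {ua : Stat ι → W → ℝ} {fa : Stat ι → W → W}
  {Oa : Stat ι → Set W} {T : V → ℝ}

theorem ColData.flow_drop (hD : IsDiag n M F E) (hh : IsPMetric n F E h)
    (H : ColData n E h u ua fa Oa) (hT : ColThr F E h u T) {α : Stat ι} {y : W} {i : ι}
    (hy : y ∈ E α) {s : ℝ} (hs : (s, F.drop i y) ∈ ODE.dom (fa (α.face i)) (Oa (α.face i)))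
    (hfar : ∀ r ∈ Set.uIcc 0 s,
      T (F.q (ODE.fl (fa (α.face i)) (Oa (α.face i)) r (F.drop i y))) < |F.t i y|) :
    (s, y) ∈ ODE.dom (fa α) (Oa α) ∧ ODE.fl (fa α) (Oa α) s y =
      ODE.fl (fa (α.face i)) (Oa (α.face i)) s (F.drop i y) + F.t i y • F.e i := by
  classical
  set β := α.face i with hβ
  have hβi : β i = 0 := by simp [hβ, Stat.face]
  have h0 : T (F.q y) < |F.t i y| := by
    have := hfar 0 Set.left_mem_uIcc
    rwa [ODE.fl_zero, F.q_drop] at this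
  have hdy : F.drop i y ∈ E β := hT.diag.drop_mem hD hT.nonneg hy h0
  have hty : F.t i y ≠ 0 := by
    intro h
    rw [h, abs_zero] at h0
    exact absurd h0 (not_lt.2 (hT.nonneg _))
  have hαi : α i ≠ 0 := hD.ne_zero_of_t_ne hy hty
  have hfβ : ContDiffOn ℝ 1 (fa β) (Oa β) := (H.nf β).smooth.of_le (by exact_mod_cast le_top)
  have hfα : ContDiffOn ℝ 1 (fa α) (Oa α) := (H.nf α).smooth.of_le (by exact_mod_cast le_top)
  set p : ℝ → W := fun r => ODE.fl (fa β) (Oa β) r (F.drop i y) with hp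
  set c : ℝ → W := fun r => p r + F.t i y • F.e i with hc
  have hdom : ∀ r ∈ Set.uIcc 0 s, (r, F.drop i y) ∈ ODE.dom (fa β) (Oa β) := fun r hr =>
    ODE.mem_dom_of_mem_uIcc hs hr
  have hpE : ∀ r ∈ Set.uIcc 0 s, p r ∈ E β := fun r hr =>
    pk_flow_mem (hD.mfd β) (hD.closed β) (H.nf β).isOpen (H.nf β).smooth
      (fun x hx hΩ => (H.nf β).tan hx hΩ) hdy (hdom r hr)
  have htp : ∀ r ∈ Set.uIcc 0 s, F.t i (p r) = 0 := fun r hr => hD.t_hit β _ (hpE r hr) i hβi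
  have hdc : ∀ r ∈ Set.uIcc 0 s, F.drop i (c r) = p r := fun r hr => by
    simp only [hc]
    rw [F.drop_add_smul, F.drop_of_t_eq_zero (htp r hr)]
  have htc : ∀ r ∈ Set.uIcc 0 s, F.t i (c r) = F.t i y := fun r hr => by
    simp only [hc, map_add, map_smul, F.t_e, htp r hr, smul_eq_mul, mul_one, zero_add]
  have hqc : ∀ r, F.q (c r) = F.q (p r) := fun r => by
    simp only [hc, map_add, map_smul, F.q_e, smul_zero, add_zero]
  have hlt : ∀ r ∈ Set.uIcc 0 s, T (F.q (c r)) < |F.t i (c r)| := fun r hr => by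
    rw [hqc, htc r hr]
    exact hfar r hr
  have hcE : ∀ r ∈ Set.uIcc 0 s, c r ∈ E α := fun r hr => by
    refine (hT.diag i α hαi (c r) ?_).2 (by rw [hdc r hr]; exact hpE r hr)
    rw [hqc, htc r hr, hD.sign_mul hy i]
    exact hfar r hr
  have hcO : ∀ r ∈ Set.uIcc 0 s, c r ∈ Oa α := fun r hr => by
    refine (H.mem_drop hD hh hT (hcE r hr) (hlt r hr)).2 ?_
    rw [hdc r hr]
    exact ODE.fl_mem (hdom r hr)
  have hder : ∀ r ∈ Set.uIcc 0 s, HasDerivWithinAt c (fa α (c r)) (Set.uIcc 0 s) r := fun r hr => by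
    rw [H.fa_drop hD hh hT (hcE r hr) (hlt r hr) (hcO r hr), hdc r hr]
    exact ((ODE.hasDerivAt_fl (H.nf β).isOpen hfβ (hdom r hr)).add_const _).hasDerivWithinAt
  have key := ODE.eq_fl_of_hasDerivWithinAt (H.nf α).isOpen hfα Set.ordConnected_uIcc
    (c := c) (fun r hr => ⟨hcO r hr, hder r hr⟩) (t₀ := 0) (t := s) Set.left_mem_uIcc
    Set.right_mem_uIcc
  have hc0 : c 0 = y := by
    simp only [hc, hp]
    rw [ODE.fl_zero]
    exact (F.self_eq_drop_add i y).symm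
  rw [sub_zero, hc0] at key
  exact key

/-- one status: uniform existence time and short flow lines on a compact part of the wall. -/
theorem pk_col_base_one [FiniteDimensional ℝ V] (hM : IsMfd n M) (hconn : IsConnected M)
    (hg : IsMetricOn n M g) (hD : IsDiag n M F E) (hh : IsPMetric n F E h)
    (hu : ∀ α, SmoothAlong (n - hits α) (E α) u) (hreg : ∀ α, RegularOn (n - hits α) (E α) u)
    (H : ColData n E h u ua fa Oa) {ε : ℝ} (hε : 0 < ε) {K : Set V} (hK : IsCompact K) (R : ℝ)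
    (α : Stat ι) :
    ∃ δ : ℝ, 0 < δ ∧ ∀ y ∈ E α, F.q y ∈ K → (∀ i, |F.t i y| ≤ R) → u y = 0 → ∀ s : ℝ, |s| ≤ δ →
      (s, y) ∈ ODE.dom (fa α) (Oa α) ∧ ‖ODE.fl (fa α) (Oa α) s y - y‖ ≤ 1 ∧
        rdist M g (F.q y) (F.q (ODE.fl (fa α) (Oa α) s y)) ≤ ε / 2 := by
  have hfα : ContDiffOn ℝ 1 (fa α) (Oa α) := (H.nf α).smooth.of_le (by exact_mod_cast le_top)
  have hO := (H.nf α).isOpen
  set C0 : Set W := {z | z ∈ E α ∧ F.q z ∈ K ∧ ∀ i, |F.t i z| ≤ R} with hC0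
  have hC0c : IsCompact C0 := hD.isCompact_trunc α hK R
  have huc : ContinuousOn u C0 :=
    (if_smoothAlong_continuousOn (hD.mfd α) (hu α)).mono fun z hz => hz.1
  set C : Set W := C0 ∩ u ⁻¹' {0} with hC
  have hCc : IsCompact C :=
    hC0c.of_isClosed_subset (huc.preimage_isClosed_of_isClosed hC0c.isClosed isClosed_singleton)
      Set.inter_subset_left
  have hCE : ∀ z ∈ C, z ∈ E α := fun z hz => hz.1.1
  have hCO : C ⊆ Oa α := fun z hz => H.wall_mem hD hh hreg hz.1.1 hz.2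
  obtain ⟨ε0, hε0, hdom⟩ := ODE.exists_pos_forall_mem_dom hO hfα hCc hCO
  set S : Set (ℝ × W) := Set.Icc (-ε0) ε0 ×ˢ C with hS
  have hSc : IsCompact S := isCompact_Icc.prod hCc
  have hSdom : S ⊆ ODE.dom (fa α) (Oa α) := by
    rintro ⟨r, z⟩ ⟨hr, hz⟩
    exact hdom z hz r (abs_le.2 hr)
  have hflc : ContinuousOn (fun p : ℝ × W => ODE.fl (fa α) (Oa α) p.1 p.2) S :=
    ((ODE.contDiffOn_fl_infty hO (H.nf α).smooth).continuousOn).mono hSdom
  have hflE : ∀ p ∈ S, ODE.fl (fa α) (Oa α) p.1 p.2 ∈ E α := fun p hp =>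
    pk_flow_mem (hD.mfd α) (hD.closed α) hO (H.nf α).smooth
      (fun x hx hΩ => (H.nf α).tan hx hΩ) (hCE _ hp.2) (hSdom hp)
  have hA : ContinuousOn (fun p : ℝ × W => ‖ODE.fl (fa α) (Oa α) p.1 p.2 - p.2‖) S :=
    (hflc.sub continuous_snd.continuousOn).norm
  have hB : ContinuousOn (fun p : ℝ × W =>
      rdist M g (F.q p.2) (F.q (ODE.fl (fa α) (Oa α) p.1 p.2))) S := by
    have h1 : ContinuousOn (fun p : ℝ × W =>
        ((F.q p.2, F.q (ODE.fl (fa α) (Oa α) p.1 p.2)) : V × V)) S :=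
      (F.q.continuous.comp continuous_snd).continuousOn.prodMk
        (F.q.continuous.comp_continuousOn hflc)
    exact (if_rdist_continuousOn₂ hM hconn.isPreconnected fun ψ U hψ => (hg ψ U hψ).1).comp h1
      fun p hp => ⟨hD.q_mem α _ (hCE _ hp.2), hD.q_mem α _ (hflE p hp)⟩
  obtain ⟨δ1, hδ1, hA'⟩ := Metric.uniformContinuousOn_iff.1
    (hSc.uniformContinuousOn_of_continuous hA) 1 one_pos
  obtain ⟨δ2, hδ2, hB'⟩ := Metric.uniformContinuousOn_iff.1
    (hSc.uniformContinuousOn_of_continuous hB) (ε / 2) (half_pos hε)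
  refine ⟨min ε0 (min δ1 δ2 / 2), lt_min hε0 (half_pos (lt_min hδ1 hδ2)),
    fun y hy hq ht h0 s hs => ?_⟩
  have hyC : y ∈ C := ⟨⟨hy, hq, ht⟩, h0⟩
  have hs0 : |s| ≤ ε0 := hs.trans (min_le_left _ _)
  have hs1 : |s| < min δ1 δ2 := lt_of_le_of_lt (hs.trans (min_le_right _ _))
    (half_lt_self (lt_min hδ1 hδ2))
  have hmem : ((s, y) : ℝ × W) ∈ S := ⟨abs_le.1 hs0, hyC⟩
  have hmem0 : ((0, y) : ℝ × W) ∈ S := ⟨⟨by linarith, hε0.le⟩, hyC⟩
  have hdist : dist ((s, y) : ℝ × W) (0, y) = |s| := by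
    rw [Prod.dist_eq, dist_self, Real.dist_eq, sub_zero]
    exact max_eq_left (abs_nonneg s)
  refine ⟨hSdom hmem, ?_, ?_⟩
  · have := hA' _ hmem _ hmem0 (by rw [hdist]; exact hs1.trans_le (min_le_left _ _))
    simp only [ODE.fl_zero, sub_self, norm_zero, Real.dist_eq, sub_zero] at this
    exact (le_abs_self _).trans this.le
  · have := hB' _ hmem _ hmem0 (by rw [hdist]; exact hs1.trans_le (min_le_right _ _))
    simp only [ODE.fl_zero, if_rdist_self g (hD.q_mem α _ hy), Real.dist_eq, sub_zero] at this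
    exact (le_abs_self _).trans this.le

theorem pk_col_base [FiniteDimensional ℝ V] (hM : IsMfd n M) (hconn : IsConnected M)
    (hg : IsMetricOn n M g) (hD : IsDiag n M F E) (hh : IsPMetric n F E h)
    (hu : ∀ α, SmoothAlong (n - hits α) (E α) u) (hreg : ∀ α, RegularOn (n - hits α) (E α) u)
    (H : ColData n E h u ua fa Oa) {ε : ℝ} (hε : 0 < ε) {K : Set V} (hK : IsCompact K) (R : ℝ) :
    ∃ δ : ℝ, 0 < δ ∧ ∀ y ∈ tot E, F.q y ∈ K → (∀ i, |F.t i y| ≤ R) →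
      ColGood M g F E u fa Oa ε δ y := by
  classical
  choose δ hδ0 hδ using pk_col_base_one hM hconn hg hD hh hu hreg H hε hK R
  obtain ⟨α0, hα0⟩ := Finite.exists_min δ
  exact ⟨δ α0, hδ0 α0, fun y _ hq ht α hy h0 s hs => hδ α y hy hq ht h0 s (hs.trans (hα0 α))⟩

theorem pk_col_step (hD : IsDiag n M F E) (hh : IsPMetric n F E h)
    (H : ColData n E h u ua fa Oa) (hT : ColThr F E h u T) {ε δ R : ℝ} {y : W} {i : ι}
    (hy : y ∈ tot E) (hR : ∀ x : V, ‖x - F.q y‖ ≤ ‖F.q‖ → T x ≤ R) (hi : R < |F.t i y|)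
    (hgood : ColGood M g F E u fa Oa ε δ (F.drop i y)) : ColGood M g F E u fa Oa ε δ y := by
  intro α hyα h0 s hs
  have hTy : T (F.q y) < |F.t i y| :=
    lt_of_le_of_lt (hR _ (by rw [sub_self, norm_zero]; exact norm_nonneg _)) hi
  have hdy : F.drop i y ∈ E (α.face i) := hT.diag.drop_mem hD hT.nonneg hyα hTy
  have hu0 : u (F.drop i y) = 0 := by rw [hT.u i y hy hTy, h0]
  have hG := hgood (α.face i) hdy hu0
  have hfar : ∀ r ∈ Set.uIcc 0 s,
      T (F.q (ODE.fl (fa (α.face i)) (Oa (α.face i)) r (F.drop i y))) < |F.t i y| := by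
    intro r hr
    have hr' : |r| ≤ δ := by
      refine le_trans ?_ hs
      rcases Set.mem_uIcc.1 hr with ⟨h1, h2⟩ | ⟨h1, h2⟩
      · rw [abs_of_nonneg h1, abs_of_nonneg (h1.trans h2)]; exact h2
      · rw [abs_of_nonpos h2, abs_of_nonpos (h1.trans h2)]; linarith
    refine lt_of_le_of_lt (hR _ ?_) hi
    rw [← F.q_drop i y, ← map_sub]
    calc ‖F.q (ODE.fl (fa (α.face i)) (Oa (α.face i)) r (F.drop i y) - F.drop i y)‖
        ≤ ‖F.q‖ * ‖ODE.fl (fa (α.face i)) (Oa (α.face i)) r (F.drop i y) - F.drop i y‖ :=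
          F.q.le_opNorm _
      _ ≤ ‖F.q‖ * 1 := mul_le_mul_of_nonneg_left (hG r hr').2.1 (norm_nonneg _)
      _ = ‖F.q‖ := mul_one _
  obtain ⟨h1, h2⟩ := H.flow_drop hD hh hT hyα (hG s hs).1 hfar
  refine ⟨h1, ?_, ?_⟩
  · have e : ODE.fl (fa α) (Oa α) s y - y =
        ODE.fl (fa (α.face i)) (Oa (α.face i)) s (F.drop i y) - F.drop i y := by
      have hy' : y - F.drop i y = F.t i y • F.e i := by simp [Frame.drop]
      rw [h2, ← hy']
      abel
    rw [e]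
    exact (hG s hs).2.1
  · have e : F.q (ODE.fl (fa α) (Oa α) s y) =
        F.q (ODE.fl (fa (α.face i)) (Oa (α.face i)) s (F.drop i y)) := by
      rw [h2, map_add, map_smul, F.q_e, smul_zero, add_zero]
    rw [e, ← F.q_drop i y]
    exact (hG s hs).2.2

theorem pk_col_unif [FiniteDimensional ℝ V] (hM : IsMfd n M) (hconn : IsConnected M)
    (hg : IsMetricOn n M g) (hD : IsDiag n M F E) (hh : IsPMetric n F E h)
    (hu : ∀ α, SmoothAlong (n - hits α) (E α) u) (hreg : ∀ α, RegularOn (n - hits α) (E α) u)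
    (H : ColData n E h u ua fa Oa) (hT : ColThr F E h u T) {ε : ℝ} (hε : 0 < ε) {K : Set V}
    (hK : IsCompact K) :
    ∃ δ : ℝ, 0 < δ ∧ ∀ y ∈ tot E, F.q y ∈ K → ColGood M g F E u fa Oa ε δ y := by
  have hK' : IsCompact (Metric.cthickening ‖F.q‖ K) := hK.cthickening
  obtain ⟨R0, hR0⟩ := (hK'.image hT.smooth.continuous).bddAbove
  obtain ⟨R, hRR, -, -, hind⟩ := hD.tail_induction hK R0
  obtain ⟨δ, hδ0, hδ⟩ := pk_col_base hM hconn hg hD hh hu hreg H hε hK R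
  refine ⟨δ, hδ0, hind _ hδ fun z hz hq i hi _ hgood => ?_⟩
  refine pk_col_step hD hh H hT hz (fun x hx => ?_) hi hgood
  refine le_trans (hR0 ⟨x, ?_, rfl⟩) hRR
  exact Metric.mem_cthickening_of_dist_le x (F.q z) _ K hq (by rw [dist_eq_norm]; exact hx)

theorem pk_col_width [FiniteDimensional ℝ V] (hM : IsMfd n M) (hconn : IsConnected M)
    (hg : IsMetricOn n M g) (hD : IsDiag n M F E) (hh : IsPMetric n F E h)
    (hu : ∀ α, SmoothAlong (n - hits α) (E α) u) (hreg : ∀ α, RegularOn (n - hits α) (E α) u)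
    (H : ColData n E h u ua fa Oa) (hT : ColThr F E h u T) {ε : ℝ} (hε : 0 < ε) :
    ∃ e0 : V → ℝ, ContDiff ℝ ∞ e0 ∧ (∀ x, 0 < e0 x) ∧
      ∀ y ∈ tot E, ColGood M g F E u fa Oa ε (e0 (F.q y)) y := by
  obtain ⟨κ, h1, h2, h3⟩ := pk_tol_of_local
    (Pr := fun δ x => ∀ y ∈ tot E, F.q y = x → ColGood M g F E u fa Oa ε δ y)
    (fun δ δ' x hδ hP y hy hq => (hP y hy hq).mono hδ)
    (fun K hK => by
      obtain ⟨δ, hδ0, hδ⟩ := pk_col_unif hM hconn hg hD hh hu hreg H hT hε hK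
      exact ⟨δ, hδ0, fun x hx y hy hq => hδ y hy (hq ▸ hx)⟩)
  exact ⟨κ, h1, h2, fun y hy => h3 (F.q y) y hy rfl⟩

end Claimed.Agent.R315
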