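import Claimed.Agent.R315.Pk.Out
import Claimed.Agent.R315.Pack006

/-!
# Row 315, packets: `Stretched` data give the cover (level-1 statement `pk_main`)
-/

set_option autoImplicit false
open scoped ContDiff Topology
open MeasureTheory Claims.C0499

namespace Claimed.Agent.R315

variable {V : Type} [NormedAddCommGroup V] [NormedSpace ℝ V]

/-- a separated family of points of a proper `(M, g)` is locally finite. -/
theorem pk_locfin {M : Set V} {g : Ten V} (hRd : IsRd M g) (hM : IsClosed M)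
    (hp : IsProperOn M g) {I : Type} (x : I → V) (hx : ∀ i, x i ∈ M) (δ : ℝ) (hδ : 0 < δ)
    (sep : ∀ i j, i ≠ j → δ ≤ rdist M g (x i) (x j)) (R : ℝ) (K : Set V) (hK : IsCompact K) :
    {i | ∃ y ∈ K ∩ M, rdist M g (x i) y < R}.Finite := by
  classical
  rcases (K ∩ M).eq_empty_or_nonempty with he | ⟨y0, hy0⟩
  · have : {i | ∃ y ∈ K ∩ M, rdist M g (x i) y < R} = ∅ := by
      ext i; simp [he]
    rw [this]; exact Set.finite_empty
  have hKM : IsCompact (K ∩ M) := hK.inter_right hM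
  -- `rdist y0` is bounded on `K ∩ M`
  obtain ⟨C, hC⟩ : ∃ C, ∀ y ∈ K ∩ M, rdist M g y0 y ≤ C := by
    have hc : ContinuousOn (rdist M g y0) (K ∩ M) :=
      (hRd.cont y0 hy0.2).mono Set.inter_subset_right
    obtain ⟨C, hC⟩ := (hKM.image_of_continuousOn hc).bddAbove
    exact ⟨C, fun y hy => hC ⟨y, hy, rfl⟩⟩
  set Bl : Set V := {y | y ∈ M ∧ rdist M g y0 y ≤ C + R} with hBl
  have hBc : IsCompact Bl := hp y0 hy0.2 (C + R)
  set S : Set I := {i | ∃ y ∈ K ∩ M, rdist M g (x i) y < R} with hS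
  have hSB : ∀ i ∈ S, x i ∈ Bl := by
    rintro i ⟨y, hy, hlt⟩
    refine ⟨hx i, ?_⟩
    have h1 := hRd.tri y0 hy0.2 y hy.2 (x i) (hx i)
    have h2 := hRd.symm y hy.2 (x i) (hx i)
    have h3 := hC y hy
    linarith
  have hinj : Function.Injective x := by
    intro i j hij
    by_contra hne
    have h1 := sep i j hne
    rw [hij, hRd.self _ (hx j)] at h1
    linarith
  by_contra hinf
  have hinf' : (x '' S).Infinite := (Set.infinite_image_iff hinj.injOn).2 hinf
  obtain ⟨p, hp1, hp2⟩ := hinf'.exists_accPt_of_subset_isCompact hBc (by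
    rintro _ ⟨i, hi, rfl⟩; exact hSB i hi)
  have hpM : p ∈ M := hp1.1
  -- a neighbourhood of `p` of small diameter
  have hc := (hRd.cont p hpM).continuousWithinAt hpM
  have h1 : {y | rdist M g p y < δ / 2} ∈ 𝓝[M] p := by
    apply hc.tendsto.eventually_lt_const
    rw [hRd.self p hpM]; linarith
  obtain ⟨U, hU, hUM⟩ := mem_nhdsWithin_iff_exists_mem_nhds_inter.1 h1
  -- two different centres in `U`
  have hfreq := accPt_iff_frequently.1 hp2
  obtain ⟨a, ha, ⟨i, hi, rfl⟩⟩ : ∃ a, (a ≠ p ∧ a ∈ U) ∧ a ∈ x '' S := by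
    have := (hfreq.and_eventually hU).exists
    obtain ⟨a, ⟨h1, h2⟩, h3⟩ := this
    exact ⟨a, ⟨h1, h3⟩, h2⟩
  have hU2 : U ∩ {x i}ᶜ ∈ 𝓝 p :=
    Filter.inter_mem hU (isOpen_compl_singleton.mem_nhds (fun h => ha.1 h.symm))
  obtain ⟨b, hb, ⟨j, hj, rfl⟩⟩ : ∃ b, b ∈ U ∩ {x i}ᶜ ∧ b ∈ x '' S := by
    have := (hfreq.and_eventually hU2).exists
    obtain ⟨b, ⟨_, h2⟩, h3⟩ := this
    exact ⟨b, h3, h2⟩
  have hij : i ≠ j := fun h => hb.2 (by rw [h]; rfl)
  have d1 : rdist M g p (x i) < δ / 2 := hUM ⟨ha.2, hx i⟩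
  have d2 : rdist M g p (x j) < δ / 2 := hUM ⟨hb.1, hx j⟩
  have d3 := hRd.tri (x i) (hx i) p hpM (x j) (hx j)
  have d4 := hRd.symm (x i) (hx i) p hpM
  have d5 := sep i j hij
  linarith

/-- the centre data of a `Stretched` structure. -/
def Stretched.cen {n : ℕ} {M : Set V} {g : Ten V} {D : ℝ} (S : Stretched n M g D) : Cen V :=
  ⟨n, M, g, D, S.ι, S.x, S.pst, S.pst0⟩

theorem pk_summable_option {I : Type} (a : ℝ) (f : I → ℝ) (hf : Summable f) :
    Summable (fun j : Option I => j.elim a f) := by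
  classical
  have h1 : Summable (fun j : Option I => j.elim 0 f) := by
    refine (Function.Injective.summable_iff (Option.some_injective I) ?_).1 hf
    intro j hj
    rcases j with _ | i
    · rfl
    · exact absurd ⟨i, rfl⟩ hj
  have h2 : Summable (fun j : Option I => if j = none then a else 0) :=
    summable_of_ne_finset_zero (s := {none}) (fun j hj => by
      simp only [Finset.mem_singleton] at hj
      simp [hj])
  refine (h1.add h2).congr ?_
  rintro (_ | i) <;> simp

/-- **Level 1 statement `pk_main`**: P Sections 5-7, Appendices A-E (= S Theorem 2.1), in cover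
form. -/
theorem pk_stretched [FiniteDimensional ℝ V] (n : ℕ) (hn : 4 ≤ n) (M : Set V) (g : Ten V) (D : ℝ)
    (hD : 2 ≤ D) (h1 : IsMfd n M) (h2 : IsClosed M) (h3 : IsConnected M) (h4 : IsMetricOn n M g)
    (h5 : IsProperOn M g) (S : Stretched n M g D) :
    HasCover (n - 1) M g (4 * D + 2) := by
  have hRd : IsRd M g := if_isRd h1 h3 h4
  have hcnt := S.cnt
  have hok : S.cen.base.Ok := by
    refine ⟨h1, h2, h3, h4, h5, ?_, ?_, ?_⟩
    · show Countable (Option S.ι)
      infer_instance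
    · rintro (_ | i)
      · exact S.pst0_pos
      · exact S.pst_pos i
    · exact pk_summable_option S.pst0 S.pst S.pst_sum
  have hinit : PkInit S.cen S.h S.t := by
    refine ⟨hok, hn, by show 1 < D; linarith, S.x_mem, ?_, S.cov, ?_, S.pst_le, S.h_met, S.h_ge,
      S.t_smooth, ?_, S.curv⟩
    · intro K hK
      refine (pk_locfin hRd h2 h5 S.x S.x_mem (D - 1) (by linarith) S.sep (2 * D) K hK).subset ?_
      rintro i ⟨y, hy, hout⟩
      refine ⟨y, hy, ?_⟩
      by_contra hcon
      exact hout ⟨hy.2, not_lt.1 hcon⟩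
    · intro i
      obtain ⟨y, hy, hy2⟩ := S.far i
      exact ⟨y, hy, hy2⟩
    · intro i y hy z hz
      exact S.wide i y hy.1 z hz.1 hy.2 hz.2
  exact pk_cover S.cen S.h S.t hinit

end Claimed.Agent.R315
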