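import Claimed.Agent.R315.Pack004
import Claimed.Agent.R315.Pack010
import Claimed.Agent.R315.Pack002
import Claimed.Agent.R315.Pack009
import Claimed.Agent.R315.Pk.Chain

/-!
# Row 315, packets: the countable induction and the output (P Proposition 6.6 + Section 7)

`pk_cover` (PROVED here): stretched data give `HasCover (n-1) M g (4 D + 2)`, from

* `pk_init`   stage zero (P Lemma 6.1),
* `pk_step`   one step (P Proposition 6.4; ONE statement for the radial and the later steps),
* `pk_dim1`   no one-dimensional packets (P Lemma 6.5),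
* `if_isRd`   `rdist` is a metric which is continuous on `M` (package IF, PROVED in `If/Dist.lean`),
* `hasCover_of_walls` (CX, proved).

There is no reconstruction `X_r`, no horizon, no collar compression and no limit of collapse maps:
only the maps `Z_r : M → tot E_r` (composition of the `Φ` of the links), the wall functions
`f_i = u_i ∘ Z_{r(i)}` and the stage collapse `Q_i = q ∘ Z_{r(i)}`.
-/

set_option autoImplicit false
open scoped ContDiff Topology
open MeasureTheory Claims.C0499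

namespace Claimed.Agent.R315

variable {V : Type} [NormedAddCommGroup V] [NormedSpace ℝ V]

/-! ### imported statements -/

/-! ### the bands of the radial label (BAND), `Pk/Loc.lean` -/

theorem pkTri_continuous (P : ℝ) : Continuous (pkTri P) :=
  (Metric.lipschitz_infDist_pt _).continuous

/-- the triangle wave at the multiples of `P`. -/
theorem pkTri_nat {P : ℝ} (hP : 0 < P) (m : ℕ) : pkTri P (m * P) = 0 ∨ pkTri P (m * P) = P := by
  rcases Nat.even_or_odd' m with ⟨a, rfl | rfl⟩
  · left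
    have e : ((2 * a : ℕ) : ℝ) * P = 2 * P * ((a : ℤ) : ℝ) := by push_cast; ring
    rw [e, pkTri_even]
  · right
    have e : ((2 * a + 1 : ℕ) : ℝ) * P = 2 * P * ((a : ℤ) : ℝ) + P := by push_cast; ring
    rw [e, pkTri_odd hP]

/-- **the bands of the radial label**: the compact annuli `{1 ≤ tri ρ ≤ T + 3, k P ≤ ρ ≤ (k + 1) P}`. -/
theorem pk_band_radial {M : Set V} {h : Ten V} (hMc : IsClosed M) (hR : IsRd M h)
    (hpr : IsProperOn M h) {o : V} (ho : o ∈ M) {T : ℝ} (hT : 0 < T) :
    ∃ K : ℕ → Set V, (∀ k, IsCompact (K k)) ∧ Pairwise (Function.onFun Disjoint K) ∧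
      (∀ C : Set V, IsCompact C → {k | (K k ∩ C).Nonempty}.Finite) ∧
      ∀ z ∈ M, (∀ k, z ∉ K k) →
        pkTri (T + 4) (rdist M h o z) < 1 ∨ T + 3 < pkTri (T + 4) (rdist M h o z) := by
  set P : ℝ := T + 4 with hPdef
  have hP : 0 < P := by linarith
  set ρ : V → ℝ := rdist M h o with hρ
  have hρc : ContinuousOn ρ M := hR.cont o ho
  have hρ0 : ∀ z ∈ M, 0 ≤ ρ z := by
    intro z hz
    have h1 := hR.tri o ho z hz o ho
    rw [hR.self o ho, hR.symm z hz o ho] at h1
    linarith
  set S : ℕ → Set ℝ := fun k => {s | 1 ≤ pkTri P s ∧ pkTri P s ≤ T + 3 ∧ (k : ℝ) * P ≤ s ∧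
    s ≤ ((k : ℝ) + 1) * P} with hS
  have hSc : ∀ k, IsClosed (S k) := fun k =>
    (isClosed_le continuous_const (pkTri_continuous P)).inter
      ((isClosed_le (pkTri_continuous P) continuous_const).inter
        ((isClosed_le continuous_const continuous_id).inter
          (isClosed_le continuous_id continuous_const)))
  refine ⟨fun k => M ∩ ρ ⁻¹' S k, fun k => ?_, ?_, fun C hC => ?_, fun z hz hk => ?_⟩
  · refine (hpr o ho (((k : ℝ) + 1) * P)).of_isClosed_subset
      (hρc.preimage_isClosed_of_isClosed hMc (hSc k)) fun y hy => ⟨hy.1, hy.2.2.2.2⟩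
  · have key : ∀ k l : ℕ, k < l → Disjoint (M ∩ ρ ⁻¹' S k) (M ∩ ρ ⁻¹' S l) := by
      intro k l hkl
      rw [Set.disjoint_left]
      rintro y ⟨-, h1, h2, -, h4⟩ ⟨-, -, -, h5, -⟩
      have hkl' : ((k : ℝ) + 1) ≤ l := by exact_mod_cast hkl
      have h6 : ((k : ℝ) + 1) * P ≤ (l : ℝ) * P := mul_le_mul_of_nonneg_right hkl' hP.le
      have h7 : ρ y = ((k + 1 : ℕ) : ℝ) * P := by
        push_cast
        exact le_antisymm h4 (h6.trans h5)
      rcases pkTri_nat hP (k + 1) with h8 | h8
      · rw [h7, h8] at h1; linarith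
      · rw [h7, h8] at h2; linarith
    intro k l hkl
    rcases lt_or_gt_of_ne hkl with h | h
    · exact key k l h
    · exact (key l k h).symm
  · obtain ⟨R, hR'⟩ := ((hC.inter_right hMc).image_of_continuousOn
      (hρc.mono Set.inter_subset_right)).bddAbove
    obtain ⟨n, hn⟩ := exists_nat_ge (R / P)
    refine (Set.finite_le_nat n).subset ?_
    rintro k ⟨y, ⟨hyM, -, -, h3, -⟩, hyC⟩
    have h4 : ρ y ≤ R := hR' ⟨y, ⟨hyC, hyM⟩, rfl⟩
    have h5 : (k : ℝ) ≤ R / P := by
      rw [le_div_iff₀ hP]; exact h3.trans h4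
    show k ≤ n
    exact_mod_cast h5.trans hn
  · by_contra hcon
    push Not at hcon
    refine hk ⌊ρ z / P⌋₊ ⟨hz, hcon.1, hcon.2, ?_, ?_⟩
    · have := Nat.floor_le (div_nonneg (hρ0 z hz) hP.le)
      rwa [le_div_iff₀ hP] at this
    · have := (Nat.lt_floor_add_one (ρ z / P)).le
      rwa [div_le_iff₀ hP] at this

/-- **Initialisation** (P Lemma 6.1). -/
theorem pk_init_band [FiniteDimensional ℝ V] (C : Cen V) (h : Ten V) (θ : V → ℝ)
    (H : PkInit C h θ) :
    ∃ P : PData V Empty C.base.J, P.E = (fun _ => C.M) ∧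
      Inv C.base (Frame.base V) P Set.univ 0 1 ∧ SepConf (Frame.base V) P (none : Option C.I) ∧
      PkBand (Frame.base V) P (none : Option C.I) := by
  classical
  obtain ⟨o, ho⟩ := H.ok.conn.nonempty
  have ho : o ∈ C.M := ho
  have hMfd : IsMfd C.n C.M := H.ok.mfd
  have hconn : IsConnected C.M := H.ok.conn
  have hRd : IsRd C.M h := if_isRd hMfd hconn H.h_met
  have hpr : IsProperOn C.M h := if_proper_of_le hMfd hconn.isPreconnected
    (if_isMetricOn_iff.1 H.ok.met).1 (if_isMetricOn_iff.1 H.h_met).1 H.h_ge H.ok.proper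
  have hpst : ∀ j, 0 < C.base.pst j := H.ok.pst_pos
  have hp0 : 0 < C.pst0 := hpst none
  set dfun : Option C.I → V → ℝ := fun j => j.elim
    (fun z => pkTri (pkT C.pst0 + 4) (rdist C.M h o z)) (fun i => pkDistTo C.M h (C.inn i))
    with hdfun
  let P : PData V Empty C.base.J := ⟨fun _ => C.M, h, θ,
    fun j z => pkY (C.base.pst j) (dfun j z), fun j _ => C.base.pst j, fun j => {z | dfun j z < 1},
    fun j => {z | pkT (C.base.pst j) + 3 < dfun j z}⟩
  have hinnsub : ∀ i, C.inn i ⊆ C.M := fun i y hy => hy.1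
  have hD0 : 0 ≤ C.D := by linarith [H.D1]
  have hgRd : IsRd C.M C.g := if_isRd hMfd hconn H.ok.met
  have hinnne : ∀ i, (C.inn i).Nonempty := fun i =>
    ⟨C.x i, H.x_mem i, by rw [hgRd.self _ (H.x_mem i)]; exact hD0⟩
  have hlip : ∀ j, ∀ x ∈ C.M, ∀ y ∈ C.M, |dfun j x - dfun j y| ≤ rdist C.M h x y := by
    rintro (_ | i) x hx y hy
    · exact (pkTri_lip _ _ _).trans (pk_rdist_lip hRd ho hx hy)
    · exact pkDistTo_lip hRd (hinnsub i) (hinnne i) hx hy
  have hfar : ∀ i, ∀ z ∈ C.out i, 10 + pkT (C.pst i) ≤ dfun (some i) z := fun i z hz =>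
    le_pkDistTo (hinnne i) fun y hy => (H.wide i y hy z hz).le
  have hTpos : ∀ j, 0 < pkT (C.base.pst j) := fun j => pkT_pos (hpst j)
  have hn : ∀ α : Stat Empty, C.base.n - hits α = C.n := fun α => by
    rw [pk_hits_empty]; rfl
  have htot : ∀ z, z ∈ tot P.E → z ∈ C.M := fun z hz => by
    obtain ⟨α, hα⟩ := mem_tot.1 hz
    exact hα
  refine ⟨P, rfl, ⟨?_, ?_, ?_, ?_, ?_, ?_, le_rfl, ?_⟩, ?_, ?_⟩
  · -- diag
    refine ⟨fun _ => H.ok.closed, fun α => by rw [hn]; exact hMfd, fun α β hne =>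
      absurd (funext fun e => e.elim) hne, fun α z hz => hz, fun α z _ i => i.elim,
      fun α z _ i => i.elim, fun α z _ i => i.elim, fun i => i.elim⟩
  · exact ⟨fun α => by rw [hn]; exact H.h_met, fun i => i.elim, fun α z _ i => i.elim⟩
  · intro α z hz
    have hz' : z ∈ C.M := hz
    show IsProperOn (connectedComponentIn C.M z) h
    rw [hconn.isPreconnected.connectedComponentIn hz']
    exact hpr
  · exact ⟨fun α => by rw [hn]; exact H.dr_smooth, fun i => i.elim⟩
  · intro j _
    refine pk_label_of_dist C.base P rfl j (dfun j) (pk_continuousOn_of_lip hRd (hlip j)) (hlip j)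
      (hpst j) rfl rfl rfl rfl ?_ ?_ (by unfold pkA; norm_num)
    · rcases j with _ | i
      · intro z _ hz
        exact hz.elim
      · intro z _ hz
        show pkDistTo C.M h (C.inn i) z < 1
        rw [pkDistTo_of_mem hRd (hinnsub i) hz]
        norm_num
    · rcases j with _ | i
      · intro z _ hz
        exact hz.elim
      · intro z _ hz
        have := hfar i z hz
        show pkT (C.pst i) + 3 < dfun (some i) z
        linarith
  · -- passive
    intro K hK
    refine ((H.locfin K hK).image some |>.insert none).subset ?_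
    rintro (_ | i) ⟨_, z, hz, hq, hnp⟩
    · exact Set.mem_insert _ _
    · refine Set.mem_insert_of_mem _ ⟨i, ⟨z, ⟨hq, htot z hz⟩, fun hout => hnp ?_⟩, rfl⟩
      have h1 := hfar i z hout
      have h2 : 0 < pkT (C.pst i) := hTpos (some i)
      refine ⟨?_, ?_, ?_, ?_⟩
      · show pkY (C.pst i) (dfun (some i) z) = ⊥
        have hpi : 0 < C.pst i := hpst (some i)
        rw [pkY_eq_bot hpi]
        linarith
      · show pkT (C.pst i) + 3 < dfun (some i) z
        linarith
      · show ¬ dfun (some i) z < 1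
        linarith
      · show C.pst i = 1 * C.pst i
        rw [one_mul]
  · -- curvature
    intro α z hz _
    rw [hn]
    have h1 : P.potSum Set.univ z = C.pst0 + ∑' i, C.pst i := by
      unfold PData.potSum
      simp only [Set.indicator_univ]
      exact pk_tsum_option H.ok.pst_sum
    rw [h1]
    have h2 := H.pst_le
    have h3 := H.curv z hz
    unfold pkL pkB
    show _ ≤ Dsc C.n C.M h θ z
    linarith
  · -- separation
    intro α Cs hCs hpre hdis
    have hT0 : 0 < pkT C.pst0 := hTpos none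
    obtain ⟨K, hK, hKC⟩ := pk_init_sep hRd hpr ho hT0 hCs hpre hdis
    exact ⟨K, hK, fun y hy => hKC y hy⟩
  · -- bands
    obtain ⟨K, h1, h2, h3, h4⟩ := pk_band_radial H.ok.closed hRd hpr ho (hTpos none)
    refine ⟨K, h1, h2, h3, fun z hz hk => ?_⟩
    rcases h4 z (htot z hz) hk with h5 | h5
    · exact Or.inl h5
    · exact Or.inr h5

/-- **Initialisation** (P Lemma 6.1): stage zero with the invariant at `s = 0`, `c = 1`, and
separation + confinement + bands for the radial label. -/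
theorem pk_init [FiniteDimensional ℝ V] (C : Cen V) (h : Ten V) (θ : V → ℝ)
    (H : PkInit C h θ) :
    ∃ P : PData V Empty C.base.J, P.E = (fun _ => C.M) ∧
      Inv C.base (Frame.base V) P Set.univ 0 1 ∧ SepConf (Frame.base V) P (none : Option C.I) ∧
      PkBand (Frame.base V) P (none : Option C.I) :=
  pk_init_band C h θ H

/-- **One step** (P Proposition 6.4), the same statement for the radial step and for the later
steps. -/
theorem pk_step [FiniteDimensional ℝ V] {W : Type} [NormedAddCommGroup W] [NormedSpace ℝ W]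
    [FiniteDimensional ℝ W] {ι : Type} [Fintype ι] (B : Base V) (hB : B.Ok) (F : Frame V W ι)
    (P : PData W ι B.J) (rem : Set B.J) (s c : ℝ) (H : Inv B F P rem s c) (hs0 : 0 ≤ s)
    (hdim : ∀ α, (P.E α).Nonempty → hits α + 2 ≤ B.n) (j0 : B.J) (hj : j0 ∈ rem)
    (hsep : SepConf F P j0) (hloc : PkLoc B F P j0) (s' : ℝ) (hs : s < s') (hs' : s' ≤ 1) (ε : ℝ)
    (hε : 0 < ε) :
    ∃ (P' : PData (W × ℝ) (Option ι) B.J) (u : W → ℝ) (Φ : W → W × ℝ),
      Inv B F.ext P' (rem \ {j0}) s' ((1 + 3 * (s' - s) / 400) * c) ∧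
      Conf F.ext P'.E ∧
      Link B F P.E P'.E u Φ ε ∧
      (∀ z ∈ tot P.E, F.q z ∈ B.inn j0 → 0 < u z) ∧
      (∀ z ∈ tot P.E, F.q z ∈ B.out j0 → u z < 0) :=
  pk_step_pf B hB F P rem s c H hs0 hdim j0 hj hsep hloc s' hs hs' ε hε

/-- **No one-dimensional packets** (P Lemma 6.5). -/
theorem pk_dim1 [FiniteDimensional ℝ V] {W : Type} [NormedAddCommGroup W] [NormedSpace ℝ W]
    [FiniteDimensional ℝ W] {ι : Type} [Fintype ι] (B : Base V) (hB : B.Ok) (F : Frame V W ι)
    (P : PData W ι B.J) (rem : Set B.J) (s c : ℝ) (H : Inv B F P rem s c) (hs : s ≤ 1)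
    (α : Stat ι) (hα : hits α + 1 = B.n) : P.E α = ∅ :=
  pk_dim1_pf B hB F P rem s c H hs α hα

/-- confinement gives separation + confinement for every label. -/
theorem Conf.sepConf {W : Type} [NormedAddCommGroup W] [NormedSpace ℝ W] {ι I : Type}
    {F : Frame V W ι} {P : PData W ι I} (h : Conf F P.E) (j : I) : SepConf F P j := by
  intro α C hC hpre _
  rcases C.eq_empty_or_nonempty with rfl | ⟨z, hz⟩
  · exact ⟨∅, isCompact_empty, fun y hy => hy.elim⟩
  · obtain ⟨K, hK, hKq⟩ := h α z (hC hz)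
    exact ⟨K, hK, fun y hy => hKq y (hpre.subset_connectedComponentIn hz hC hy)⟩

/-- dependent choice. -/
theorem pk_depChoice {A : Type 1} (P : ℕ → A → Prop) (R : ℕ → A → A → Prop) (a0 : A)
    (h0 : P 0 a0) (hs : ∀ r a, P r a → ∃ b, P (r + 1) b ∧ R r a b) :
    ∃ f : ℕ → A, ∀ r, P r (f r) ∧ R r (f r) (f (r + 1)) := by
  classical
  choose! nx hnx using hs
  let f : ℕ → A := fun r => Nat.rec a0 (fun r a => nx r a) r
  have hf : ∀ r, P r (f r) := by
    intro r
    induction r with
    | zero => exact h0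
    | succ r ih => exact (hnx r (f r) ih).1
  exact ⟨f, fun r => ⟨hf r, (hnx r (f r) (hf r)).2⟩⟩

/-! ### the induction -/

/-- state of the induction: a stage, the map from `M`, the budget parameter and the passive
multiplier. -/
structure OSt (B : Base V) where
  S : Stage V B.J
  Z : V → S.W
  s : ℝ
  c : ℝ

/-- the point `Z x` lies in a status space with at least `k` hits. -/
def OSt.HitsGE {B : Base V} (st : OSt B) (x : V) (k : ℕ) : Prop :=
  ∃ α, st.Z x ∈ st.S.P.E α ∧ k ≤ hits α

/-- the collapse of the stage, on `M`. -/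
def OSt.Q {B : Base V} (st : OSt B) (x : V) : V := st.S.F.q (st.Z x)

/-- what is true at step `r`. -/
structure OSt.Good {B : Base V} (enc : B.J → ℕ) (r : ℕ) (st : OSt B) : Prop where
  inv : Inv B st.S.F st.S.P {j | r ≤ enc j} st.s st.c
  sep : ∀ j, enc j = r → SepConf st.S.F st.S.P j
  conf : 1 ≤ r → Conf st.S.F st.S.P.E
  /-- no tails at stage zero -/
  emp : r = 0 → IsEmpty st.S.ι
  /-- the bands of the radial label -/
  band : ∀ j, enc j = r → r = 0 → PkBand st.S.F st.S.P j
  s0 : 0 ≤ st.s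
  s1 : st.s < 1
  dim : ∀ α, (st.S.P.E α).Nonempty → hits α + 2 ≤ B.n
  mem : ∀ x ∈ B.M, st.Z x ∈ tot st.S.P.E
  cont : ∀ (X : Type) [TopologicalSpace X] (φ : st.S.W → X), CC st.S.F st.S.P.E φ →
    ContinuousOn (φ ∘ st.Z) B.M
  disp : ∀ x ∈ B.M, rdist B.M B.g x (st.Q x) ≤ 1 - (1 / 2) ^ (r + 1)

/-- relation between consecutive states. -/
structure OSt.Next {B : Base V} (enc : B.J → ℕ) (r : ℕ) (st st' : OSt B) : Prop where
  mono : ∀ x ∈ B.M, ∀ k, st.HitsGE x k → st'.HitsGE x k
  real : ∀ j, enc j = r → ∃ f : V → ℝ, ContinuousOn f B.M ∧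
    (∀ x ∈ B.M, st.Q x ∈ B.inn j → 0 < f x) ∧ (∀ x ∈ B.M, st.Q x ∈ B.out j → f x < 0) ∧
    (∀ x ∈ B.M, f x = 0 → ∀ k, st.HitsGE x k → st'.HitsGE x (k + 1))

theorem OSt.Good.Q_mem {B : Base V} {enc : B.J → ℕ} {r : ℕ} {st : OSt B} (h : st.Good enc r)
    {x : V} (hx : x ∈ B.M) : st.Q x ∈ B.M := by
  obtain ⟨α, hα⟩ := mem_tot.1 (h.mem x hx)
  exact h.inv.diag.q_mem α _ hα

theorem OSt.Good.Q_cont {B : Base V} {enc : B.J → ℕ} {r : ℕ} {st : OSt B} (h : st.Good enc r) :
    ContinuousOn st.Q B.M :=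
  h.cont V st.S.F.q (cc_q _ _)

/-- the initial state. -/
theorem pk_init_state [FiniteDimensional ℝ V] (C : Cen V) (h : Ten V) (θ : V → ℝ)
    (H : PkInit C h θ) (enc : C.base.J → ℕ) (henc : Function.Injective enc)
    (h0 : enc (none : Option C.I) = 0) : ∃ st : OSt C.base, st.Good enc 0 := by
  obtain ⟨P, hE, hI, hsep, hband⟩ := pk_init C h θ H
  have hRd : IsRd C.M C.g := if_isRd H.ok.mfd H.ok.conn H.ok.met
  let α0 : Stat Empty := fun e => e.elim
  refine ⟨⟨⟨Empty, V, Frame.base V, P⟩, id, 0, 1⟩, ?_⟩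
  refine ⟨?_, ?_, fun h => absurd h (by norm_num), fun _ => (inferInstance : IsEmpty Empty),
    fun j hj _ => ?_, le_rfl, one_pos, ?_, ?_, ?_, ?_⟩
  · have : {j : C.base.J | 0 ≤ enc j} = Set.univ := by ext j; simp
    rw [this]; exact hI
  · intro j hj
    obtain rfl : j = (none : Option C.I) := henc (hj.trans h0.symm)
    exact hsep
  · obtain rfl : j = (none : Option C.I) := henc (hj.trans h0.symm)
    exact hband
  · intro α _
    have h2 : hits α = 0 := by simp [hits]
    have h3 : 4 ≤ C.base.n := H.n4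
    show hits α + 2 ≤ C.base.n
    omega
  · intro x hx
    refine mem_tot.2 ⟨α0, ?_⟩
    show x ∈ P.E α0
    rw [hE]; exact hx
  · intro X _ φ hφ
    have := hφ.1 α0
    have e : P.E α0 = C.M := by rw [hE]
    change ContinuousOn φ (P.E α0) at this
    rw [e] at this
    exact this
  · intro x hx
    show rdist C.M C.g x x ≤ 1 - (1 / 2) ^ (0 + 1)
    rw [hRd.self x hx]
    norm_num

/-- the inductive step. -/
theorem pk_next_state [FiniteDimensional ℝ V] (B : Base V) (hB : B.Ok) (enc : B.J → ℕ)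
    (henc : Function.Injective enc) (h0 : ∃ j, enc j = 0)
    (hK : ∀ j, enc j ≠ 0 → ∃ K0 : Set V, IsCompact K0 ∧
      ∀ y ∈ B.M, y ∉ K0 → y ∈ B.inn j ∨ y ∈ B.out j) (r : ℕ) (st : OSt B)
    (hst : st.Good enc r) :
    ∃ st' : OSt B, st'.Good enc (r + 1) ∧ OSt.Next enc r st st' := by
  have hRd : IsRd B.M B.g := if_isRd hB.mfd hB.conn hB.met
  have hpow : (1 : ℝ) - (1 / 2) ^ (r + 1) + (1 / 2) ^ (r + 2) = 1 - (1 / 2) ^ (r + 1 + 1) := by
    ring
  by_cases hr : ∃ i, enc i = r
  · obtain ⟨i, hi⟩ := hr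
    have hloc : PkLoc B st.S.F st.S.P i := by
      rcases Nat.eq_zero_or_pos r with h0r | h0r
      · exact ⟨Or.inl (hst.emp h0r), hst.band i hi h0r⟩
      · refine ⟨Or.inr ⟨hst.conf h0r, hK i (by omega)⟩, ?_⟩
        obtain ⟨K0, hK0, hK0f⟩ := hK i (by omega)
        have hlab := hst.inv.label i (by simp [hi])
        refine pkBand_of_compact hK0 fun z hz hq => ?_
        obtain ⟨α, hα⟩ := mem_tot.1 hz
        rcases hK0f _ (hst.inv.diag.q_mem α z hα) hq with h1 | h1
        · exact Or.inl (hlab.forced_up z hz h1)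
        · exact Or.inr (hlab.forced_un z hz h1)
    obtain ⟨P', u, Φ, hI, hconf, hL, hup, hun⟩ := pk_step B hB st.S.F st.S.P {i | r ≤ enc i} st.s
      st.c hst.inv hst.s0 hst.dim i (by simp [hi]) (hst.sep i hi) hloc ((st.s + 1) / 2)
      (by linarith [hst.s1]) (by linarith [hst.s1]) ((1 / 2) ^ (r + 2)) (by positivity)
    refine ⟨⟨⟨Option st.S.ι, st.S.W × ℝ, st.S.F.ext, P'⟩, Φ ∘ st.Z, (st.s + 1) / 2,
      (1 + 3 * ((st.s + 1) / 2 - st.s) / 400) * st.c⟩,
      ⟨?_, ?_, ?_, fun h => absurd h (Nat.succ_ne_zero r),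
        fun _ _ h => absurd h (Nat.succ_ne_zero r), ?_, ?_, ?_, ?_, ?_, ?_⟩, ⟨?_, ?_⟩⟩
    · have : {j : B.J | r + 1 ≤ enc j} = {j | r ≤ enc j} \ {i} := by
        ext j
        simp only [Set.mem_ofPred_eq, Set.mem_sdiff, Set.mem_singleton_iff]
        constructor
        · intro hj
          exact ⟨by omega, fun e => by rw [e, hi] at hj; omega⟩
        · rintro ⟨h1, h2⟩
          have : enc j ≠ r := fun e => h2 (henc (e.trans hi.symm))
          omega
      rw [this]; exact hI
    · exact fun j _ => hconf.sepConf j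
    · exact fun _ => hconf
    · show 0 ≤ (st.s + 1) / 2
      linarith [hst.s0]
    · show (st.s + 1) / 2 < 1
      linarith [hst.s1]
    · intro α' hα'
      show hits α' + 2 ≤ B.n
      have h1 := hst.dim _ (hL.parent α' hα')
      have h2 := hits_le_parent α'
      by_contra hcon
      have h3 : hits α' + 1 = B.n := by omega
      have h4 := pk_dim1 B hB st.S.F.ext P' _ _ _ hI (by linarith [hst.s1]) α' h3
      rw [h4] at hα'
      exact Set.not_nonempty_empty hα'
    · intro x hx
      obtain ⟨α, hα⟩ := mem_tot.1 (hst.mem x hx)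
      exact mem_tot.2 ⟨_, hL.status α _ hα⟩
    · intro X _ φ hφ
      exact hst.cont X (φ ∘ Φ) (hL.pull X φ hφ)
    · intro x hx
      have h1 := hst.disp x hx
      have h2 := hL.disp (st.Z x) (hst.mem x hx)
      obtain ⟨α, hα⟩ := mem_tot.1 (hst.mem x hx)
      have h3 : st.S.F.ext.q (Φ (st.Z x)) ∈ B.M := hI.diag.q_mem _ _ (hL.status α _ hα)
      have h4 := hRd.tri x hx (st.Q x) (hst.Q_mem hx) _ h3
      rw [← hpow]
      show rdist B.M B.g x (st.S.F.ext.q (Φ (st.Z x))) ≤ _
      have h2' : rdist B.M B.g (st.Q x) (st.S.F.ext.q (Φ (st.Z x))) ≤ (1 / 2) ^ (r + 2) := h2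
      linarith
    · rintro x _ k ⟨α, hα, hk⟩
      refine ⟨_, hL.status α _ hα, ?_⟩
      rw [hits_ext]
      omega
    · intro i' hi'
      obtain rfl : i' = i := henc (hi'.trans hi.symm)
      refine ⟨u ∘ st.Z, hst.cont ℝ u hL.u_cc, ?_, ?_, ?_⟩
      · intro x hx hq
        exact hup _ (hst.mem x hx) hq
      · intro x hx hq
        exact hun _ (hst.mem x hx) hq
      · rintro x _ hf k ⟨α, hα, hk⟩
        refine ⟨_, hL.status α _ hα, ?_⟩
        have hf' : u (st.Z x) = 0 := hf
        rw [hits_ext, hf', sign_zero, if_pos rfl]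
        omega
  · have hr' : ∀ i, enc i ≠ r := fun i hi => hr ⟨i, hi⟩
    have hr1 : 1 ≤ r := by
      obtain ⟨j, hj⟩ := h0
      have := hr' j
      omega
    have hconf := hst.conf hr1
    refine ⟨st, ⟨?_, fun j _ => hconf.sepConf j, fun _ => hconf,
      fun h => absurd h (Nat.succ_ne_zero r), fun _ _ h => absurd h (Nat.succ_ne_zero r),
      hst.s0, hst.s1, hst.dim, hst.mem,
      hst.cont, ?_⟩, ⟨fun _ _ _ h => h, ?_⟩⟩
    · have : {j : B.J | r + 1 ≤ enc j} = {j | r ≤ enc j} := by
        ext j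
        simp only [Set.mem_ofPred_eq]
        have := hr' j
        omega
      rw [this]; exact hst.inv
    · intro x hx
      have h1 := hst.disp x hx
      have : (0 : ℝ) < (1 / 2) ^ (r + 2) := by positivity
      linarith
    · intro i hi
      exact absurd hi (hr' i)

/-! ### the output -/

/-- **Output of the packet construction.** -/
theorem pk_cover [FiniteDimensional ℝ V] (C : Cen V) (h : Ten V) (θ : V → ℝ)
    (H : PkInit C h θ) : HasCover (C.n - 1) C.M C.g (4 * C.D + 2) := by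
  classical
  have hB := H.ok
  have hclosed : IsClosed C.M := hB.closed
  have hproper : IsProperOn C.M C.g := hB.proper
  have hRd : IsRd C.M C.g := if_isRd hB.mfd hB.conn hB.met
  have hcnt : Countable (Option C.I) := hB.cnt
  have : Countable C.I := (Option.some_injective C.I).countable
  obtain ⟨enc0, henc0⟩ := exists_injective_nat C.I
  let enc : C.base.J → ℕ := fun j : Option C.I => j.elim 0 (fun i => enc0 i + 1)
  have henc : Function.Injective enc := by
    rintro (_ | i) (_ | j) hij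
    · rfl
    · exact absurd hij (by simp [enc])
    · exact absurd hij (by simp [enc])
    · have h1 : enc0 i + 1 = enc0 j + 1 := hij
      have h2 : i = j := henc0 (by omega)
      exact congrArg some h2
  have hencS : ∀ i j : C.I, enc (some i) = enc (some j) → i = j := fun i j hij =>
    Option.some_injective _ (henc hij)
  have hKloc : ∀ j : C.base.J, enc j ≠ 0 → ∃ K0 : Set V, IsCompact K0 ∧
      ∀ y ∈ C.base.M, y ∉ K0 → y ∈ C.base.inn j ∨ y ∈ C.base.out j := by
    rintro (_ | i) hj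
    · exact absurd rfl hj
    · refine ⟨_, hproper (C.x i) (H.x_mem i) (2 * C.D), fun y hy hyK => Or.inr ?_⟩
      refine ⟨hy, ?_⟩
      by_contra hcon
      exact hyK ⟨hy, (not_le.1 hcon).le⟩
  obtain ⟨st0, hst0⟩ := pk_init_state C h θ H enc henc rfl
  obtain ⟨sq, hsq⟩ := pk_depChoice (fun r st => OSt.Good enc r st)
    (fun r st st' => OSt.Next enc r st st') st0 hst0
    (fun r st hst => pk_next_state C.base hB enc henc ⟨none, rfl⟩ hKloc r st hst)
  have hgood : ∀ r, (sq r).Good enc r := fun r => (hsq r).1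
  have hnext : ∀ r, OSt.Next enc r (sq r) (sq (r + 1)) := fun r => (hsq r).2
  let e : C.I → ℕ := fun i => enc (some i)
  -- wall functions and stage collapses
  have hreal : ∀ i : C.I, ∃ f : V → ℝ, ContinuousOn f C.M ∧
      (∀ x ∈ C.M, (sq (e i)).Q x ∈ C.inn i → 0 < f x) ∧
      (∀ x ∈ C.M, (sq (e i)).Q x ∈ C.out i → f x < 0) ∧
      (∀ x ∈ C.M, f x = 0 → ∀ k, (sq (e i)).HitsGE x k → (sq (e i + 1)).HitsGE x (k + 1)) :=
    fun i => (hnext (e i)).real (some i) rfl
  choose f hfc hfp hfn hfh using hreal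
  let Q : C.I → V → V := fun i => (sq (e i)).Q
  have hQM : ∀ i, ∀ x ∈ C.M, Q i x ∈ C.M := fun i x hx => (hgood (e i)).Q_mem hx
  have hQd : ∀ i, ∀ x ∈ C.M, rdist C.M C.g x (Q i x) ≤ 1 := by
    intro i x hx
    have h1 := (hgood (e i)).disp x hx
    have : (0 : ℝ) < (1 / 2) ^ (e i + 1) := by positivity
    show rdist C.M C.g x ((sq (e i)).Q x) ≤ 1
    have h1' : rdist C.M C.g x ((sq (e i)).Q x) ≤ 1 - (1 / 2) ^ (e i + 1) := h1
    linarith
  let ρ : C.I → V → ℝ := fun i x => rdist C.M C.g (C.x i) (Q i x)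
  have hρc : ∀ i, ContinuousOn (ρ i) C.M := fun i =>
    (hRd.cont (C.x i) (H.x_mem i)).comp (hgood (e i)).Q_cont (fun x hx => hQM i x hx)
  have hO : ∀ i, ∃ O : Set V, IsOpen O ∧ ρ i ⁻¹' (Set.Ioo C.D (2 * C.D)) ∩ C.M = O ∩ C.M :=
    fun i => (continuousOn_iff'.1 (hρc i)) _ isOpen_Ioo
  choose G hGo hGe using hO
  have hGmem : ∀ i, ∀ x ∈ C.M, (x ∈ G i ↔ C.D < ρ i x ∧ ρ i x < 2 * C.D) := by
    intro i x hx
    constructor
    · intro hxG
      have : x ∈ ρ i ⁻¹' (Set.Ioo C.D (2 * C.D)) ∩ C.M := by rw [hGe i]; exact ⟨hxG, hx⟩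
      exact this.1
    · intro hxr
      have : x ∈ G i ∩ C.M := by rw [← hGe i]; exact ⟨hxr, hx⟩
      exact this.1
  let Pp : C.I → Set V := fun i => C.M ∩ f i ⁻¹' (Set.Ici 0)
  let Nn : C.I → Set V := fun i => C.M ∩ f i ⁻¹' (Set.Iic 0)
  -- points of `P i ∪ G i` lie over the outer ball
  have hin : ∀ i, ∀ x ∈ (Pp i ∪ G i) ∩ C.M, ρ i x < 2 * C.D := by
    rintro i x ⟨hx | hx, hxM⟩
    · by_contra hcon
      have : Q i x ∈ C.out i := ⟨hQM i x hxM, not_lt.1 hcon⟩
      have h1 := hfn i x hxM this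
      have h2 : 0 ≤ f i x := hx.2
      linarith
    · exact ((hGmem i x hxM).1 hx).2
  obtain ⟨k, hk⟩ : ∃ k, C.n - 1 = k + 1 := ⟨C.n - 2, by have := H.n4; omega⟩
  rw [hk]
  refine hasCover_of_walls C.M hclosed C.g k (4 * C.D + 2) Pp Nn G ?_ ?_ hGo ?_ ?_ ?_ ?_ ?_ ?_
  · exact fun i => (hfc i).preimage_isClosed_of_isClosed hclosed isClosed_Ici
  · exact fun i => (hfc i).preimage_isClosed_of_isClosed hclosed isClosed_Iic
  · intro i x hx
    rcases le_total 0 (f i x) with h0 | h0
    · exact Or.inl ⟨hx, h0⟩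
    · exact Or.inr ⟨hx, h0⟩
  · rintro i x ⟨⟨hxP, hxN⟩, hxM⟩
    have h0 : f i x = 0 := le_antisymm hxN.2 hxP.2
    rw [hGmem i x hxM]
    constructor
    · by_contra hcon
      have : Q i x ∈ C.inn i := ⟨hQM i x hxM, not_lt.1 hcon⟩
      have := hfp i x hxM this
      linarith
    · by_contra hcon
      have : Q i x ∈ C.out i := ⟨hQM i x hxM, not_lt.1 hcon⟩
      have := hfn i x hxM this
      linarith
  · -- local finiteness
    intro x0 hx0
    have hc := (hRd.cont x0 hx0).continuousWithinAt hx0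
    have h1 : {y | rdist C.M C.g x0 y < 1} ∈ 𝓝[C.M] x0 := by
      apply hc.tendsto.eventually_lt_const
      rw [hRd.self x0 hx0]; exact one_pos
    obtain ⟨U, hU, hUM⟩ := mem_nhdsWithin_iff_exists_mem_nhds_inter.1 h1
    refine ⟨U, hU, (H.locfin _ (hproper x0 hx0 2)).subset ?_⟩
    rintro i ⟨x, hxPG, hxU, hxM⟩
    have h2 : rdist C.M C.g x0 x < 1 := hUM ⟨hxU, hxM⟩
    have h3 := hRd.tri x0 hx0 x hxM (Q i x) (hQM i x hxM)
    have h4 := hQd i x hxM
    refine ⟨Q i x, ⟨⟨hQM i x hxM, by linarith⟩, hQM i x hxM⟩, ?_⟩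
    intro hout
    have := hin i x ⟨hxPG, hxM⟩
    have h5 : 2 * C.D ≤ ρ i x := hout.2
    linarith
  · -- multiplicity
    intro x hx s hs
    have h0 : ∀ i ∈ s, f i x = 0 := fun i hi => le_antisymm (hs i hi).2.2 (hs i hi).1.2
    have key : ∀ R, (sq R).HitsGE x (s.filter (fun i => e i < R)).card := by
      intro R
      induction R with
      | zero =>
        obtain ⟨α, hα⟩ := mem_tot.1 ((hgood 0).mem x hx)
        refine ⟨α, hα, ?_⟩
        simp
      | succ R ih =>
        by_cases hR : ∃ i ∈ s, e i = R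
        · obtain ⟨i, his, rfl⟩ := hR
          have e1 : s.filter (fun j => e j < e i + 1) =
              insert i (s.filter (fun j => e j < e i)) := by
            ext j
            simp only [Finset.mem_filter, Finset.mem_insert]
            constructor
            · rintro ⟨hj, hlt⟩
              rcases Nat.lt_or_ge (e j) (e i) with h | h
              · exact Or.inr ⟨hj, h⟩
              · exact Or.inl (hencS j i (by show e j = e i; omega))
            · rintro (rfl | ⟨hj, hlt⟩)
              · exact ⟨his, by omega⟩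
              · exact ⟨hj, by omega⟩
          rw [e1, Finset.card_insert_of_notMem (by simp)]
          exact hfh i x hx (h0 i his) _ ih
        · have e1 : s.filter (fun j => e j < R + 1) = s.filter (fun j => e j < R) := by
            ext j
            simp only [Finset.mem_filter]
            constructor
            · rintro ⟨hj, hlt⟩
              have : e j ≠ R := fun e => hR ⟨j, hj, e⟩
              exact ⟨hj, by omega⟩
            · rintro ⟨hj, hlt⟩
              exact ⟨hj, by omega⟩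
          rw [e1]
          exact (hnext R).mono x hx _ ih
    obtain ⟨α, hα, hcard⟩ := key (s.sup e + 1)
    have e1 : s.filter (fun i => e i < s.sup e + 1) = s := by
      apply Finset.filter_true_of_mem
      intro i hi
      have := Finset.le_sup (f := e) hi
      omega
    rw [e1] at hcard
    have h2 : hits α + 2 ≤ C.n := (hgood (s.sup e + 1)).dim α ⟨_, hα⟩
    omega
  · -- covering
    intro x hx
    obtain ⟨i, hi⟩ := H.cov x hx
    have h1 := hRd.tri (C.x i) (H.x_mem i) x hx (Q i x) (hQM i x hx)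
    have h2 := hQd i x hx
    have h3 : ρ i x ≤ C.D := by
      show rdist C.M C.g (C.x i) (Q i x) ≤ C.D
      linarith
    refine ⟨i, ⟨hx, (hfp i x hx ⟨hQM i x hx, h3⟩).le⟩, ?_⟩
    intro hxG
    have := ((hGmem i x hx).1 hxG).1
    linarith
  · -- diameter
    intro i x hx x' hx'
    have a1 := hin i x hx
    have a2 := hin i x' hx'
    have hxM := hx.2
    have hxM' := hx'.2
    have t1 := hRd.tri x hxM (Q i x) (hQM i x hxM) x' hxM'
    have t2 := hRd.tri (Q i x) (hQM i x hxM) (C.x i) (H.x_mem i) x' hxM'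
    have t3 := hRd.tri (C.x i) (H.x_mem i) (Q i x') (hQM i x' hxM') x' hxM'
    have s1 := hRd.symm (Q i x) (hQM i x hxM) (C.x i) (H.x_mem i)
    have s2 := hRd.symm (Q i x') (hQM i x' hxM') x' hxM'
    have q1 := hQd i x hxM
    have q2 := hQd i x' hxM'
    have a1' : rdist C.M C.g (C.x i) (Q i x) < 2 * C.D := a1
    have a2' : rdist C.M C.g (C.x i) (Q i x') < 2 * C.D := a2
    linarith

end Claimed.Agent.R315
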