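import Claimed.Agent.R315.Pk.Split
import Claimed.Agent.R315.Pack005

/-!
# Row 315, package B1 (P Lemma B.1, `ct_pressure`), part A: slope calculus and clipping

PROVED (helper29), sorry-free.  PK-PRESS-A (uses only `SlopeLE` (`Pk/Defs.lean`), `rdist` API of
`If/{Curve,Dist,DistTop,Lip}.lean`, `EReal` API of Mathlib).

`SlopeLE X h f z c` : for every `ε > 0` there is `N ∈ 𝓝 z` with
`|f y - f y'| ≤ (c + ε) * rdist X h y y'` for `y y' ∈ N ∩ X`.

PLANS.
* `SlopeLE.congr/neg/min/max`: unfold; `abs_min_sub_min_le_max`, `abs_max_sub_max_le_max`; intersect the two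
  neighbourhoods.
* `pk_slope_of_gradSq`: let `ε > 0`.  `gradSq d X h f` is continuous on `X` (`if_gradSq_smoothAlong`,
  `if_smoothAlong_continuousOn`), so there is an open `O ∋ z` with `gradSq ≤ (c + ε)²` on `X ∩ O`; shrink `O` so that
  `X ∩ O` is preconnected (`pk_exists_conn_nhd`).  By `if_rdist_lower` (`If/DistTop.lean`; apply it on the component
  of `z`, or use `if_exists_sep`) there is `r₀ > 0` such that every admissible curve in `X` which starts
  in a smaller neighbourhood `N₁` of `z` and leaves `O` has length `≥ r₀`.  Choose `N ⊆ N₁` with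
  `|f y - f y'| ≤ (c + ε) r₀` on `N ∩ X` (continuity of `f`; `c + ε > 0`).  For `y y' ∈ N ∩ X` and an admissible curve
  `γ` in `X` from `y` to `y'`: either `γ` stays in `O`, then `|f y - f y'| ≤ (c+ε) len γ` (`if_lip_curve` on `X ∩ O`), or
  `len γ ≥ r₀`.  Conclude with `if_le_rdist` (`y`, `y'` are joined inside `X ∩ O`: `if_join_of_connected`).
* `pkClip_continuous`: `max`, `min`, `EReal.coe` are continuous, the value lies in `[-m, m]`, `EReal.toReal` is
  continuous on finite values (`EReal.continuousOn_toReal`).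
* `pk_clip_slope`: five cases at `x`: `m x < μ x` (then `pkClip = m` near `x` in `X`), `μ x < - m x`, `-m x < μ x < m x`
  (`pkClip = toReal μ` near `x`), `μ x = m x` (`pkClip = min (toReal μ) m` near `x`), `μ x = - m x`
  (`pkClip = max (- m) (toReal μ)` near `x`); `SlopeLE` of `m` from `pk_slope_of_gradSq` with `c = a m²/2`.
-/

set_option autoImplicit false
set_option linter.unusedSectionVars false
open scoped ContDiff Topology
open MeasureTheory Claims.C0499

namespace Claimed.Agent.R315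

variable {W : Type} [NormedAddCommGroup W] [NormedSpace ℝ W]

section slope

variable {X : Set W} {h : Ten W} {f g : W → ℝ} {z : W} {c : ℝ}

theorem SlopeLE.congr (hs : SlopeLE X h f z c) (he : ∃ N ∈ 𝓝 z, ∀ y ∈ N ∩ X, g y = f y) :
    SlopeLE X h g z c := by
  intro ε hε
  obtain ⟨N, hN, hN'⟩ := hs ε hε
  obtain ⟨N₂, hN₂, he⟩ := he
  refine ⟨N ∩ N₂, Filter.inter_mem hN hN₂, fun y hy y' hy' => ?_⟩
  rw [he y ⟨hy.1.2, hy.2⟩, he y' ⟨hy'.1.2, hy'.2⟩]
  exact hN' y ⟨hy.1.1, hy.2⟩ y' ⟨hy'.1.1, hy'.2⟩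

theorem SlopeLE.neg (hs : SlopeLE X h f z c) : SlopeLE X h (fun y => -f y) z c := by
  intro ε hε
  obtain ⟨N, hN, hN'⟩ := hs ε hε
  refine ⟨N, hN, fun y hy y' hy' => ?_⟩
  have := hN' y hy y' hy'
  have e : -f y - -f y' = -(f y - f y') := by ring
  rw [e, abs_neg]
  exact this

theorem SlopeLE.min (hf : SlopeLE X h f z c) (hg : SlopeLE X h g z c) :
    SlopeLE X h (fun y => min (f y) (g y)) z c := by
  intro ε hε
  obtain ⟨N, hN, hN'⟩ := hf ε hε
  obtain ⟨N₂, hN₂, hN₂'⟩ := hg ε hε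
  refine ⟨N ∩ N₂, Filter.inter_mem hN hN₂, fun y hy y' hy' => ?_⟩
  exact (abs_min_sub_min_le_max _ _ _ _).trans (max_le (hN' y ⟨hy.1.1, hy.2⟩ y' ⟨hy'.1.1, hy'.2⟩)
    (hN₂' y ⟨hy.1.2, hy.2⟩ y' ⟨hy'.1.2, hy'.2⟩))

theorem SlopeLE.max (hf : SlopeLE X h f z c) (hg : SlopeLE X h g z c) :
    SlopeLE X h (fun y => max (f y) (g y)) z c := by
  intro ε hε
  obtain ⟨N, hN, hN'⟩ := hf ε hε
  obtain ⟨N₂, hN₂, hN₂'⟩ := hg ε hε
  refine ⟨N ∩ N₂, Filter.inter_mem hN hN₂, fun y hy y' hy' => ?_⟩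
  exact (abs_max_sub_max_le_max _ _ _ _).trans (max_le (hN' y ⟨hy.1.1, hy.2⟩ y' ⟨hy'.1.1, hy'.2⟩)
    (hN₂' y ⟨hy.1.2, hy.2⟩ y' ⟨hy'.1.2, hy'.2⟩))

/-- the slope of a smooth function is its gradient norm. -/
theorem pk_slope_of_gradSq [FiniteDimensional ℝ W] {d : ℕ} (hX : IsMfd d X)
    (hh : IsMetricOn d X h) (hf : SmoothAlong d X f) (hz : z ∈ X) (hc0 : 0 ≤ c)
    (hc : gradSq d X h f z ≤ c ^ 2) : SlopeLE X h f z c := by
  intro ε hε
  have hL : 0 < c + ε := by linarith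
  have hhT : IsTenOn d X h := (if_isMetricOn_iff.1 hh).1
  -- step 1
  have hgc : ContinuousOn (gradSq d X h f) X :=
    if_smoothAlong_continuousOn hX (if_gradSq_smoothAlong hh hf)
  have hlt : gradSq d X h f z < (c + ε) ^ 2 := lt_of_le_of_lt hc (by nlinarith)
  have h1 : ∀ᶠ y in 𝓝[X] z, gradSq d X h f y < (c + ε) ^ 2 :=
    (hgc z hz).eventually (gt_mem_nhds hlt)
  obtain ⟨O₁, hO₁, hzO₁, hO₁g⟩ := mem_nhdsWithin.1 h1
  -- step 2
  obtain ⟨φ, Lφ, hφs, hLφ, hφ1, hφ0, hφg⟩ := if_exists_sep hX hh hz (hO₁.mem_nhds hzO₁)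
  obtain ⟨O₂, hO₂, hzO₂, hpre⟩ := pk_exists_conn_nhd hX hz
  set r₀ : ℝ := 1 / (2 * (Lφ + 1)) with hr₀
  have hr₀pos : 0 < r₀ := by positivity
  have hfc : ContinuousOn f X := if_smoothAlong_continuousOn hX hf
  have h3 : ∀ᶠ y in 𝓝[X] z, |f y - f z| < (c + ε) * r₀ / 2 := by
    have := (hfc z hz).eventually (Metric.ball_mem_nhds (f z) (show 0 < (c + ε) * r₀ / 2 by positivity))
    filter_upwards [this] with y hy
    rwa [Real.dist_eq] at hy
  obtain ⟨O₃, hO₃, hzO₃, hO₃f⟩ := mem_nhdsWithin.1 h3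
  have h4 : ∀ᶠ y in 𝓝 z, 1 / 2 < φ y :=
    hφs.continuous.continuousAt.eventually (lt_mem_nhds (by rw [hφ1]; norm_num))
  refine ⟨(O₂ ∩ O₃) ∩ {y | 1 / 2 < φ y}, Filter.inter_mem (Filter.inter_mem (hO₂.mem_nhds hzO₂)
    (hO₃.mem_nhds hzO₃)) h4, fun y hy y' hy' => ?_⟩
  have hj₂ : if_Join (X ∩ O₂) y y' := if_join_of_connected (if_mfd_inter hX hO₂) hpre
    ⟨hy.2, hy.1.1.1⟩ ⟨hy'.2, hy'.1.1.1⟩
  have hj : if_Join X y y' := by
    obtain ⟨γ, hγ, e0, e1⟩ := hj₂
    exact ⟨γ, ⟨hγ.1, fun t ht => (hγ.2 t ht).1⟩, e0, e1⟩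
  have key : |f y - f y'| / (c + ε) ≤ rdist X h y y' := by
    refine if_le_rdist hj fun γ hγ e0 e1 => ?_
    rw [div_le_iff₀ hL]
    by_cases hst : ∀ t ∈ Set.Icc (0 : ℝ) 1, γ t ∈ O₁
    · have hγ' : if_Adm (X ∩ O₁) γ := ⟨hγ.1, fun t ht => ⟨hγ.2 t ht, hst t ht⟩⟩
      have := if_lip_curve (if_mfd_inter hX hO₁) (if_isMetricOn_inter hh hO₁)
        (if_smoothAlong_inter hf hO₁) hL.le (fun x hx => by
          rw [if_gradSq_inter hX hh hO₁ hf hx]
          exact (hO₁g ⟨hx.2, hx.1⟩).le) hγ'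
      rw [e0, e1, abs_sub_comm] at this
      linarith
    · push Not at hst
      obtain ⟨s, hs, hsO⟩ := hst
      have h5 := if_rdist_add_le_len hX hhT hγ hs
      have hjs : if_Join X (γ 0) (γ s) := by
        refine ⟨γ ∘ if_aff 0 s, if_adm_comp hγ (if_aff_contDiff 0 s) (fun t _ =>
          ⟨(if_aff_mem hs.1 t).1, (if_aff_mem hs.1 t).2.trans hs.2⟩), ?_, ?_⟩
        · rw [Function.comp_apply, if_aff_zero]
        · rw [Function.comp_apply, if_aff_one]
      have h6 := if_lip hX hh (if_smoothAlong_of_contDiff hφs) hLφ hφg hjs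
      rw [hφ0 _ hsO, e0] at h6
      have h7 : 1 / 2 < φ y := hy.1.2
      have h8 : 1 / 2 < |0 - φ y| := by
        rw [zero_sub, abs_neg]
        exact h7.trans_le (le_abs_self _)
      have h9 : 0 ≤ rdist X h (γ s) (γ 1) := if_rdist_nonneg _ _ _ _
      have h9' : 0 ≤ rdist X h y (γ s) := if_rdist_nonneg _ _ _ _
      rw [e0] at h5
      have h10 : r₀ ≤ if_len h γ := by
        rw [hr₀, div_le_iff₀ (by positivity)]
        nlinarith
      have h11 : |f y - f y'| ≤ (c + ε) * r₀ := by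
        have a1 := hO₃f ⟨hy.1.1.2, hy.2⟩
        have a2 := hO₃f ⟨hy'.1.1.2, hy'.2⟩
        change |f y - f z| < _ at a1
        change |f y' - f z| < _ at a2
        have e : f y - f y' = (f y - f z) - (f y' - f z) := by ring
        rw [e]
        exact (abs_sub _ _).trans (by linarith)
      calc |f y - f y'| ≤ (c + ε) * r₀ := h11
        _ ≤ if_len h γ * (c + ε) := by nlinarith
  rw [div_le_iff₀ hL] at key
  linarith

end slope
/-! ### clipping -/

theorem pk_ereal_coe_min (x y : ℝ) : ((min x y : ℝ) : EReal) = min (x : EReal) (y : EReal) :=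
  EReal.coe_strictMono.monotone.map_min

theorem pk_ereal_coe_max (x y : ℝ) : ((max x y : ℝ) : EReal) = max (x : EReal) (y : EReal) :=
  EReal.coe_strictMono.monotone.map_max

/-- `max (-m) (min μ m)` as a real number. -/
noncomputable def pkClip (μ : EReal) (m : ℝ) : ℝ := (max (-(m : EReal)) (min μ (m : EReal))).toReal

theorem pkClip_coe (x m : ℝ) : pkClip (x : EReal) m = max (-m) (min x m) := by
  unfold pkClip
  rw [← pk_ereal_coe_min, ← EReal.coe_neg, ← pk_ereal_coe_max, EReal.toReal_coe]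

theorem pkClip_of_le {μ : EReal} {m : ℝ} (hm : 0 ≤ m) (h : (m : EReal) ≤ μ) : pkClip μ m = m := by
  unfold pkClip
  rw [min_eq_right h, ← EReal.coe_neg, ← pk_ereal_coe_max, EReal.toReal_coe]
  exact max_eq_right (by linarith)

theorem pkClip_of_ge {μ : EReal} {m : ℝ} (h : μ ≤ -(m : EReal)) : pkClip μ m = -m := by
  unfold pkClip
  rw [max_eq_left ((min_le_left _ _).trans h), ← EReal.coe_neg, EReal.toReal_coe]

theorem pkClip_abs_le (μ : EReal) {m : ℝ} (hm : 0 ≤ m) : |pkClip μ m| ≤ m := by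
  induction μ with
  | bot => rw [pkClip_of_ge bot_le, abs_neg, abs_of_nonneg hm]
  | top => rw [pkClip_of_le hm le_top, abs_of_nonneg hm]
  | coe x =>
    rw [pkClip_coe, abs_le]
    exact ⟨le_max_left _ _, max_le (by linarith) (min_le_right _ _)⟩

theorem pkClip_continuous : Continuous fun p : EReal × ℝ => pkClip p.1 p.2 := by
  unfold pkClip
  have h1 : Continuous fun p : EReal × ℝ => max (-(p.2 : EReal)) (min p.1 (p.2 : EReal)) := by
    have hc : Continuous fun p : EReal × ℝ => (p.2 : EReal) :=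
      continuous_coe_real_ereal.comp continuous_snd
    have hn : Continuous fun p : EReal × ℝ => -(p.2 : EReal) := by
      have : Continuous fun p : EReal × ℝ => ((-p.2 : ℝ) : EReal) :=
        continuous_coe_real_ereal.comp continuous_snd.neg
      simpa only [EReal.coe_neg] using this
    exact hn.max (continuous_fst.min hc)
  refine EReal.continuousOn_toReal.comp_continuous h1 fun p => ?_
  have h2 : max (-(p.2 : EReal)) (min p.1 (p.2 : EReal)) ≠ ⊥ := by
    intro h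
    have : -(p.2 : EReal) ≤ ⊥ := h ▸ le_max_left _ _
    rw [← EReal.coe_neg] at this
    exact absurd (le_bot_iff.1 this) (EReal.coe_ne_bot _)
  have h3 : max (-(p.2 : EReal)) (min p.1 (p.2 : EReal)) ≠ ⊤ := by
    intro h
    have h4 : max (-(p.2 : EReal)) (min p.1 (p.2 : EReal)) ≤ max (-(p.2 : EReal)) (p.2 : EReal) :=
      max_le_max le_rfl (min_le_right _ _)
    rw [h, ← EReal.coe_neg, ← pk_ereal_coe_max] at h4
    exact absurd (top_le_iff.1 h4) (EReal.coe_ne_top _)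
  simp [h2, h3]


theorem pk_nhds_of_within {X : Set W} {x : W} {P : W → Prop} (h : ∀ᶠ y in 𝓝[X] x, P y) :
    ∃ N ∈ 𝓝 x, ∀ y ∈ N ∩ X, P y := by
  obtain ⟨N, hN, hs⟩ := mem_nhdsWithin_iff_exists_mem_nhds_inter.1 h
  exact ⟨N, hN, fun y hy => hs hy⟩

/-- **slope of the clipped profile** (P Lemma B.1: `2|∇z| ≤ a z² + Π`). -/
theorem pk_clip_slope [FiniteDimensional ℝ W] {d : ℕ} {X : Set W} {h : Ten W} (hX : IsMfd d X)
    (hh : IsMetricOn d X h) {μ : W → EReal} {m pot : W → ℝ} {a : ℝ} (ha : 0 ≤ a)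
    (hμ : ContinuousOn μ X) (hm : SmoothAlong d X m) (hmpos : ∀ x ∈ X, 0 < m x)
    (hpot : ∀ x ∈ X, 0 ≤ pot x) (hmg : ∀ x ∈ X, gradSq d X h m x ≤ (a * m x ^ 2 / 2) ^ 2)
    (hs : ∀ x ∈ X, μ x ≠ ⊤ → μ x ≠ ⊥ →
      SlopeLE X h (fun y => (μ y).toReal) x ((a * (μ x).toReal ^ 2 + pot x) / 2)) :
    ∀ x ∈ X, SlopeLE X h (fun y => pkClip (μ y) (m y)) x
      ((a * pkClip (μ x) (m x) ^ 2 + pot x) / 2) := by
  intro x hx
  have hmx := hmpos x hx
  have hpx := hpot x hx
  have hmc : ContinuousOn m X := if_smoothAlong_continuousOn hX hm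
  have hmE : Filter.Tendsto (fun y => (m y : EReal)) (𝓝[X] x) (𝓝 (m x : EReal)) :=
    (continuous_coe_real_ereal.tendsto _).comp (hmc x hx)
  have hmN : Filter.Tendsto (fun y => -(m y : EReal)) (𝓝[X] x) (𝓝 (-(m x : EReal))) := by
    have : Filter.Tendsto (fun y => ((-m y : ℝ) : EReal)) (𝓝[X] x) (𝓝 ((-m x : ℝ) : EReal)) :=
      (continuous_coe_real_ereal.tendsto _).comp (hmc x hx).neg
    simpa only [EReal.coe_neg] using this
  have hμx : Filter.Tendsto μ (𝓝[X] x) (𝓝 (μ x)) := hμ x hx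
  have hself : ∀ᶠ y in 𝓝[X] x, y ∈ X := self_mem_nhdsWithin
  have hsm : SlopeLE X h m x (a * m x ^ 2 / 2) :=
    pk_slope_of_gradSq hX hh hm hx (by positivity) (hmg x hx)
  rcases lt_trichotomy (m x : EReal) (μ x) with h1 | h1 | h1
  · -- above
    have hev : ∀ᶠ y in 𝓝[X] x, pkClip (μ y) (m y) = m y := by
      filter_upwards [hmE.eventually_lt hμx h1, hself] with y hy hyX
      exact pkClip_of_le (hmpos y hyX).le hy.le
    rw [pkClip_of_le hmx.le h1.le]
    exact (hsm.mono (by linarith)).congr (pk_nhds_of_within hev)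
  · -- equal to `m`
    have hfin : ∀ᶠ y in 𝓝[X] x, μ y ≠ ⊤ ∧ μ y ≠ ⊥ := by
      have t1 : μ x < ⊤ := h1 ▸ EReal.coe_lt_top _
      have t2 : ⊥ < μ x := h1 ▸ EReal.bot_lt_coe _
      filter_upwards [hμx.eventually (gt_mem_nhds t1), hμx.eventually (lt_mem_nhds t2)] with y a1 a2
      exact ⟨a1.ne, a2.ne'⟩
    have hev : ∀ᶠ y in 𝓝[X] x, pkClip (μ y) (m y) = max (-m y) (min (μ y).toReal (m y)) := by
      filter_upwards [hfin] with y hy
      conv_lhs => rw [← EReal.coe_toReal hy.1 hy.2]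
      exact pkClip_coe _ _
    have h2 := hs x hx (h1 ▸ EReal.coe_ne_top _) (h1 ▸ EReal.coe_ne_bot _)
    rw [pkClip_of_le hmx.le h1.le]
    rw [← h1, EReal.toReal_coe] at h2
    have h3 : SlopeLE X h m x ((a * m x ^ 2 + pot x) / 2) := hsm.mono (by linarith)
    exact (h3.neg.max (h2.min h3)).congr (pk_nhds_of_within hev)
  · rcases lt_trichotomy (μ x) (-(m x : EReal)) with h4 | h4 | h4
    · -- below
      have hev : ∀ᶠ y in 𝓝[X] x, pkClip (μ y) (m y) = -m y := by
        filter_upwards [hμx.eventually_lt hmN h4] with y hy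
        exact pkClip_of_ge hy.le
      rw [pkClip_of_ge h4.le, neg_sq]
      exact (hsm.mono (by linarith)).neg.congr (pk_nhds_of_within hev)
    · -- equal to `- m`
      have h4' : μ x = ((-m x : ℝ) : EReal) := by rw [h4, EReal.coe_neg]
      have hfin : ∀ᶠ y in 𝓝[X] x, μ y ≠ ⊤ ∧ μ y ≠ ⊥ := by
        have t1 : μ x < ⊤ := h4' ▸ EReal.coe_lt_top _
        have t2 : ⊥ < μ x := h4' ▸ EReal.bot_lt_coe _
        filter_upwards [hμx.eventually (gt_mem_nhds t1), hμx.eventually (lt_mem_nhds t2)]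
          with y a1 a2
        exact ⟨a1.ne, a2.ne'⟩
      have hev : ∀ᶠ y in 𝓝[X] x, pkClip (μ y) (m y) = max (-m y) (min (μ y).toReal (m y)) := by
        filter_upwards [hfin] with y hy
        conv_lhs => rw [← EReal.coe_toReal hy.1 hy.2]
        exact pkClip_coe _ _
      have h2 := hs x hx (h4' ▸ EReal.coe_ne_top _) (h4' ▸ EReal.coe_ne_bot _)
      rw [pkClip_of_ge h4.le, neg_sq]
      rw [h4', EReal.toReal_coe, neg_sq] at h2
      have h3 : SlopeLE X h m x ((a * m x ^ 2 + pot x) / 2) := hsm.mono (by linarith)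
      exact (h3.neg.max (h2.min h3)).congr (pk_nhds_of_within hev)
    · -- strictly between
      have t1 : μ x ≠ ⊤ := (h1.trans (EReal.coe_lt_top _)).ne
      have t2 : μ x ≠ ⊥ := by
        rw [← EReal.coe_neg] at h4
        exact ((EReal.bot_lt_coe _).trans h4).ne'
      have hcl : ∀ y, -(m y : EReal) < μ y → μ y < (m y : EReal) →
          pkClip (μ y) (m y) = (μ y).toReal := by
        intro y b1 b2
        unfold pkClip
        rw [min_eq_left b2.le, max_eq_right b1.le]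
      have hev : ∀ᶠ y in 𝓝[X] x, pkClip (μ y) (m y) = (μ y).toReal := by
        filter_upwards [hmN.eventually_lt hμx h4, hμx.eventually_lt hmE h1] with y b1 b2
        exact hcl y b1 b2
      rw [hcl x h4 h1]
      exact (hs x hx t1 t2).congr (pk_nhds_of_within hev)

end Claimed.Agent.R315
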