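import Claimed.Agent.R315.Pk.PressA
import Mathlib.Analysis.Calculus.BumpFunction.SmoothApprox

/-!
# Row 315, package B1 (`ct_pressure`), part C: local smoothing of a Lipschitz function with slope control

PACKAGE PK-PRESS-C: PROVED (helper29), sorry-free.  "If a locally Lipschitz function `z` obeys `|∇z| ≤ F` ...
local convolution in sufficiently small metric charts ... gives a smooth `z₁` with prescribed value error and
`|∇z₁| ≤ F` plus the prescribed error" (P Lemma B.1), LOCAL part.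

PLANS.
* `pk_moll_lip` (Euclidean space, constant form `A`): `N X = √(if_bil A X X)` is a norm-like function
  (`if_bil_cs`, `if_bil_nonneg`), `N X ≤ C ‖X‖`.  `f` is continuous on the ball.  `f₁ = indicator (closedBall u₀ (3r/4)) f`
  (bounded, measurable, compact support => locally integrable), `φ` a `ContDiffBump` at `0` with `rOut = ε < r/4`,
  `g = φ.normed volume ⋆ f₁` (`Mathlib.Analysis.Convolution`, `ContDiffBump.normed`,
  `HasCompactSupport.contDiff_convolution_left`; or `Lib/Gmt/BvMoll.lean`: `gmtMol`).  For `u u' ∈ ball u₀ (r/2)`: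
  `g u - g u' = ∫ φ v (f (u - v) - f (u' - v))`, so `|g u - g u'| ≤ c N (u - u')`; `|g u - f u| ≤ c sup_{‖v‖ ≤ ε} N v ≤ c C ε`.
  Derivative: `fderiv g u X = lim (g (u + s X) - g u)/s`, `|·| ≤ c N X`.
* `pk_slope_chart`: `SlopeLE` at `x₀ = ψ u₀` gives `N₀`; `rdist X h (ψ u)(ψ u') ≤ if_len` of the segment
  (`if_rdist_le'`, `if_adm_of_param`, `if_seg`, `if_speed_param` as in the proof of `if_rdist_le_of_segment`, `If/Dist.lean`)
  `= ∫ √(if_bil (cm h ψ (seg t)) (u'-u)(u'-u)) st'(t) dt ≤ (1 + η) √(if_bil (cm h ψ u₀)(u'-u)(u'-u))` for `u u'` in a small ball: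
  `pk_bil_close`.
* `pk_bil_close`: continuity of `cm h ψ` at `u₀` + positive definiteness of `cm h ψ u₀`
  (`if_bil (G u₀) X X ≥ λ ‖X‖²`, `|if_bil (G u - G u₀) X X| ≤ ‖..‖ ‖X‖²`).
* `pk_local_smoothing`: `ψ`, `u₀`, retraction `ρ` on `O₀` (`if_exists_retr`); `r` from `pk_slope_chart` and `pk_bil_close`;
  `O = O₀ ∩ ρ ⁻¹' ball u₀ (r/2)`; `g = g₀ ∘ ρ`, `g₀` from `pk_moll_lip` for `f ∘ ψ`, `A = cm h ψ u₀`.  On `X ∩ O`: `x = ψ (ρ x)`;
  for `w = fderiv ψ u a` tangent: `fderiv g x w = fderiv g₀ u a` (`ρ ∘ ψ = id` near `u`), `TanAt.exists_param`.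
-/

set_option autoImplicit false
set_option linter.unusedSectionVars false
open scoped ContDiff Topology NNReal Convolution
open MeasureTheory Claims.C0499 Set Function

namespace Claimed.Agent.R315


theorem pk_sqrt_bil_le {d : ℕ} (A : Matrix (Fin d) (Fin d) ℝ) (X : E d) :
    Real.sqrt (if_bil A X X) ≤ Real.sqrt ‖if_bil A‖ * ‖X‖ := by
  have h1 : if_bil A X X ≤ ‖if_bil A‖ * ‖X‖ ^ 2 := by
    have := (if_bil A).le_opNorm₂ X X
    calc if_bil A X X ≤ ‖if_bil A X X‖ := le_abs_self _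
      _ ≤ ‖if_bil A‖ * ‖X‖ * ‖X‖ := this
      _ = _ := by ring
  calc Real.sqrt (if_bil A X X) ≤ Real.sqrt (‖if_bil A‖ * ‖X‖ ^ 2) := Real.sqrt_le_sqrt h1
    _ = _ := by rw [Real.sqrt_mul (norm_nonneg (if_bil A)), Real.sqrt_sq (norm_nonneg X)]

/-- mollification keeps a Lipschitz bound with respect to a constant quadratic form. -/
theorem pk_moll_lip {d : ℕ} {A : Matrix (Fin d) (Fin d) ℝ} (hA : A.PosDef) {u₀ : E d} {r c : ℝ}
    (hr : 0 < r) (hc : 0 ≤ c) {f : E d → ℝ}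
    (hf : ∀ u ∈ Metric.ball u₀ r, ∀ u' ∈ Metric.ball u₀ r,
      |f u - f u'| ≤ c * Real.sqrt (if_bil A (u - u') (u - u'))) {δ : ℝ} (hδ : 0 < δ) :
    ∃ g : E d → ℝ, ContDiff ℝ ∞ g ∧ (∀ u ∈ Metric.ball u₀ (r / 2), |g u - f u| ≤ δ) ∧
      ∀ u ∈ Metric.ball u₀ (r / 2), ∀ X, (fderiv ℝ g u X) ^ 2 ≤ c ^ 2 * if_bil A X X := by
  set N : E d → ℝ := fun X => Real.sqrt (if_bil A X X) with hN
  set C : ℝ := Real.sqrt ‖if_bil A‖ with hC
  have hC0 : 0 ≤ C := Real.sqrt_nonneg _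
  have hNC : ∀ X, N X ≤ C * ‖X‖ := fun X => pk_sqrt_bil_le A X
  have hN0 : ∀ X, 0 ≤ N X := fun X => Real.sqrt_nonneg _
  have hNs : ∀ (s : ℝ) X, N (s • X) = |s| * N X := by
    intro s X
    simp only [hN, map_smul, smul_apply, smul_eq_mul]
    rw [← mul_assoc, Real.sqrt_mul (mul_self_nonneg s), Real.sqrt_mul_self_eq_abs]
  -- global Lipschitz extension
  have hlip : LipschitzOnWith (Real.toNNReal (c * C)) f (Metric.ball u₀ r) := by
    refine LipschitzOnWith.of_dist_le_mul fun u hu u' hu' => ?_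
    rw [Real.dist_eq, Real.coe_toNNReal _ (mul_nonneg hc hC0), dist_eq_norm]
    calc |f u - f u'| ≤ c * N (u - u') := hf u hu u' hu'
      _ ≤ c * (C * ‖u - u'‖) := mul_le_mul_of_nonneg_left (hNC _) hc
      _ = _ := by ring
  obtain ⟨ft, hft, hfeq⟩ := hlip.extend_real
  have hftc : Continuous ft := hft.continuous
  -- the mollifier
  set ρ : ℝ := min (r / 4) (δ / (c * C + 1)) with hρ
  have hcC : 0 < c * C + 1 := by have := mul_nonneg hc hC0; linarith
  have hρ0 : 0 < ρ := lt_min (by linarith) (div_pos hδ hcC)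
  set φ : ContDiffBump (0 : E d) := ⟨ρ / 2, ρ, half_pos hρ0, half_lt_self hρ0⟩ with hφ
  set g : E d → ℝ := (φ.normed volume ⋆[ContinuousLinearMap.lsmul ℝ ℝ, volume] ft) with hg
  have hgs : ContDiff ℝ ∞ g :=
    φ.hasCompactSupport_normed.contDiff_convolution_left _ φ.contDiff_normed
      hftc.locallyIntegrable
  have hgdef : ∀ u, g u = ∫ t, φ.normed volume t * ft (u - t) := fun u => by
    simp only [hg, convolution_def, ContinuousLinearMap.lsmul_apply, smul_eq_mul]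
  have hint : ∀ u, Integrable (fun t => φ.normed volume t * ft (u - t)) volume := fun u =>
    (φ.continuous_normed.mul (hftc.comp (continuous_const.sub continuous_id))).integrable_of_hasCompactSupport
      (φ.hasCompactSupport_normed.mul_right)
  have hsupp : ∀ t, φ.normed volume t ≠ 0 → ‖t‖ < ρ := by
    intro t ht
    have : t ∈ Function.support (φ.normed volume) := ht
    rw [φ.support_normed_eq] at this
    simpa using this
  -- Lipschitz bound for `g`
  have hglip : ∀ u ∈ Metric.ball u₀ (3 * r / 4), ∀ u' ∈ Metric.ball u₀ (3 * r / 4),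
      |g u - g u'| ≤ c * N (u - u') := by
    intro u hu u' hu'
    rw [hgdef, hgdef, ← integral_sub (hint u) (hint u')]
    have hb : ∀ t, ‖φ.normed volume t * ft (u - t) - φ.normed volume t * ft (u' - t)‖ ≤
        φ.normed volume t * (c * N (u - u')) := by
      intro t
      by_cases ht : φ.normed volume t = 0
      · simp [ht]
      · have ht' := hsupp t ht
        have hρr : ρ ≤ r / 4 := min_le_left _ _
        have m1 : u - t ∈ Metric.ball u₀ r := by
          rw [Metric.mem_ball, dist_eq_norm] at hu ⊢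
          calc ‖u - t - u₀‖ = ‖(u - u₀) - t‖ := by congr 1; abel
            _ ≤ ‖u - u₀‖ + ‖t‖ := norm_sub_le _ _
            _ < r := by linarith
        have m2 : u' - t ∈ Metric.ball u₀ r := by
          rw [Metric.mem_ball, dist_eq_norm] at hu' ⊢
          calc ‖u' - t - u₀‖ = ‖(u' - u₀) - t‖ := by congr 1; abel
            _ ≤ ‖u' - u₀‖ + ‖t‖ := norm_sub_le _ _
            _ < r := by linarith
        have h5 := hf _ m1 _ m2
        rw [hfeq m1, hfeq m2, show u - t - (u' - t) = u - u' by abel] at h5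
        rw [← mul_sub, norm_mul, Real.norm_eq_abs, Real.norm_eq_abs,
          abs_of_nonneg (φ.nonneg_normed t)]
        exact mul_le_mul_of_nonneg_left h5 (φ.nonneg_normed t)
    have h6 := norm_integral_le_of_norm_le (φ.integrable_normed.mul_const (c * N (u - u')))
      (Filter.Eventually.of_forall hb)
    rw [integral_mul_const, φ.integral_normed, one_mul, Real.norm_eq_abs] at h6
    exact h6
  refine ⟨g, hgs, fun u hu => ?_, fun u hu X => ?_⟩
  · have hu' : u ∈ Metric.ball u₀ r := Metric.ball_subset_ball (by linarith) hu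
    have h7 := φ.dist_normed_convolution_le (μ := volume) (g := ft) (x₀ := u) (ε := δ)
      hftc.aestronglyMeasurable (fun x hx => by
        have h8 := hft.dist_le_mul x u
        rw [Real.coe_toNNReal _ (mul_nonneg hc hC0)] at h8
        have h9 : dist x u < ρ := hx
        have h10 : ρ ≤ δ / (c * C + 1) := min_le_right _ _
        rw [le_div_iff₀ hcC] at h10
        have h11 : c * C * dist x u ≤ c * C * ρ :=
          mul_le_mul_of_nonneg_left h9.le (mul_nonneg hc hC0)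
        nlinarith)
    rw [Real.dist_eq, ← hfeq hu'] at h7
    exact h7
  · have hd : HasDerivAt (fun s : ℝ => g (u + s • X)) (fderiv ℝ g u X) 0 := by
      have h1 : HasFDerivAt g (fderiv ℝ g u) (u + (0 : ℝ) • X) := by
        rw [zero_smul, add_zero]
        exact (hgs.differentiable (by simp) u).hasFDerivAt
      have h2 : HasDerivAt (fun s : ℝ => u + s • X) X 0 := by
        simpa using ((hasDerivAt_id (0 : ℝ)).smul_const X).const_add u
      exact h1.comp_hasDerivAt 0 h2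
    have hev : ∀ᶠ s : ℝ in 𝓝 0, ‖g (u + s • X) - g (u + (0 : ℝ) • X)‖ ≤ c * N X * ‖s - 0‖ := by
      have hcont : Continuous fun s : ℝ => u + s • X := by fun_prop
      have hopen : (fun s : ℝ => u + s • X) ⁻¹' Metric.ball u₀ (3 * r / 4) ∈ 𝓝 (0 : ℝ) := by
        refine hcont.continuousAt.preimage_mem_nhds (Metric.isOpen_ball.mem_nhds ?_)
        simp only [zero_smul, add_zero]
        exact Metric.ball_subset_ball (by linarith) hu
      filter_upwards [hopen] with s hs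
      have h3 := hglip _ hs u (Metric.ball_subset_ball (by linarith) hu)
      rw [show u + s • X - u = s • X by abel, hNs] at h3
      simp only [zero_smul, add_zero, sub_zero, Real.norm_eq_abs]
      linarith
    have h4 := hd.le_of_lip' (mul_nonneg hc (hN0 X)) hev
    rw [Real.norm_eq_abs] at h4
    have h5 : (fderiv ℝ g u X) ^ 2 ≤ (c * N X) ^ 2 := by
      rw [← sq_abs]
      exact pow_le_pow_left₀ (abs_nonneg _) h4 2
    rw [mul_pow] at h5
    simp only [hN] at h5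
    rwa [Real.sq_sqrt (if_bil_nonneg hA.posSemidef X)] at h5



theorem pk_bil_pos {d : ℕ} {A : Matrix (Fin d) (Fin d) ℝ} (hA : A.PosDef) {X : E d} (hX : X ≠ 0) :
    0 < if_bil A X X := by
  rw [if_bil_eq_dot]
  have hne : (X : Fin d → ℝ) ≠ 0 := by
    intro h0
    apply hX
    ext i
    exact congrFun h0 i
  have := hA.dotProduct_mulVec_pos hne
  rwa [star_trivial] at this

theorem pk_bil_lower {d : ℕ} {A : Matrix (Fin d) (Fin d) ℝ} (hA : A.PosDef) :
    ∃ l : ℝ, 0 < l ∧ ∀ X : E d, l * ‖X‖ ^ 2 ≤ if_bil A X X := by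
  have hcont : Continuous fun X : E d => if_bil A X X :=
    ((if_bil A).continuous.clm_apply continuous_id)
  rcases (Metric.sphere (0 : E d) 1).eq_empty_or_nonempty with he | hne
  · refine ⟨1, one_pos, fun X => ?_⟩
    have hX : X = 0 := by
      by_contra hX
      have : (‖X‖⁻¹ • X) ∈ Metric.sphere (0 : E d) 1 := by
        rw [mem_sphere_zero_iff_norm, norm_smul, norm_inv, norm_norm,
          inv_mul_cancel₀ (norm_ne_zero_iff.2 hX)]
      rw [he] at this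
      exact this
    simp [hX]
  · obtain ⟨Y, hY, hmin⟩ := (isCompact_sphere (0 : E d) 1).exists_isMinOn hne hcont.continuousOn
    have hY0 : Y ≠ 0 := by
      rintro rfl
      simp at hY
    refine ⟨if_bil A Y Y, pk_bil_pos hA hY0, fun X => ?_⟩
    by_cases hX : X = 0
    · simp [hX]
    · have hn : ‖X‖ ≠ 0 := norm_ne_zero_iff.2 hX
      have hmem : (‖X‖⁻¹ • X) ∈ Metric.sphere (0 : E d) 1 := by
        rw [mem_sphere_zero_iff_norm, norm_smul, norm_inv, norm_norm, inv_mul_cancel₀ hn]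
      have h1 : if_bil A Y Y ≤ if_bil A (‖X‖⁻¹ • X) (‖X‖⁻¹ • X) := hmin hmem
      simp only [map_smul, smul_apply, smul_eq_mul] at h1
      have h2 : 0 < ‖X‖ ^ 2 := by positivity
      calc if_bil A Y Y * ‖X‖ ^ 2 ≤ (‖X‖⁻¹ * (‖X‖⁻¹ * if_bil A X X)) * ‖X‖ ^ 2 :=
            mul_le_mul_of_nonneg_right h1 h2.le
        _ = if_bil A X X := by field_simp

variable {W : Type} [NormedAddCommGroup W] [NormedSpace ℝ W] [FiniteDimensional ℝ W]
  {d : ℕ} {X : Set W} {h : Ten W}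

/-- nearby coordinate matrices are comparable. -/
theorem pk_bil_close (hh : IsMetricOn d X h) {ψ : E d → W} {U : Set (E d)} (hp : IsParam X ψ U)
    {u₀ : E d} (hu : u₀ ∈ U) {η : ℝ} (hη : 0 < η) :
    ∃ r > 0, Metric.ball u₀ r ⊆ U ∧ ∀ u ∈ Metric.ball u₀ r, ∀ a : E d,
      if_bil (cm h ψ u) a a ≤ (1 + η) * if_bil (cm h ψ u₀) a a ∧
      if_bil (cm h ψ u₀) a a ≤ (1 + η) * if_bil (cm h ψ u) a a := by
  obtain ⟨l, hl, hlow⟩ := pk_bil_lower ((hh ψ U hp).2 u₀ hu)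
  have hcont : ContinuousAt (fun w => if_bil (cm h ψ w)) u₀ :=
    (if_bil_cm_continuousOn (if_isMetricOn_iff.1 hh).1 hp).continuousAt ((if_open hp).mem_nhds hu)
  set κ : ℝ := l * η / (1 + η) with hκ
  have hκ0 : 0 < κ := by positivity
  obtain ⟨r₁, hr₁, hball₁⟩ := (Metric.continuousAt_iff (α := E d)
    (β := E d →L[ℝ] E d →L[ℝ] ℝ)).1 hcont κ hκ0
  obtain ⟨r₂, hr₂, hball₂⟩ := Metric.isOpen_iff.1 (if_open hp) u₀ hu
  refine ⟨min r₁ r₂, lt_min hr₁ hr₂, (Metric.ball_subset_ball (min_le_right _ _)).trans hball₂,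
    fun u hu' a => ?_⟩
  have h1 : dist u u₀ < r₁ := lt_of_lt_of_le hu' (min_le_left _ _)
  have h2 : ‖if_bil (cm h ψ u) - if_bil (cm h ψ u₀)‖ < κ := by
    have h2' := hball₁ h1
    have e : dist (if_bil (cm h ψ u)) (if_bil (cm h ψ u₀)) =
      ‖if_bil (cm h ψ u) - if_bil (cm h ψ u₀)‖ :=
      dist_eq_norm (if_bil (cm h ψ u)) (if_bil (cm h ψ u₀))
    exact e ▸ h2'
  have h3 : |if_bil (cm h ψ u) a a - if_bil (cm h ψ u₀) a a| ≤ κ * ‖a‖ ^ 2 := by
    have h4 := (if_bil (cm h ψ u) - if_bil (cm h ψ u₀)).le_opNorm₂ a a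
    simp only [sub_apply, Real.norm_eq_abs] at h4
    calc _ ≤ ‖if_bil (cm h ψ u) - if_bil (cm h ψ u₀)‖ * ‖a‖ * ‖a‖ := h4
      _ ≤ κ * ‖a‖ * ‖a‖ := by gcongr
      _ = _ := by ring
  have h5 := hlow a
  have h6 := abs_le.1 h3
  have h7 : κ * ‖a‖ ^ 2 ≤ η / (1 + η) * if_bil (cm h ψ u₀) a a := by
    have : κ * ‖a‖ ^ 2 = η / (1 + η) * (l * ‖a‖ ^ 2) := by rw [hκ]; ring
    rw [this]
    exact mul_le_mul_of_nonneg_left h5 (by positivity)
  have h8 : η / (1 + η) ≤ η := div_le_self hη.le (by linarith)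
  have h9 : 0 ≤ if_bil (cm h ψ u₀) a a := le_trans (by positivity) h5
  constructor
  · have : η / (1 + η) * if_bil (cm h ψ u₀) a a ≤ η * if_bil (cm h ψ u₀) a a :=
      mul_le_mul_of_nonneg_right h8 h9
    linarith [h6.2]
  · -- `B₀ (1 - η/(1+η)) ≤ B`, i.e. `B₀ ≤ (1+η) B`
    have h10 : if_bil (cm h ψ u₀) a a - η / (1 + η) * if_bil (cm h ψ u₀) a a ≤
        if_bil (cm h ψ u) a a := by linarith [h6.1]
    have h11 : if_bil (cm h ψ u₀) a a - η / (1 + η) * if_bil (cm h ψ u₀) a a =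
        if_bil (cm h ψ u₀) a a / (1 + η) := by field_simp; ring
    rw [h11, div_le_iff₀ (by linarith)] at h10
    linarith

/-- anisotropic version of `if_rdist_le_of_segment`. -/
theorem pk_rdist_le_of_segment (hM : IsMfd d X) (hg : IsTenOn d X h) {ψ : E d → W} {U : Set (E d)}
    (hp : IsParam X ψ U) {u u' : E d} {Q : ℝ} (hseg : segment ℝ u u' ⊆ U)
    (hQ : ∀ w ∈ segment ℝ u u', if_bil (cm h ψ w) (u' - u) (u' - u) ≤ Q) :
    rdist X h (ψ u) (ψ u') ≤ Real.sqrt Q := by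
  have hadm := if_adm_of_param hp (if_seg_contDiff u u') fun t => hseg (if_seg_mem u u' t)
  refine (if_rdist_le' hadm h (by rw [comp_apply, if_seg_zero])
    (by rw [comp_apply, if_seg_one])).trans ?_
  have hsp : ∀ t, if_speed h (ψ ∘ if_seg u u') t ≤ Real.sqrt Q * deriv if_st t := by
    intro t
    rw [if_speed_param h hp ((if_seg_contDiff u u').differentiable (by simp) t)
      (hseg (if_seg_mem u u' t)), if_seg_deriv,
      if_speed_smul (fun _ => if_bil (cm h ψ (if_seg u u' t))) (0 : E d) (u' - u)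
        (if_st_deriv_nonneg t)]
    refine mul_le_mul_of_nonneg_right ?_ (if_st_deriv_nonneg t)
    exact Real.sqrt_le_sqrt (hQ _ (if_seg_mem u u' t))
  have hm0 : (0 : ℝ) ∈ Icc (0 : ℝ) 1 := ⟨le_rfl, zero_le_one⟩
  have hm1 : (1 : ℝ) ∈ Icc (0 : ℝ) 1 := ⟨zero_le_one, le_rfl⟩
  calc if_len h (ψ ∘ if_seg u u')
      ≤ ∫ t in (0 : ℝ)..1, Real.sqrt Q * deriv if_st t :=
        intervalIntegral.integral_mono_on zero_le_one
          (if_speed_intervalIntegrable hM hg hadm hm0 hm1)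
          ((if_st_continuous_deriv.intervalIntegrable _ _).const_mul _) fun t _ => hsp t
    _ = Real.sqrt Q := by
        rw [intervalIntegral.integral_const_mul, if_st_integral_deriv, mul_one]

/-- the slope in a chart. -/
theorem pk_slope_chart (hX : IsMfd d X) (hh : IsMetricOn d X h) {ψ : E d → W} {U : Set (E d)}
    (hp : IsParam X ψ U) {u₀ : E d} (hu : u₀ ∈ U) {f : W → ℝ} {c : ℝ} (hc : 0 ≤ c)
    (hs : SlopeLE X h f (ψ u₀) c) {η : ℝ} (hη : 0 < η) :
    ∃ r > 0, Metric.ball u₀ r ⊆ U ∧ ∀ u ∈ Metric.ball u₀ r, ∀ u' ∈ Metric.ball u₀ r,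
      |f (ψ u) - f (ψ u')| ≤ (c + η) * Real.sqrt (if_bil (cm h ψ u₀) (u - u') (u - u')) := by
  set q : ℝ := (c + η) / (c + η / 2) with hq
  have hden : 0 < c + η / 2 := by linarith
  have hq1 : 1 < q := by rw [hq, one_lt_div hden]; linarith
  have hη₁ : 0 < q ^ 2 - 1 := by nlinarith
  obtain ⟨N, hN, hNs⟩ := hs (η / 2) (by linarith)
  obtain ⟨r₂, hr₂, hsub₂, hclose⟩ := pk_bil_close hh hp hu hη₁
  have hψc : ContinuousAt ψ u₀ := (if_differentiableAt hp hu).continuousAt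
  obtain ⟨r₁, hr₁, hball₁⟩ := Metric.mem_nhds_iff.1 (hψc.preimage_mem_nhds hN)
  refine ⟨min r₁ r₂, lt_min hr₁ hr₂, (Metric.ball_subset_ball (min_le_right _ _)).trans hsub₂,
    fun u hu₁ u' hu₂ => ?_⟩
  have hseg : segment ℝ u u' ⊆ Metric.ball u₀ (min r₁ r₂) :=
    (convex_ball u₀ _).segment_subset hu₁ hu₂
  have hseg₂ : segment ℝ u u' ⊆ Metric.ball u₀ r₂ :=
    hseg.trans (Metric.ball_subset_ball (min_le_right _ _))
  have hm : ∀ v ∈ Metric.ball u₀ (min r₁ r₂), ψ v ∈ N ∩ X := fun v hv =>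
    ⟨hball₁ (Metric.ball_subset_ball (min_le_left _ _) hv),
      if_mem hp (hsub₂ (Metric.ball_subset_ball (min_le_right _ _) hv))⟩
  have h1 := hNs _ (hm u hu₁) _ (hm u' hu₂)
  set B₀ : ℝ := if_bil (cm h ψ u₀) (u - u') (u - u') with hB₀
  have hB₀' : if_bil (cm h ψ u₀) (u' - u) (u' - u) = B₀ := by
    rw [hB₀, ← neg_sub u u']
    simp only [map_neg, neg_apply, neg_neg]
  have h2 : rdist X h (ψ u) (ψ u') ≤ Real.sqrt (q ^ 2 * B₀) :=
    pk_rdist_le_of_segment hX (if_isMetricOn_iff.1 hh).1 hp (hseg₂.trans hsub₂) fun w hw => by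
      have := (hclose w (hseg₂ hw) (u' - u)).1
      rw [hB₀'] at this
      linarith
  rw [Real.sqrt_mul (sq_nonneg q), Real.sqrt_sq (by linarith)] at h2
  calc |f (ψ u) - f (ψ u')| ≤ (c + η / 2) * rdist X h (ψ u) (ψ u') := h1
    _ ≤ (c + η / 2) * (q * Real.sqrt B₀) := mul_le_mul_of_nonneg_left h2 hden.le
    _ = (c + η) * Real.sqrt B₀ := by rw [hq]; field_simp


/-- **local smoothing.** -/
theorem pk_local_smoothing (hX : IsMfd d X) (hh : IsMetricOn d X h) {f : W → ℝ} {x₀ : W}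
    (hx : x₀ ∈ X) {c : ℝ} (hc : 0 ≤ c) (hs : SlopeLE X h f x₀ c) {η : ℝ} (hη : 0 < η) :
    ∃ O : Set W, IsOpen O ∧ x₀ ∈ O ∧ ∀ δ : ℝ, 0 < δ → ∃ g : W → ℝ, ContDiffOn ℝ ∞ g O ∧
      (∀ x ∈ X ∩ O, |g x - f x| ≤ δ) ∧
      ∀ x ∈ X ∩ O, ∀ w, TanAt d X x w → (fderiv ℝ g x w) ^ 2 ≤ (c + η) ^ 2 * h x w w := by
  obtain ⟨ψ, U, hp, u₀, hu, rfl⟩ := hX x₀ hx
  set q : ℝ := (c + η) / (c + η / 2) with hq
  have hden : 0 < c + η / 2 := by linarith
  have hq1 : 1 < q := by rw [hq, one_lt_div hden]; linarith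
  have hη₁ : 0 < q ^ 2 - 1 := by nlinarith
  obtain ⟨r₁, hr₁, hsub₁, hlip⟩ := pk_slope_chart hX hh hp hu hc hs (half_pos hη)
  obtain ⟨r₂, hr₂, hsub₂, hclose⟩ := pk_bil_close hh hp hu hη₁
  obtain ⟨ρ, O₀, hO₀, hmem₀, hρ, hmaps, hinv⟩ := if_exists_retr hp hu
  set r : ℝ := min r₁ r₂ with hr
  have hr0 : 0 < r := lt_min hr₁ hr₂
  have hρψ : ∀ v ∈ U, ψ v ∈ O₀ → ρ (ψ v) = v := fun v hv hvO => by
    rw [(hinv _ ⟨if_mem hp hv, hvO⟩).2, if_leftInv hp hv]
  refine ⟨O₀ ∩ ρ ⁻¹' Metric.ball u₀ (r / 2),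
    hρ.continuousOn.isOpen_inter_preimage hO₀ Metric.isOpen_ball, ⟨hmem₀, ?_⟩, fun δ hδ => ?_⟩
  · show ρ (ψ u₀) ∈ Metric.ball u₀ (r / 2)
    rw [hρψ u₀ hu hmem₀]
    exact Metric.mem_ball_self (half_pos hr0)
  obtain ⟨g₀, hg₀s, hg₀v, hg₀d⟩ := pk_moll_lip ((hh ψ U hp).2 u₀ hu) (u₀ := u₀) hr0 hden.le
    (f := f ∘ ψ) (fun u hu₁ u' hu₂ => hlip u (Metric.ball_subset_ball (min_le_left _ _) hu₁) u'
      (Metric.ball_subset_ball (min_le_left _ _) hu₂)) hδ
  have hpt : ∀ x ∈ X ∩ (O₀ ∩ ρ ⁻¹' Metric.ball u₀ (r / 2)),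
      ρ x ∈ U ∧ ψ (ρ x) = x ∧ ρ x ∈ Metric.ball u₀ (r / 2) := by
    rintro x ⟨hxX, hxO, hxb⟩
    obtain ⟨hxi, hxe⟩ := hinv x ⟨hxX, hxO⟩
    exact ⟨hmaps hxO, by rw [hxe]; exact invFunOn_eq hxi, hxb⟩
  refine ⟨g₀ ∘ ρ, hg₀s.comp_contDiffOn (hρ.mono inter_subset_left), fun x hx' => ?_,
    fun x hx' w hw => ?_⟩
  · obtain ⟨_, h2, h3⟩ := hpt x hx'
    have := hg₀v _ h3
    rw [comp_apply, h2] at this
    exact this
  · obtain ⟨h1, h2, h3⟩ := hpt x hx'
    set u := ρ x with hu'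
    obtain ⟨a, ha⟩ := hw.exists_param hp h1 h2
    have hxO : x ∈ O₀ := hx'.2.1
    have hρd : DifferentiableAt ℝ ρ x :=
      (hρ.contDiffAt (hO₀.mem_nhds hxO)).differentiableAt (by simp)
    have hψd : DifferentiableAt ℝ ψ u := if_differentiableAt hp h1
    have hid : (fun v => ρ (ψ v)) =ᶠ[𝓝 u] id := by
      have e1 : ∀ᶠ v in 𝓝 u, v ∈ U := (if_open hp).mem_nhds h1
      have e2 : ∀ᶠ v in 𝓝 u, ψ v ∈ O₀ :=
        hψd.continuousAt.preimage_mem_nhds (hO₀.mem_nhds (by rw [h2]; exact hxO))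
      filter_upwards [e1, e2] with v hv1 hv2
      exact hρψ v hv1 hv2
    have hcomp : fderiv ℝ ρ x (fderiv ℝ ψ u a) = a := by
      have e3 : HasFDerivAt (fun v => ρ (ψ v)) ((fderiv ℝ ρ x).comp (fderiv ℝ ψ u)) u := by
        have : HasFDerivAt ρ (fderiv ℝ ρ x) (ψ u) := by rw [h2]; exact hρd.hasFDerivAt
        exact this.comp u hψd.hasFDerivAt
      have e4 := e3.fderiv
      rw [hid.fderiv_eq, fderiv_id] at e4
      have := congrArg (fun T : E d →L[ℝ] E d => T a) e4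
      simpa using this.symm
    have hchain : fderiv ℝ (g₀ ∘ ρ) x w = fderiv ℝ g₀ u a := by
      rw [fderiv_comp x (hg₀s.differentiable (by simp) _) hρd]
      show fderiv ℝ g₀ (ρ x) (fderiv ℝ ρ x w) = _
      rw [← ha, hcomp]
    rw [hchain]
    have e5 := hg₀d u h3 a
    have e6 := (hclose u (Metric.ball_subset_ball
      ((half_le_self hr0.le).trans (min_le_right _ _)) h3) a).2
    have e7 : if_bil (cm h ψ u) a a = h x w w := by rw [if_cm_bil, h2, ha]
    rw [e7] at e6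
    have e8 : (c + η / 2) ^ 2 * q ^ 2 = (c + η) ^ 2 := by
      rw [hq]; field_simp
    calc (fderiv ℝ g₀ u a) ^ 2 ≤ (c + η / 2) ^ 2 * if_bil (cm h ψ u₀) a a := e5
      _ ≤ (c + η / 2) ^ 2 * ((1 + (q ^ 2 - 1)) * h x w w) :=
        mul_le_mul_of_nonneg_left e6 (sq_nonneg _)
      _ = (c + η) ^ 2 * h x w w := by rw [← e8]; ring

end Claimed.Agent.R315
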