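import Claimed.Agent.R315.Pack005
import Claimed.Agent.R315.Pack002
import Claimed.Agent.R315.Pk.PressC

/-!
# Row 315, package B1 (`ct_pressure`), part B: `q` is Lipschitz; the gradient of a blend

PACKAGE PK-PRESS-B: PROVED (helper29), sorry-free.  Tools: `Pk/Tan.lean` (`TanAt`, `pk_gradSq_le`,
`pk_tan_sq_le`, `IsPMetric.tail_form`, `DThr.tanAt_drop`), `Pk/Thr.lean` (`pkBlend_eqOn`, `pkWt_dropS_mem`,
`Thr.dropS`, `pk_thr_of_local`), `Pk/Geom.lean` (`IsDiag.tail_induction`, `IsDiag.isCompact_trunc`), `Pk/Geo.lean`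
(`pk_t_sq_le`).

PLANS.
* `pk_norm_sq_le_compact`: cover `C` by finitely many `ψ '' closedBall u r`, `closedBall u r ⊆ U`; on a closed ball
  `‖fderiv ψ u‖ ≤ L` and `if_bil (cm h ψ u) a a ≥ λ ‖a‖²`, `λ > 0` (continuity of `cm` + positive definiteness on the
  compact set `closedBall × unit sphere`); `TanAt.exists_param`.
* `pk_q_sq_le`: by `pk_thr_of_local` it is enough to find, for `K` compact, a constant `C ≥ 0`.  Take `T` = threshold
  function for the diagram and for `h`, `R₀ = sup_K T`, `R` from `IsDiag.tail_induction hK R₀`,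
  `Pr z := ∀ α, z ∈ E α → ∀ w, TanAt .. z w → ‖q w‖² ≤ C * h z w w`.  Base: `pk_norm_sq_le_compact` on the finitely many
  truncations, `‖q w‖ ≤ ‖q‖ ‖w‖`.  Step: `q w = q (drop i w)`, `h z w w = h (drop z)(drop w)(drop w) + (t i w)²`.
* `DThr.tanAt_dropS`, `IsPMetric.dropS_le`: induction on `S` as in `DThr.dropS_mem` (`F.dropS_insert`).
* `pkF_fderiv_sq_le`: `pkF_eq`; `d f_i (w) = st'(..)(± t_i w - DT (q w))`, it vanishes unless `T + 1 < |t_i z|`;
  `|t_i w|² ≤ h z w w` (`pk_t_sq_le`), `‖q w‖² ≤ Cq² h z w w`; `|st'| ≤ L₁` (continuous with compact support).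
* `pkWt_fderiv_sq_le`: product rule, all factors in `[0,1]`.
* `pkBlend_gradSq_le`: ambient representatives `u' β` (`if_exists_extension_closed`), `pkBlend_eqOn`, gradSq depends
  only on the values on `E α` (`if_gradSq_eq` in a parametrisation, or `gs_sq_congr` of `Gs/Calc.lean`).  For `w` tangent at `z ∈ E α`:
  `d B (w) = ∑_S d wt_S (w) (u' (dropS z) - f z) + ∑_S wt_S (z) d u' (dropS z)(dropS w)` because `∑_S wt_S = 1` on `W`
  (`pkWt_sum`); `d wt_S (z) = 0` if `wt_S z = 0` (minimum of a nonnegative differentiable function); for active `S`: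
  `|u (dropS z) - f z| ≤ δ (q z)`, `(d u' (dropS z)(dropS w))² ≤ G (dropS z)² h (dropS z)(dropS w)(dropS w) ≤ G z² h z w w`.
  Then `pk_gradSq_le`.
-/

set_option autoImplicit false
set_option linter.unusedSectionVars false
open scoped ContDiff Topology
open MeasureTheory Claims.C0499

namespace Claimed.Agent.R315

variable {V W : Type} [NormedAddCommGroup V] [NormedSpace ℝ V] [NormedAddCommGroup W]
  [NormedSpace ℝ W] {ι : Type}

theorem pk_norm_sq_le_local [FiniteDimensional ℝ W] {d : ℕ} {X : Set W} {h : Ten W}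
    (hX : IsMfd d X) (hh : IsMetricOn d X h) {z₀ : W} (hz₀ : z₀ ∈ X) :
    ∃ N ∈ 𝓝 z₀, ∃ c : ℝ, 0 ≤ c ∧ ∀ z ∈ X ∩ N, ∀ w, TanAt d X z w → ‖w‖ ^ 2 ≤ c * h z w w := by
  obtain ⟨ψ, U, hp, u₀, hu, rfl⟩ := hX z₀ hz₀
  obtain ⟨l, hl, hlow⟩ := pk_bil_lower ((hh ψ U hp).2 u₀ hu)
  obtain ⟨r₁, hr₁, hsub₁, hclose⟩ := pk_bil_close hh hp hu one_pos
  have hcd : ContinuousAt (fun u => ‖fderiv ℝ ψ u‖) u₀ :=
    (((if_smooth hp).continuousOn_fderiv_of_isOpen (if_open hp) (by simp)).continuousAt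
      ((if_open hp).mem_nhds hu)).norm
  have hev : ∀ᶠ u in 𝓝 u₀, ‖fderiv ℝ ψ u‖ < ‖fderiv ℝ ψ u₀‖ + 1 :=
    hcd.eventually (gt_mem_nhds (by linarith))
  obtain ⟨r₂, hr₂, hball₂⟩ := Metric.eventually_nhds_iff_ball.1 hev
  set r := min r₁ r₂ with hr
  have hr0 : 0 < r := lt_min hr₁ hr₂
  have hsub : Metric.ball u₀ r ⊆ U := (Metric.ball_subset_ball (min_le_left _ _)).trans hsub₁
  obtain ⟨O, hO, hOe⟩ := if_image_open hp Metric.isOpen_ball hsub
  have hmem : ψ u₀ ∈ X ∩ O := hOe ▸ Set.mem_image_of_mem ψ (Metric.mem_ball_self hr0)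
  set L := ‖fderiv ℝ ψ u₀‖ + 1 with hL
  have hL0 : 0 ≤ L := by positivity
  refine ⟨O, hO.mem_nhds hmem.2, 2 * L ^ 2 / l, by positivity, fun z hz w hw => ?_⟩
  rw [← hOe] at hz
  obtain ⟨u, hub, rfl⟩ := hz
  obtain ⟨a, rfl⟩ := hw.exists_param hp (hsub hub) rfl
  have h1 : ‖fderiv ℝ ψ u‖ ≤ L := (hball₂ u (Metric.ball_subset_ball (min_le_right _ _) hub)).le
  have h2 := (hclose u (Metric.ball_subset_ball (min_le_left _ _) hub) a).2
  have h3 := hlow a
  rw [if_cm_bil h ψ u] at h2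
  have h4 : ‖fderiv ℝ ψ u a‖ ≤ L * ‖a‖ :=
    ((fderiv ℝ ψ u).le_opNorm a).trans (mul_le_mul_of_nonneg_right h1 (norm_nonneg _))
  have h5 : ‖fderiv ℝ ψ u a‖ ^ 2 ≤ L ^ 2 * ‖a‖ ^ 2 := by
    rw [← mul_pow]; exact pow_le_pow_left₀ (norm_nonneg _) h4 2
  have h6 : ‖a‖ ^ 2 ≤ 2 * h (ψ u) (fderiv ℝ ψ u a) (fderiv ℝ ψ u a) / l := by
    rw [le_div_iff₀ hl]; linarith
  calc ‖fderiv ℝ ψ u a‖ ^ 2 ≤ L ^ 2 * ‖a‖ ^ 2 := h5
    _ ≤ L ^ 2 * (2 * h (ψ u) (fderiv ℝ ψ u a) (fderiv ℝ ψ u a) / l) :=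
      mul_le_mul_of_nonneg_left h6 (sq_nonneg _)
    _ = _ := by ring

/-- on a compact subset of a manifold the metric dominates the ambient norm on tangent vectors. -/
theorem pk_norm_sq_le_compact [FiniteDimensional ℝ W] {d : ℕ} {X : Set W} {h : Ten W}
    (hX : IsMfd d X) (hh : IsMetricOn d X h) {C : Set W} (hC : IsCompact C) (hCX : C ⊆ X) :
    ∃ c : ℝ, 0 ≤ c ∧ ∀ z ∈ C, ∀ w, TanAt d X z w → ‖w‖ ^ 2 ≤ c * h z w w := by
  refine hC.induction_on (p := fun C' => ∃ c : ℝ, 0 ≤ c ∧ ∀ z ∈ C' ∩ X, ∀ w, TanAt d X z w →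
    ‖w‖ ^ 2 ≤ c * h z w w) ?_ ?_ ?_ ?_ |>.imp fun c hc => ⟨hc.1, fun z hz => hc.2 z ⟨hz, hCX hz⟩⟩
  · exact ⟨0, le_rfl, fun z hz => hz.1.elim⟩
  · rintro s t hst ⟨c, hc0, hc⟩
    exact ⟨c, hc0, fun z hz => hc z ⟨hst hz.1, hz.2⟩⟩
  · rintro s t ⟨c, hc0, hc⟩ ⟨c', hc0', hc'⟩
    refine ⟨max c c', hc0.trans (le_max_left _ _), fun z hz w hw => ?_⟩
    have hnn := hw.met_nonneg hh
    rcases hz.1 with h1 | h1
    · exact (hc z ⟨h1, hz.2⟩ w hw).trans (mul_le_mul_of_nonneg_right (le_max_left _ _) hnn)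
    · exact (hc' z ⟨h1, hz.2⟩ w hw).trans (mul_le_mul_of_nonneg_right (le_max_right _ _) hnn)
  · intro z hz
    obtain ⟨N, hN, c, hc0, hc⟩ := pk_norm_sq_le_local hX hh (hCX hz)
    exact ⟨N, mem_nhdsWithin_of_mem_nhds hN, c, hc0, fun y hy => hc y ⟨hy.2, hy.1⟩⟩

variable [Fintype ι] {n : ℕ} {M : Set V} {F : Frame V W ι} {E : Stat ι → Set W} {h : Ten W}
  [FiniteDimensional ℝ V] [FiniteDimensional ℝ W]

theorem pk_q_sq_le_compact (hD : IsDiag n M F E) (hh : IsPMetric n F E h) {K : Set V}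
    (hK : IsCompact K) : ∃ C : ℝ, 0 ≤ C ∧ ∀ α, ∀ z ∈ E α, F.q z ∈ K → ∀ w,
      TanAt (n - hits α) (E α) z w → ‖F.q w‖ ^ 2 ≤ C * h z w w := by
  classical
  obtain ⟨T1, h1s, h10, h1⟩ := hD.exists_thr
  obtain ⟨T2, h2s, h20, h2⟩ := hh.compat.exists_thr
  set T : V → ℝ := fun x => T1 x + T2 x with hTdef
  have hT0 : ∀ x, 0 ≤ T x := fun x => by simp only [hTdef]; linarith [h10 x, h20 x]
  have hTs : ContDiff ℝ ∞ T := h1s.add h2s
  have hTD : DThr F E T := h1.mono fun x => by simp only [hTdef]; linarith [h10 x, h20 x]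
  have hTh : Thr F E h T := h2.mono fun x => by simp only [hTdef]; linarith [h10 x, h20 x]
  obtain ⟨R₀, hR₀⟩ := hK.exists_bound_of_continuousOn hTs.continuous.continuousOn
  obtain ⟨R, hRR, hR0, -, hind⟩ := hD.tail_induction hK R₀
  choose c hc0 hc using fun α => pk_norm_sq_le_compact (hD.mfd α) (hh.met α)
    (hD.isCompact_trunc α hK R) (fun z hz => hz.1)
  set cs : ℝ := ∑ α, c α with hcs
  have hcle : ∀ α, c α ≤ cs := fun α =>
    Finset.single_le_sum (f := c) (fun β _ => hc0 β) (Finset.mem_univ α)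
  have hcs0 : 0 ≤ cs := Finset.sum_nonneg fun β _ => hc0 β
  refine ⟨‖F.q‖ ^ 2 * cs, by positivity, ?_⟩
  have main : ∀ z ∈ tot E, F.q z ∈ K → ∀ α, z ∈ E α → ∀ w, TanAt (n - hits α) (E α) z w →
      ‖F.q w‖ ^ 2 ≤ ‖F.q‖ ^ 2 * cs * h z w w := by
    refine hind (fun z => ∀ α, z ∈ E α → ∀ w, TanAt (n - hits α) (E α) z w →
      ‖F.q w‖ ^ 2 ≤ ‖F.q‖ ^ 2 * cs * h z w w) ?_ ?_
    · intro z _ hq hle α hα w hw
      have hnn := hw.met_nonneg (hh.met α)
      have e1 := hc α z ⟨hα, hq, hle⟩ w hw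
      have e2 : ‖F.q w‖ ^ 2 ≤ ‖F.q‖ ^ 2 * ‖w‖ ^ 2 := by
        rw [← mul_pow]; exact pow_le_pow_left₀ (norm_nonneg _) (F.q.le_opNorm w) 2
      calc ‖F.q w‖ ^ 2 ≤ ‖F.q‖ ^ 2 * ‖w‖ ^ 2 := e2
        _ ≤ ‖F.q‖ ^ 2 * (cs * h z w w) := mul_le_mul_of_nonneg_left
            (e1.trans (mul_le_mul_of_nonneg_right (hcle α) hnn)) (sq_nonneg _)
        _ = _ := by ring
    · intro z _ hq i hi _ hPr α hα w hw
      have hTi : T (F.q z) < |F.t i z| := by
        have := hR₀ _ hq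
        rw [Real.norm_eq_abs] at this
        linarith [le_abs_self (T (F.q z))]
      have hdm := hTD.drop_mem hD hT0 hα hTi
      have hdw := hTD.tanAt_drop hD hT0 hTs.continuous hTi hw
      have e1 := hPr _ hdm _ hdw
      rw [F.q_drop] at e1
      have e2 := hh.tail_form hD hT0 hTD hTh hα hTi w w
      have e3 : h (F.drop i z) (F.drop i w) (F.drop i w) ≤ h z w w := by
        rw [e2]; nlinarith [mul_self_nonneg (F.t i w)]
      exact e1.trans (mul_le_mul_of_nonneg_left e3 (by positivity))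
  exact fun α z hz hq w hw => main z (mem_tot.2 ⟨α, hz⟩) hq α hz w hw

/-- **`q` is Lipschitz** on every `(E α, h)`, with a constant which is a function of `q z`. -/
theorem pk_q_sq_le (hD : IsDiag n M F E) (hh : IsPMetric n F E h) :
    ∃ Cq : V → ℝ, ContDiff ℝ ∞ Cq ∧ (∀ x, 0 ≤ Cq x) ∧ ∀ α, ∀ z ∈ E α, ∀ w,
      TanAt (n - hits α) (E α) z w → ‖F.q w‖ ^ 2 ≤ Cq (F.q z) ^ 2 * h z w w := by
  obtain ⟨Cq, h1, h2, h3⟩ := pk_thr_of_local
    (Pr := fun R x => 0 ≤ R ∧ ∀ α, ∀ z ∈ E α, F.q z = x → ∀ w,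
      TanAt (n - hits α) (E α) z w → ‖F.q w‖ ^ 2 ≤ R ^ 2 * h z w w)
    (fun R R' x hRR hP => ⟨hP.1.trans hRR, fun α z hz hq w hw =>
      (hP.2 α z hz hq w hw).trans (mul_le_mul_of_nonneg_right
        (pow_le_pow_left₀ hP.1 hRR 2) (hw.met_nonneg (hh.met α)))⟩)
    (fun K hK => by
      obtain ⟨C, hC0, hC⟩ := pk_q_sq_le_compact hD hh hK
      refine ⟨Real.sqrt C, fun x hx => ⟨Real.sqrt_nonneg _, fun α z hz hq w hw => ?_⟩⟩
      rw [Real.sq_sqrt hC0]
      exact hC α z hz (hq ▸ hx) w hw)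
  exact ⟨Cq, h1, h2, fun α z hz w hw => (h3 (F.q z)).2 α z hz rfl w hw⟩

/-- gradient of a function of `q z`. -/
theorem pk_gradSq_comp_q (hD : IsDiag n M F E) (hh : IsPMetric n F E h) {Cq : V → ℝ}
    (hCq : ∀ α, ∀ z ∈ E α, ∀ w, TanAt (n - hits α) (E α) z w →
      ‖F.q w‖ ^ 2 ≤ Cq (F.q z) ^ 2 * h z w w)
    {κ : V → ℝ} (hκ : ContDiff ℝ ∞ κ) {α : Stat ι} {z : W} (hz : z ∈ E α) :
    gradSq (n - hits α) (E α) h (fun y => κ (F.q y)) z ≤
      (‖fderiv ℝ κ (F.q z)‖ * Cq (F.q z)) ^ 2 := by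
  have hs : ContDiff ℝ ∞ fun y => κ (F.q y) := hκ.comp F.q.contDiff
  refine pk_gradSq_le (hD.mfd α) (hh.met α) (if_smoothAlong_of_contDiff hs) hz
    (hs.differentiable (by simp) z) (sq_nonneg _) fun w hw => ?_
  have e1 : fderiv ℝ (fun y => κ (F.q y)) z w = fderiv ℝ κ (F.q z) (F.q w) := by
    have := ((hκ.differentiable (by simp) (F.q z)).hasFDerivAt.comp z F.q.hasFDerivAt).fderiv
    have e : fderiv ℝ (fun y => κ (F.q y)) z = (fderiv ℝ κ (F.q z)).comp F.q := this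
    rw [e]; rfl
  rw [e1]
  have e2 : |fderiv ℝ κ (F.q z) (F.q w)| ≤ ‖fderiv ℝ κ (F.q z)‖ * ‖F.q w‖ :=
    (fderiv ℝ κ (F.q z)).le_opNorm _
  calc (fderiv ℝ κ (F.q z) (F.q w)) ^ 2 = |fderiv ℝ κ (F.q z) (F.q w)| ^ 2 := (sq_abs _).symm
    _ ≤ (‖fderiv ℝ κ (F.q z)‖ * ‖F.q w‖) ^ 2 := pow_le_pow_left₀ (abs_nonneg _) e2 2
    _ = ‖fderiv ℝ κ (F.q z)‖ ^ 2 * ‖F.q w‖ ^ 2 := by ring
    _ ≤ ‖fderiv ℝ κ (F.q z)‖ ^ 2 * (Cq (F.q z) ^ 2 * h z w w) :=
      mul_le_mul_of_nonneg_left (hCq α z hz w hw) (sq_nonneg _)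
    _ = _ := by ring

theorem DThr.tanAt_dropS (hD : IsDiag n M F E) {T : V → ℝ} (hT0 : ∀ x, 0 ≤ T x)
    (hTc : Continuous T) (hT : DThr F E T) (S : Finset ι) {α : Stat ι} {z w : W}
    (hS : ∀ i ∈ S, T (F.q z) < |F.t i z|) (hw : TanAt (n - hits α) (E α) z w) :
    TanAt (n - hits (α.faceS S)) (E (α.faceS S)) (F.dropS S z) (F.dropS S w) := by
  classical
  induction S using Finset.induction_on generalizing α z w with
  | empty =>
    rw [F.dropS_empty, F.dropS_empty, Stat.faceS_empty]; exact hw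
  | insert i S hi ih =>
    rw [F.dropS_insert hi, F.dropS_insert hi, ← Stat.faceS_insert]
    refine ih (fun j hj => ?_) (hT.tanAt_drop hD hT0 hTc (hS i (Finset.mem_insert_self i S)) hw)
    have hji : j ≠ i := fun h => hi (h ▸ hj)
    rw [F.q_drop, F.t_drop_ne hji]
    exact hS j (Finset.mem_insert_of_mem hj)

theorem IsPMetric.dropS_le (hD : IsDiag n M F E) (hh : IsPMetric n F E h) {T : V → ℝ}
    (hT0 : ∀ x, 0 ≤ T x) (hT : DThr F E T) (hTh : Thr F E h T) (S : Finset ι) {α : Stat ι}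
    {z : W} (hz : z ∈ E α) (hS : ∀ i ∈ S, T (F.q z) < |F.t i z|) (w : W) :
    h (F.dropS S z) (F.dropS S w) (F.dropS S w) ≤ h z w w := by
  classical
  induction S using Finset.induction_on generalizing α z w with
  | empty =>
    rw [F.dropS_empty, F.dropS_empty]
  | insert i S hi ih =>
    rw [F.dropS_insert hi, F.dropS_insert hi]
    have hi' := hS i (Finset.mem_insert_self i S)
    refine (ih (hT.drop_mem hD hT0 hz hi') (fun j hj => ?_) (F.drop i w)).trans ?_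
    · have hji : j ≠ i := fun h => hi (h ▸ hj)
      rw [F.q_drop, F.t_drop_ne hji]
      exact hS j (Finset.mem_insert_of_mem hj)
    · rw [hh.tail_form hD hT0 hT hTh hz hi' w w]
      nlinarith [mul_self_nonneg (F.t i w)]

/-- the derivative of `Real.smoothTransition` is bounded. -/
theorem pk_deriv_smoothTransition_bdd : ∃ L : ℝ, 0 ≤ L ∧ ∀ x, |deriv Real.smoothTransition x| ≤ L := by
  have hc : Continuous (deriv Real.smoothTransition) :=
    Real.smoothTransition.contDiff.continuous_deriv (n := ∞) (by simp)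
  obtain ⟨L, hL⟩ := (isCompact_Icc (a := (0 : ℝ)) (b := 1)).exists_bound_of_continuousOn
    hc.continuousOn
  refine ⟨max L 0, le_max_right _ _, fun x => ?_⟩
  by_cases hx : x ∈ Set.Icc (0 : ℝ) 1
  · exact (hL x hx).trans (le_max_left _ _)
  · have h0 : deriv Real.smoothTransition x = 0 := by
      rw [Set.mem_Icc, not_and_or, not_le, not_le] at hx
      rcases hx with hx | hx
      · have : Real.smoothTransition =ᶠ[𝓝 x] fun _ => (0 : ℝ) := by
          filter_upwards [Iio_mem_nhds hx] with y hy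
          exact Real.smoothTransition.zero_of_nonpos (le_of_lt hy)
        rw [this.deriv_eq]; simp
      · have : Real.smoothTransition =ᶠ[𝓝 x] fun _ => (1 : ℝ) := by
          filter_upwards [Ioi_mem_nhds hx] with y hy
          exact Real.smoothTransition.one_of_one_le (le_of_lt hy)
        rw [this.deriv_eq]; simp
    rw [h0, abs_zero]
    exact le_max_right _ _

/-- a nonnegative differentiable function has vanishing derivative at its zeros. -/
theorem pk_fderiv_eq_zero_of_nonneg {f : W → ℝ} (h0 : ∀ z, 0 ≤ f z) {z : W} (hz : f z = 0) :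
    fderiv ℝ f z = 0 :=
  IsLocalMin.fderiv_eq_zero (Filter.Eventually.of_forall fun y => by rw [hz]; exact h0 y)

theorem pk_abs_le_of_sq_le' {x C H : ℝ} (hC : 0 ≤ C) (h : x ^ 2 ≤ C ^ 2 * H) :
    |x| ≤ C * Real.sqrt H := by
  have h1 := Real.abs_le_sqrt h
  rwa [Real.sqrt_mul (sq_nonneg C), Real.sqrt_sq hC] at h1

/-- derivative of the cutoffs. -/
theorem pkF_fderiv_sq_le (hD : IsDiag n M F E) (hh : IsPMetric n F E h) {T : V → ℝ}
    (hT0 : ∀ x, 0 ≤ T x) (hTs : ContDiff ℝ ∞ T) (hT : DThr F E T) (hTh : Thr F E h T) :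
    ∃ C : V → ℝ, Continuous C ∧ (∀ x, 0 ≤ C x) ∧ ∀ α, ∀ z ∈ E α, ∀ w,
      TanAt (n - hits α) (E α) z w → ∀ i, (fderiv ℝ (pkF F T i) z w) ^ 2 ≤ C (F.q z) ^ 2 * h z w w := by
  obtain ⟨Cq, hCqs, hCq0, hCq⟩ := pk_q_sq_le hD hh
  obtain ⟨L, hL0, hL⟩ := pk_deriv_smoothTransition_bdd
  have hDTc : Continuous fun x => ‖fderiv ℝ T x‖ := (hTs.continuous_fderiv (by simp)).norm
  refine ⟨fun x => 2 * L * (1 + ‖fderiv ℝ T x‖ * Cq x),
    continuous_const.mul (continuous_const.add (hDTc.mul hCqs.continuous)),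
    fun x => by have := hCq0 x; positivity, fun α z hz w hw i => ?_⟩
  have hnn := hw.met_nonneg (hh.met α)
  by_cases h0 : pkF F T i z = 0
  · rw [pk_fderiv_eq_zero_of_nonneg (pkF_nonneg F T i) h0]
    simp only [zero_apply, ne_eq, OfNat.ofNat_ne_zero, not_false_eq_true, zero_pow]
    positivity
  have hi : T (F.q z) < |F.t i z| := by linarith [pkF_ne_zero F h0]
  have ht := pk_t_sq_le hD hh hT0 hT hTh hz hi hw
  have hq := hCq α z hz w hw
  set R : ℝ := Real.sqrt (h z w w) with hR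
  have hR0 : 0 ≤ R := Real.sqrt_nonneg _
  have ht' : |F.t i w| ≤ R := Real.abs_le_sqrt ht
  have hq' : ‖F.q w‖ ≤ Cq (F.q z) * R := by
    have := pk_abs_le_of_sq_le' (hCq0 (F.q z)) hq
    rwa [abs_of_nonneg (norm_nonneg _)] at this
  set D : V →L[ℝ] ℝ := fderiv ℝ T (F.q z) with hDdef
  have hTd : HasFDerivAt (fun y => T (F.q y)) (D.comp F.q) z :=
    (hTs.differentiable (by simp) (F.q z)).hasFDerivAt.comp z F.q.hasFDerivAt
  have hA : HasFDerivAt (fun y => F.t i y - T (F.q y) - 1) (F.t i - D.comp F.q) z :=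
    ((F.t i).hasFDerivAt.sub hTd).sub_const 1
  have hB : HasFDerivAt (fun y => -F.t i y - T (F.q y) - 1) (-F.t i - D.comp F.q) z :=
    ((F.t i).hasFDerivAt.neg.sub hTd).sub_const 1
  have hst : ∀ x, HasDerivAt Real.smoothTransition (deriv Real.smoothTransition x) x := fun x =>
    (Real.smoothTransition.contDiff.differentiable (n := ∞) (by simp) x).hasDerivAt
  have hsum := ((hst _).comp_hasFDerivAt z hA).add ((hst _).comp_hasFDerivAt z hB)
  have hfun : pkF F T i = fun z => Real.smoothTransition (F.t i z - T (F.q z) - 1) +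
      Real.smoothTransition (-F.t i z - T (F.q z) - 1) := funext (pkF_eq F hT0 i)
  have hfd : fderiv ℝ (pkF F T i) z =
      deriv Real.smoothTransition (F.t i z - T (F.q z) - 1) • (F.t i - D.comp F.q) +
      deriv Real.smoothTransition (-F.t i z - T (F.q z) - 1) • (-F.t i - D.comp F.q) := by
    rw [hfun]; exact hsum.fderiv
  rw [hfd]
  simp only [add_apply, smul_apply, sub_apply, neg_apply, ContinuousLinearMap.comp_apply,
    smul_eq_mul]
  have hDq : |D (F.q w)| ≤ ‖D‖ * (Cq (F.q z) * R) :=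
    (D.le_opNorm _).trans (mul_le_mul_of_nonneg_left hq' (norm_nonneg _))
  set k : ℝ := (1 + ‖D‖ * Cq (F.q z)) * R with hk
  have hk0 : 0 ≤ k := by have := hCq0 (F.q z); positivity
  have b1 : |F.t i w - D (F.q w)| ≤ k := by
    calc _ ≤ |F.t i w| + |D (F.q w)| := abs_sub _ _
      _ ≤ R + ‖D‖ * (Cq (F.q z) * R) := add_le_add ht' hDq
      _ = k := by rw [hk]; ring
  have b2 : |-F.t i w - D (F.q w)| ≤ k := by
    calc _ ≤ |-F.t i w| + |D (F.q w)| := abs_sub _ _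
      _ ≤ R + ‖D‖ * (Cq (F.q z) * R) := by rw [abs_neg]; exact add_le_add ht' hDq
      _ = k := by rw [hk]; ring
  have b3 : |deriv Real.smoothTransition (F.t i z - T (F.q z) - 1) * (F.t i w - D (F.q w)) +
      deriv Real.smoothTransition (-F.t i z - T (F.q z) - 1) * (-F.t i w - D (F.q w))| ≤
      2 * L * (1 + ‖D‖ * Cq (F.q z)) * R := by
    calc _ ≤ |deriv Real.smoothTransition (F.t i z - T (F.q z) - 1) * (F.t i w - D (F.q w))| +
          |deriv Real.smoothTransition (-F.t i z - T (F.q z) - 1) * (-F.t i w - D (F.q w))| :=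
          abs_add_le _ _
      _ ≤ L * k + L * k := by
          rw [abs_mul, abs_mul]
          exact add_le_add (mul_le_mul (hL _) b1 (abs_nonneg _) hL0)
            (mul_le_mul (hL _) b2 (abs_nonneg _) hL0)
      _ = _ := by rw [hk]; ring
  rw [← sq_abs]
  calc _ ≤ (2 * L * (1 + ‖D‖ * Cq (F.q z)) * R) ^ 2 := pow_le_pow_left₀ (abs_nonneg _) b3 2
    _ = _ := by rw [mul_pow, hR, Real.sq_sqrt hnn]

/-- derivative of the weights. -/
theorem pkWt_fderiv_sq_le (hD : IsDiag n M F E) (hh : IsPMetric n F E h) {T : V → ℝ}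
    (hT0 : ∀ x, 0 ≤ T x) (hTs : ContDiff ℝ ∞ T) (hT : DThr F E T) (hTh : Thr F E h T) :
    ∃ C : V → ℝ, Continuous C ∧ (∀ x, 0 ≤ C x) ∧ ∀ α, ∀ z ∈ E α, ∀ w,
      TanAt (n - hits α) (E α) z w → ∀ S, (fderiv ℝ (pkWt F T S) z w) ^ 2 ≤ C (F.q z) ^ 2 * h z w w := by
  classical
  obtain ⟨C, hCc, hC0, hC⟩ := pkF_fderiv_sq_le hD hh hT0 hTs hT hTh
  refine ⟨fun x => (Fintype.card ι : ℝ) * C x, continuous_const.mul hCc,
    fun x => mul_nonneg (Nat.cast_nonneg _) (hC0 x), fun α z hz w hw S => ?_⟩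
  have hnn := hw.met_nonneg (hh.met α)
  set R : ℝ := Real.sqrt (h z w w) with hR
  have hR0 : 0 ≤ R := Real.sqrt_nonneg _
  set φ : ι → W → ℝ := fun i y => if i ∈ S then pkF F T i y else 1 - pkF F T i y with hφ
  have hFd : ∀ i, DifferentiableAt ℝ (pkF F T i) z := fun i =>
    (pkF_contDiff F hT0 hTs i).differentiable (by simp) z
  have hφd : ∀ i, DifferentiableAt ℝ (φ i) z := fun i => by
    by_cases hi : i ∈ S
    · simp only [hφ, if_pos hi]; exact hFd i
    · simp only [hφ, if_neg hi]; exact (differentiableAt_const _).sub (hFd i)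
  have hφ01 : ∀ i, |φ i z| ≤ 1 := fun i => by
    have h1 := pkF_nonneg F T i z
    have h2 := pkF_le_one F T i z
    by_cases hi : i ∈ S
    · simp only [hφ, if_pos hi]; rw [abs_of_nonneg h1]; exact h2
    · simp only [hφ, if_neg hi]; rw [abs_of_nonneg (by linarith)]; linarith
  have hφw : ∀ i, |fderiv ℝ (φ i) z w| ≤ C (F.q z) * R := fun i => by
    have h1 := pk_abs_le_of_sq_le' (hC0 (F.q z)) (hC α z hz w hw i)
    by_cases hi : i ∈ S
    · simp only [hφ, if_pos hi]; exact h1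
    · simp only [hφ, if_neg hi]
      rw [fderiv_const_sub, neg_apply, abs_neg]
      exact h1
  have hfun : pkWt F T S = fun y => ∏ i ∈ Finset.univ, φ i y := by
    funext y; rfl
  rw [hfun, fderiv_finsetProd fun i _ => hφd i]
  simp only [sum_apply, smul_apply, smul_eq_mul]
  have b : |∑ i, (∏ j ∈ Finset.univ.erase i, φ j z) * fderiv ℝ (φ i) z w| ≤
      (Fintype.card ι : ℝ) * C (F.q z) * R := by
    calc _ ≤ ∑ i, |(∏ j ∈ Finset.univ.erase i, φ j z) * fderiv ℝ (φ i) z w| :=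
          Finset.abs_sum_le_sum_abs _ _
      _ ≤ ∑ _i : ι, C (F.q z) * R := by
          refine Finset.sum_le_sum fun i _ => ?_
          rw [abs_mul, Finset.abs_prod]
          calc _ ≤ 1 * (C (F.q z) * R) := by
                refine mul_le_mul ?_ (hφw i) (abs_nonneg _) zero_le_one
                exact Finset.prod_le_one (fun j _ => abs_nonneg _) fun j _ => hφ01 j
            _ = _ := one_mul _
      _ = _ := by rw [Finset.sum_const, Finset.card_univ, nsmul_eq_mul]; ring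
  rw [← sq_abs]
  calc _ ≤ ((Fintype.card ι : ℝ) * C (F.q z) * R) ^ 2 := pow_le_pow_left₀ (abs_nonneg _) b 2
    _ = _ := by rw [mul_pow, hR, Real.sq_sqrt hnn]

omit [Fintype ι] [FiniteDimensional ℝ V] [FiniteDimensional ℝ W] in
/-- `dropS` as a continuous linear map. -/
theorem Frame.hasFDerivAt_dropS (F : Frame V W ι) (S : Finset ι) (z : W) :
    ∃ Lc : W →L[ℝ] W, (∀ w, Lc w = F.dropS S w) ∧ HasFDerivAt (F.dropS S) Lc z := by
  refine ⟨ContinuousLinearMap.id ℝ W - ∑ i ∈ S, (F.t i).smulRight (F.e i), fun w => ?_, ?_⟩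
  · simp [Frame.dropS]
  · have : F.dropS S = fun w => (ContinuousLinearMap.id ℝ W -
        ∑ i ∈ S, (F.t i).smulRight (F.e i)) w := by
      funext w; simp [Frame.dropS]
    rw [this]
    exact ContinuousLinearMap.hasFDerivAt _

/-- **gradient of a blend**: `u` individual smooth approximations of the compatible `f` with error
`δ ∘ q` and gradient bound `G` (compatible): the blend has gradient `≤ G + Cw δ`; `Cw` depends only on the
diagram, the metric and `T`. -/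
theorem pkBlend_gradSq_le (hD : IsDiag n M F E) (hh : IsPMetric n F E h) {T : V → ℝ}
    (hT0 : ∀ x, 0 ≤ T x) (hTs : ContDiff ℝ ∞ T) (hT : DThr F E T) (hTh : Thr F E h T) :
    ∃ Cw : V → ℝ, Continuous Cw ∧ (∀ x, 0 ≤ Cw x) ∧
      ∀ (u f G : W → ℝ) (δ : V → ℝ), (∀ α, SmoothAlong (n - hits α) (E α) u) → Thr F E f T →
        Thr F E G T → (∀ z ∈ tot E, 0 ≤ G z) → (∀ z ∈ tot E, |u z - f z| ≤ δ (F.q z)) →
        (∀ α, ∀ z ∈ E α, gradSq (n - hits α) (E α) h u z ≤ G z ^ 2) →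
        ∀ α, ∀ z ∈ E α, gradSq (n - hits α) (E α) h (pkBlend F T u) z ≤
          (G z + Cw (F.q z) * δ (F.q z)) ^ 2 := by
  classical
  obtain ⟨C, hCc, hC0, hC⟩ := pkWt_fderiv_sq_le hD hh hT0 hTs hT hTh
  set Nn : ℝ := ((Finset.univ : Finset (Finset ι)).card : ℝ) with hNn
  refine ⟨fun x => Nn * C x, continuous_const.mul hCc,
    fun x => mul_nonneg (Nat.cast_nonneg _) (hC0 x), ?_⟩
  intro u f G δ hu hf hG hG0 hud hug α z hz
  have hzt : z ∈ tot E := mem_tot.2 ⟨α, hz⟩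
  choose u' hu's hu'e using fun β => if_exists_extension_closed (hD.mfd β) (hD.closed β) (hu β)
  set Bα : W → ℝ := fun y => ∑ S : Finset ι, pkWt F T S y • u' (α.faceS S) (F.dropS S y) with hBα
  have heq : Set.EqOn (pkBlend F T u) Bα (E α) := pkBlend_eqOn hD hT0 hT hu'e α
  have hBs : ContDiff ℝ ∞ Bα := ContDiff.sum fun S _ => (pkWt_contDiff F hT0 hTs S).smul
    ((hu's _).comp (F.contDiff_dropS S))
  rw [if_gradSq_congr (g' := h) (f' := Bα) Filter.univ_mem (fun _ _ => rfl)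
    (fun y hy => heq hy.1)]
  have hδ0 : 0 ≤ δ (F.q z) := (abs_nonneg _).trans (hud z hzt)
  have hGz := hG0 z hzt
  refine pk_gradSq_le (hD.mfd α) (hh.met α) (if_smoothAlong_of_contDiff hBs) hz
    (hBs.differentiable (by simp) z) (sq_nonneg _) fun w hw => ?_
  have hnn := hw.met_nonneg (hh.met α)
  set R : ℝ := Real.sqrt (h z w w) with hR
  have hR0 : 0 ≤ R := Real.sqrt_nonneg _
  -- derivative of `Bα`
  have hwd : ∀ S, DifferentiableAt ℝ (pkWt F T S) z := fun S =>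
    (pkWt_contDiff F hT0 hTs S).differentiable (by simp) z
  have hcomp : ∀ S, HasFDerivAt (fun y => u' (α.faceS S) (F.dropS S y))
      ((fderiv ℝ (u' (α.faceS S)) (F.dropS S z)).comp (F.hasFDerivAt_dropS S z).choose) z :=
    fun S => ((hu's _).differentiable (by simp) _).hasFDerivAt.comp z
      (F.hasFDerivAt_dropS S z).choose_spec.2
  have hBd : HasFDerivAt Bα (∑ S : Finset ι, (pkWt F T S z •
      ((fderiv ℝ (u' (α.faceS S)) (F.dropS S z)).comp (F.hasFDerivAt_dropS S z).choose) +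
      u' (α.faceS S) (F.dropS S z) • fderiv ℝ (pkWt F T S) z)) z :=
    HasFDerivAt.fun_sum fun S _ => (hwd S).hasFDerivAt.mul (hcomp S)
  have hzero : ∑ S : Finset ι, fderiv ℝ (pkWt F T S) z w = 0 := by
    have h1 : HasFDerivAt (fun y => ∑ S : Finset ι, pkWt F T S y)
        (∑ S : Finset ι, fderiv ℝ (pkWt F T S) z) z :=
      HasFDerivAt.fun_sum fun S _ => (hwd S).hasFDerivAt
    have h2 : (fun y => ∑ S : Finset ι, pkWt F T S y) = fun _ => (1 : ℝ) :=
      funext fun y => pkWt_sum F T y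
    rw [h2] at h1
    have h3 := h1.unique (hasFDerivAt_const (1 : ℝ) z)
    have := congrArg (fun L : W →L[ℝ] ℝ => L w) h3
    simpa using this
  have hform : fderiv ℝ Bα z w = ∑ S : Finset ι, pkWt F T S z *
        fderiv ℝ (u' (α.faceS S)) (F.dropS S z) (F.dropS S w) +
      ∑ S : Finset ι, fderiv ℝ (pkWt F T S) z w * (u' (α.faceS S) (F.dropS S z) - f z) := by
    rw [hBd.fderiv]
    simp only [sum_apply, add_apply, smul_apply, smul_eq_mul, ContinuousLinearMap.comp_apply,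
      (F.hasFDerivAt_dropS _ z).choose_spec.1, Finset.sum_add_distrib, mul_sub,
      Finset.sum_sub_distrib, ← Finset.sum_mul, hzero, zero_mul, sub_zero]
    congr 1
    exact Finset.sum_congr rfl fun S _ => mul_comm _ _
  -- active indices
  have hact : ∀ S, pkWt F T S z ≠ 0 → (∀ i ∈ S, T (F.q z) < |F.t i z|) := fun S hS i hi => by
    linarith [(pkWt_ne_zero F hS).1 i hi]
  have b1 : ∀ S, pkWt F T S z * |fderiv ℝ (u' (α.faceS S)) (F.dropS S z) (F.dropS S w)| ≤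
      pkWt F T S z * (G z * R) := by
    intro S
    by_cases hS : pkWt F T S z = 0
    · rw [hS, zero_mul, zero_mul]
    refine mul_le_mul_of_nonneg_left ?_ (pkWt_nonneg F T S z)
    have hm := pkWt_dropS_mem hD hT0 hT hz hS
    have htan := hT.tanAt_dropS hD hT0 hTs.continuous S (hact S hS) hw
    have e1 := pk_tan_sq_le (hh.met _) (if_smoothAlong_of_contDiff (hu's (α.faceS S)))
      ((hu's (α.faceS S)).differentiable (by simp) _) htan
    rw [if_gradSq_congr (g' := h) (f' := u) Filter.univ_mem (fun _ _ => rfl)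
      (fun y hy => hu'e _ hy.1)] at e1
    have e2 := hug _ _ hm
    rw [hG.dropS hD hT0 hT S hzt (hact S hS)] at e2
    have e3 := hh.dropS_le hD hT0 hT hTh S hz (hact S hS) w
    have e4 := htan.met_nonneg (hh.met _)
    have e5 : (fderiv ℝ (u' (α.faceS S)) (F.dropS S z) (F.dropS S w)) ^ 2 ≤
        G z ^ 2 * h z w w :=
      e1.trans (mul_le_mul e2 e3 e4 (sq_nonneg _))
    exact pk_abs_le_of_sq_le' hGz e5
  have b2 : ∀ S, |fderiv ℝ (pkWt F T S) z w * (u' (α.faceS S) (F.dropS S z) - f z)| ≤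
      C (F.q z) * R * δ (F.q z) := by
    intro S
    by_cases hS : pkWt F T S z = 0
    · rw [pk_fderiv_eq_zero_of_nonneg (pkWt_nonneg F T S) hS]
      simp only [zero_apply, zero_mul, abs_zero]
      exact mul_nonneg (mul_nonneg (hC0 _) hR0) hδ0
    have hm := pkWt_dropS_mem hD hT0 hT hz hS
    have e1 := hud _ (mem_tot.2 ⟨_, hm⟩)
    rw [F.q_dropS, hf.dropS hD hT0 hT S hzt (hact S hS), ← hu'e _ hm] at e1
    rw [abs_mul]
    exact mul_le_mul (pk_abs_le_of_sq_le' (hC0 _) (hC α z hz w hw S)) e1 (abs_nonneg _)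
      (mul_nonneg (hC0 _) hR0)
  have b3 : |fderiv ℝ Bα z w| ≤ (G z + Nn * C (F.q z) * δ (F.q z)) * R := by
    rw [hform]
    calc _ ≤ |∑ S : Finset ι, pkWt F T S z *
            fderiv ℝ (u' (α.faceS S)) (F.dropS S z) (F.dropS S w)| +
          |∑ S : Finset ι, fderiv ℝ (pkWt F T S) z w * (u' (α.faceS S) (F.dropS S z) - f z)| :=
          abs_add_le _ _
      _ ≤ ∑ S : Finset ι, pkWt F T S z * (G z * R) +
          ∑ _S : Finset ι, C (F.q z) * R * δ (F.q z) := by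
          refine add_le_add ((Finset.abs_sum_le_sum_abs _ _).trans
            (Finset.sum_le_sum fun S _ => ?_)) ((Finset.abs_sum_le_sum_abs _ _).trans
            (Finset.sum_le_sum fun S _ => b2 S))
          rw [abs_mul, abs_of_nonneg (pkWt_nonneg F T S z)]
          exact b1 S
      _ = _ := by
          rw [← Finset.sum_mul, pkWt_sum, one_mul, Finset.sum_const, nsmul_eq_mul, ← hNn]
          ring
  rw [← sq_abs]
  calc _ ≤ ((G z + Nn * C (F.q z) * δ (F.q z)) * R) ^ 2 := pow_le_pow_left₀ (abs_nonneg _) b3 2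
    _ = _ := by rw [mul_pow, hR, Real.sq_sqrt hnn]

end Claimed.Agent.R315
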