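import Claimed.Agent.R315.Pk.PressB
import Claimed.Agent.R315.Pk.PressC

/-!
# Row 315, package B1 (`ct_pressure`), part D: global smoothing on one manifold

PACKAGE PK-PRESS-D: PROVED (helper29), sorry-free (uses `pk_norm_sq_le_compact` of PressB).

PLAN of `pk_smoothing`.  For `x ∈ X` put `η x = ε x / 4`; by `pk_local_smoothing` (with `c = Fb x`) and continuity of `Fb`, `ε`
on `X` choose a BOUNDED open `O x ∋ x` with: local approximations exist on `O x` with gradient bound `Fb x + ε x / 4`, and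
`Fb x ≤ Fb y + ε y / 8`, `ε x ≤ 2 ε y`... precisely `Fb x + ε x / 4 ≤ Fb y + ε y / 2` for `y ∈ X ∩ O x`.
`if_exists_pou (fun x : X => O x)`: countable `κ`, `k : κ → X`, `χ a` smooth with compact support in `O (k a)`, locally finite on
`Ω = ⋃ O x ⊇ X`, `∑ᶠ χ a = 1` on `Ω`.  `pk_cutoff_bound`: `A a` with `(d χ_a w)² ≤ A a² h y w w` on `X`.
`m a > 0` a lower bound of `ε` on the compact set `X ∩ tsupport (χ a)` (`X` closed).  `enc : κ → ℕ` injective.
`δ a = m a * 2^{-(enc a + 2)} / (1 + A a)`; `g a` from `pk_local_smoothing`.  `g = ∑ᶠ a, χ a • g a` (`if_glue`: `ContDiffAt` on `Ω`;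
`if_smoothAlong_of_near`).  At `y ∈ X`, in a neighbourhood the sum is finite (`pk_glue_fderiv`):
`g y - f y = ∑ χ a y (g a y - f y)`, `|..| ≤ sup δ a ≤ ε y / 4`;
`d g (w) = ∑ χ a y d g_a (w) + ∑ d χ_a (w) (g a y - f y)` for tangent `w` (the derivative of `∑ χ a = 1` on `Ω` vanishes),
`|d g (w)| ≤ (Fb y + ε y / 2) |w| + ∑ A a δ a |w| ≤ (Fb y + ε y) |w|`, since `∑_a 2^{-(enc a + 2)} ≤ 1/2` (`tsum_geometric_two`,
injectivity).  Then `pk_gradSq_le`.
-/

set_option autoImplicit false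
set_option linter.unusedSectionVars false
open scoped ContDiff Topology
open MeasureTheory Claims.C0499

namespace Claimed.Agent.R315

variable {W : Type} [NormedAddCommGroup W] [NormedSpace ℝ W] [FiniteDimensional ℝ W]
  {d : ℕ} {X : Set W} {h : Ten W}

theorem pk_fderiv_eq_zero_of_notMem_tsupport {χ : W → ℝ} {y : W} (hy : y ∉ tsupport χ) :
    fderiv ℝ χ y = 0 := by
  have h1 : χ =ᶠ[𝓝 y] fun _ => (0 : ℝ) := by
    filter_upwards [(isClosed_tsupport χ).isOpen_compl.mem_nhds hy] with z hz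
    exact image_eq_zero_of_notMem_tsupport hz
  rw [h1.fderiv_eq]
  simp

/-- a compactly supported smooth function has bounded gradient along a closed manifold. -/
theorem pk_cutoff_bound (hX : IsMfd d X) (hXc : IsClosed X) (hh : IsMetricOn d X h) {χ : W → ℝ}
    (hχ : ContDiff ℝ ∞ χ) (hs : HasCompactSupport χ) :
    ∃ A : ℝ, 0 ≤ A ∧ ∀ y ∈ X, ∀ w, TanAt d X y w → (fderiv ℝ χ y w) ^ 2 ≤ A ^ 2 * h y w w := by
  have hC : IsCompact (X ∩ tsupport χ) := hs.isCompact.inter_left hXc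
  obtain ⟨c, hc0, hc⟩ := pk_norm_sq_le_compact hX hh hC Set.inter_subset_left
  have hcont : Continuous fun y => ‖fderiv ℝ χ y‖ := (hχ.continuous_fderiv (by simp)).norm
  obtain ⟨B, hB⟩ := hs.isCompact.exists_bound_of_continuousOn hcont.continuousOn
  have hB0 : 0 ≤ max B 0 := le_max_right _ _
  refine ⟨max B 0 * Real.sqrt c, mul_nonneg hB0 (Real.sqrt_nonneg _), fun y hy w hw => ?_⟩
  have hnn := hw.met_nonneg hh
  by_cases hyt : y ∈ tsupport χ
  · have h1 : ‖fderiv ℝ χ y‖ ≤ max B 0 := by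
      have := hB y hyt
      rw [norm_norm] at this
      exact this.trans (le_max_left _ _)
    have h2 := hc y ⟨hy, hyt⟩ w hw
    have h3 : |fderiv ℝ χ y w| ≤ max B 0 * ‖w‖ :=
      ((fderiv ℝ χ y).le_opNorm w).trans (mul_le_mul_of_nonneg_right h1 (norm_nonneg _))
    calc (fderiv ℝ χ y w) ^ 2 = |fderiv ℝ χ y w| ^ 2 := (sq_abs _).symm
      _ ≤ (max B 0 * ‖w‖) ^ 2 := pow_le_pow_left₀ (abs_nonneg _) h3 2
      _ = (max B 0) ^ 2 * ‖w‖ ^ 2 := by ring
      _ ≤ (max B 0) ^ 2 * (c * h y w w) := mul_le_mul_of_nonneg_left h2 (sq_nonneg _)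
      _ = (max B 0 * Real.sqrt c) ^ 2 * h y w w := by
        rw [mul_pow, Real.sq_sqrt hc0]; ring
  · rw [pk_fderiv_eq_zero_of_notMem_tsupport hyt]
    simp only [zero_apply, ne_eq, OfNat.ofNat_ne_zero, not_false_eq_true, zero_pow]
    positivity

/-- value and derivative of a locally finite glued function. -/
theorem pk_glue_fderiv {κ : Type} {Ω : Set W} (hΩ : IsOpen Ω) (O : κ → Set W)
    (hO : ∀ a, IsOpen (O a)) (g : κ → W → ℝ) (hg : ∀ a, ContDiffOn ℝ ∞ (g a) (O a))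
    (χ : κ → W → ℝ) (hχ : ∀ a, ContDiff ℝ ∞ (χ a)) (hsub : ∀ a, tsupport (χ a) ⊆ O a)
    (hlf : ∀ x ∈ Ω, ∃ N ∈ 𝓝 x, {a | (Function.support (χ a) ∩ N).Nonempty}.Finite)
    (hone : ∀ x ∈ Ω, ∑ᶠ a, χ a x = 1) {y : W} (hy : y ∈ Ω) (c : ℝ) :
    ∃ s : Finset κ, (∀ a, a ∉ s → χ a y = 0) ∧ (∀ a ∈ s, y ∈ tsupport (χ a)) ∧
      ∑ a ∈ s, χ a y = 1 ∧
      (∑ᶠ a, χ a y * g a y) = ∑ a ∈ s, χ a y * g a y ∧
      DifferentiableAt ℝ (fun x => ∑ᶠ a, χ a x * g a x) y ∧
      ∀ w, fderiv ℝ (fun x => ∑ᶠ a, χ a x * g a x) y w =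
        ∑ a ∈ s, χ a y * fderiv ℝ (g a) y w + ∑ a ∈ s, fderiv ℝ (χ a) y w * (g a y - c) := by
  classical
  obtain ⟨N, hN, hfin⟩ := hlf y hy
  set S₀ : Finset κ := hfin.toFinset with hS₀
  set s : Finset κ := S₀.filter fun a => y ∈ tsupport (χ a) with hs
  -- near `y` only the indices of `s` matter
  have hnear : ∀ᶠ x in 𝓝 y, ∀ a, a ∉ s → χ a x = 0 := by
    have h1 : ∀ᶠ x in 𝓝 y, ∀ a ∈ S₀, y ∉ tsupport (χ a) → x ∉ tsupport (χ a) := by
      rw [Filter.eventually_all_finset]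
      intro a _
      by_cases hya : y ∈ tsupport (χ a)
      · exact Filter.Eventually.of_forall fun x hc => absurd hya hc
      · filter_upwards [(isClosed_tsupport (χ a)).isOpen_compl.mem_nhds hya] with x hx _
        exact hx
    filter_upwards [h1, hN] with x hx hxN a ha
    by_contra hne
    have haS : a ∈ S₀ := by
      rw [hS₀, Set.Finite.mem_toFinset]
      exact ⟨x, hne, hxN⟩
    have hya : y ∉ tsupport (χ a) := fun hc => ha (Finset.mem_filter.2 ⟨haS, hc⟩)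
    exact hx a haS hya (subset_tsupport _ hne)
  have hsum : ∀ (G : κ → W → ℝ), ∀ᶠ x in 𝓝 y, ∑ᶠ a, χ a x * G a x = ∑ a ∈ s, χ a x * G a x := by
    intro G
    filter_upwards [hnear] with x hx
    refine finsum_eq_sum_of_support_subset _ fun a ha => ?_
    by_contra hc
    exact ha (by
      show χ a x * G a x = 0
      rw [hx a (fun h => hc (Finset.mem_coe.2 h)), zero_mul])
  have hsum1 : ∀ᶠ x in 𝓝 y, ∑ a ∈ s, χ a x = 1 := by
    filter_upwards [hsum (fun _ _ => 1), hΩ.mem_nhds hy] with x hx hxΩ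
    simp only [mul_one] at hx
    rw [← hx, hone x hxΩ]
  have hgd : ∀ a ∈ s, DifferentiableAt ℝ (g a) y := fun a ha =>
    ((hg a).contDiffAt ((hO a).mem_nhds (hsub a (Finset.mem_filter.1 ha).2))).differentiableAt
      (by simp)
  have hχd : ∀ a, DifferentiableAt ℝ (χ a) y := fun a => (hχ a).differentiable (by simp) y
  have hF : HasFDerivAt (fun x => ∑ a ∈ s, χ a x * g a x)
      (∑ a ∈ s, (χ a y • fderiv ℝ (g a) y + g a y • fderiv ℝ (χ a) y)) y :=
    HasFDerivAt.fun_sum fun a ha => (hχd a).hasFDerivAt.mul (hgd a ha).hasFDerivAt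
  have hF' : HasFDerivAt (fun x => ∑ᶠ a, χ a x * g a x)
      (∑ a ∈ s, (χ a y • fderiv ℝ (g a) y + g a y • fderiv ℝ (χ a) y)) y :=
    hF.congr_of_eventuallyEq (hsum g)
  have h1' : HasFDerivAt (fun x => ∑ a ∈ s, χ a x) (∑ a ∈ s, fderiv ℝ (χ a) y) y :=
    HasFDerivAt.fun_sum fun a _ => (hχd a).hasFDerivAt
  have hzero : ∑ a ∈ s, fderiv ℝ (χ a) y = 0 := by
    have h2 : (fun x => ∑ a ∈ s, χ a x) =ᶠ[𝓝 y] fun _ => (1 : ℝ) := hsum1
    have h3 := h1'.fderiv
    rw [h2.fderiv_eq] at h3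
    simpa using h3.symm
  refine ⟨s, fun a ha => hnear.self_of_nhds a ha, fun a ha => (Finset.mem_filter.1 ha).2,
    hsum1.self_of_nhds, (hsum g).self_of_nhds, hF'.differentiableAt, fun w => ?_⟩
  rw [hF'.fderiv]
  have h4 : ∑ a ∈ s, fderiv ℝ (χ a) y w = 0 := by
    have := congrArg (fun T : W →L[ℝ] ℝ => T w) hzero
    simpa using this
  simp only [sum_apply, add_apply, smul_apply, smul_eq_mul, Finset.sum_add_distrib, mul_sub,
    Finset.sum_sub_distrib, ← Finset.sum_mul, h4, zero_mul, sub_zero]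
  congr 1
  exact Finset.sum_congr rfl fun a _ => mul_comm _ _

theorem pk_abs_le_of_sq_le {x C H : ℝ} (hC : 0 ≤ C) (h : x ^ 2 ≤ C ^ 2 * H) :
    |x| ≤ C * Real.sqrt H := by
  have h1 := Real.abs_le_sqrt h
  rwa [Real.sqrt_mul (sq_nonneg C), Real.sqrt_sq hC] at h1

theorem pk_sum_geom_le {κ : Type} {enc : κ → ℕ} (henc : Function.Injective enc) (s : Finset κ) :
    ∑ a ∈ s, ((1 : ℝ) / 2) ^ (enc a + 2) ≤ 1 / 2 := by
  have h1 : ∑ a ∈ s, ((1 : ℝ) / 2) ^ (enc a) ≤ 2 := by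
    rw [← Finset.sum_image (f := fun n : ℕ => ((1 : ℝ) / 2) ^ n) (fun a _ b _ hab => henc hab)]
    calc _ ≤ ∑' n : ℕ, ((1 : ℝ) / 2) ^ n :=
          summable_geometric_two.sum_le_tsum _ (fun n _ => by positivity)
      _ = 2 := tsum_geometric_two
  have h2 : ∑ a ∈ s, ((1 : ℝ) / 2) ^ (enc a + 2) = (1 / 4) * ∑ a ∈ s, ((1 : ℝ) / 2) ^ (enc a) := by
    rw [Finset.mul_sum]
    refine Finset.sum_congr rfl fun a _ => ?_
    rw [pow_add]; ring
  rw [h2]
  linarith

/-- **Smoothing of a Lipschitz function with slope control** (P Lemma B.1, "quantitative smoothing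
fact"). -/
theorem pk_smoothing (hX : IsMfd d X) (hXc : IsClosed X) (hh : IsMetricOn d X h)
    {f Fb ε : W → ℝ} (hFc : ContinuousOn Fb X) (hF0 : ∀ x ∈ X, 0 ≤ Fb x) (hεc : ContinuousOn ε X)
    (hε : ∀ x ∈ X, 0 < ε x) (hs : ∀ x ∈ X, SlopeLE X h f x (Fb x)) :
    ∃ g : W → ℝ, SmoothAlong d X g ∧ (∀ x ∈ X, |g x - f x| ≤ ε x) ∧
      ∀ x ∈ X, gradSq d X h g x ≤ (Fb x + ε x) ^ 2 := by
  classical
  have hloc : ∀ x : X, ∃ O : Set W, IsOpen O ∧ (x : W) ∈ O ∧
      (∀ y ∈ X ∩ O, Fb x + ε x / 4 ≤ Fb y + ε y / 2) ∧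
      ∀ δ : ℝ, 0 < δ → ∃ g : W → ℝ, ContDiffOn ℝ ∞ g O ∧ (∀ y ∈ X ∩ O, |g y - f y| ≤ δ) ∧
        ∀ y ∈ X ∩ O, ∀ w, TanAt d X y w →
          (fderiv ℝ g y w) ^ 2 ≤ (Fb x + ε x / 4) ^ 2 * h y w w := by
    rintro ⟨x, hx⟩
    have hεx := hε x hx
    obtain ⟨O₁, hO₁, hxO₁, hsm⟩ := pk_local_smoothing hX hh hx (hF0 x hx) (hs x hx)
      (η := ε x / 4) (by linarith)
    have hc : ContinuousWithinAt (fun y => Fb y + ε y / 2) X x :=
      (hFc x hx).add ((hεc x hx).div_const 2)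
    have hev : ∀ᶠ y in 𝓝[X] x, Fb x + ε x / 4 < Fb y + ε y / 2 :=
      hc.eventually (lt_mem_nhds (by linarith))
    obtain ⟨N, hN, hNsub⟩ := mem_nhdsWithin_iff_exists_mem_nhds_inter.1 hev
    refine ⟨O₁ ∩ interior N, hO₁.inter isOpen_interior, ⟨hxO₁, mem_interior_iff_mem_nhds.2 hN⟩,
      fun y hy => ?_, fun δ hδ => ?_⟩
    · have : y ∈ N ∩ X := ⟨interior_subset hy.2.2, hy.1⟩
      exact le_of_lt (hNsub this)
    · obtain ⟨g, h1, h2, h3⟩ := hsm δ hδ
      exact ⟨g, h1.mono Set.inter_subset_left, fun y hy => h2 y ⟨hy.1, hy.2.1⟩,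
        fun y hy => h3 y ⟨hy.1, hy.2.1⟩⟩
  choose O hOo hxO hcmp hsm using hloc
  obtain ⟨κ, hκ, k, χ, hχs, hχc, hχsub, hχ0, hlf, hone, -⟩ := if_exists_pou O hOo
  set Ω : Set W := ⋃ x, O x with hΩ
  have hΩo : IsOpen Ω := isOpen_iUnion hOo
  have hXΩ : X ⊆ Ω := fun x hx => Set.mem_iUnion.2 ⟨⟨x, hx⟩, hxO ⟨x, hx⟩⟩
  choose A hA0 hA using fun a => pk_cutoff_bound hX hXc hh (hχs a) (hχc a)
  have hm : ∀ a, ∃ m : ℝ, 0 < m ∧ ∀ y ∈ X ∩ tsupport (χ a), m ≤ ε y := by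
    intro a
    have hK : IsCompact (X ∩ tsupport (χ a)) := (hχc a).isCompact.inter_left hXc
    rcases (X ∩ tsupport (χ a)).eq_empty_or_nonempty with he | hne
    · exact ⟨1, one_pos, fun y hy => by rw [he] at hy; exact hy.elim⟩
    · obtain ⟨y₀, hy₀, hmin⟩ := hK.exists_isMinOn hne (hεc.mono Set.inter_subset_left)
      exact ⟨ε y₀, hε y₀ hy₀.1, fun y hy => hmin hy⟩
  choose m hm0 hm using hm
  obtain ⟨enc, henc⟩ := exists_injective_nat κ
  set p : κ → ℝ := fun a => ((1 : ℝ) / 2) ^ (enc a + 2) with hp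
  have hp0 : ∀ a, 0 < p a := fun a => by positivity
  have hp4 : ∀ a, p a ≤ 1 / 4 := fun a => by
    simp only [hp, pow_add]
    have : ((1 : ℝ) / 2) ^ enc a ≤ 1 := pow_le_one₀ (by norm_num) (by norm_num)
    nlinarith
  set δ : κ → ℝ := fun a => m a * p a / (1 + A a) with hδ
  have h1A : ∀ a, 0 < 1 + A a := fun a => by linarith [hA0 a]
  have hδ0 : ∀ a, 0 < δ a := fun a => div_pos (mul_pos (hm0 a) (hp0 a)) (h1A a)
  have hδA : ∀ a, δ a * (1 + A a) = m a * p a := fun a => div_mul_cancel₀ _ (h1A a).ne'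
  choose g hgs hgv hgd using fun a => hsm (k a) (δ a) (hδ0 a)
  set G : W → ℝ := fun x => ∑ᶠ a, χ a x * g a x with hG
  have hGs : SmoothAlong d X G := by
    refine if_smoothAlong_of_near ⟨Ω, hΩo, hXΩ, fun x hx => ContDiffAt.contDiffWithinAt ?_⟩
    exact if_glue (fun a => O (k a)) (fun a => hOo _) g hgs id χ hχs hχsub hlf x hx
  have key : ∀ y ∈ X, |G y - f y| ≤ ε y / 4 ∧ DifferentiableAt ℝ G y ∧
      ∀ w, TanAt d X y w → (fderiv ℝ G y w) ^ 2 ≤ (Fb y + ε y) ^ 2 * h y w w := by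
    intro y hy
    have hεy := hε y hy
    obtain ⟨s, -, hst, hs1, hsv, hsd, hsf⟩ := pk_glue_fderiv hΩo (fun a => O (k a))
      (fun a => hOo _) g hgs χ hχs hχsub hlf hone (hXΩ hy) (f y)
    have hyO : ∀ a ∈ s, y ∈ X ∩ O (k a) := fun a ha => ⟨hy, hχsub a (hst a ha)⟩
    have hmy : ∀ a ∈ s, m a ≤ ε y := fun a ha => hm a y ⟨hy, hst a ha⟩
    have hval : ∀ a ∈ s, |g a y - f y| ≤ δ a := fun a ha => hgv a y (hyO a ha)
    have hδ1 : ∀ a ∈ s, δ a ≤ ε y * p a := fun a ha => by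
      have h1 := hδA a
      have h2 := mul_le_mul_of_nonneg_right (hmy a ha) (hp0 a).le
      have h3 := mul_nonneg (hδ0 a).le (hA0 a)
      nlinarith
    have hδ2 : ∀ a ∈ s, A a * δ a ≤ ε y * p a := fun a ha => by
      have h1 := hδA a
      have h2 := mul_le_mul_of_nonneg_right (hmy a ha) (hp0 a).le
      have h3 := (hδ0 a).le
      nlinarith
    refine ⟨?_, hsd, fun w hw => ?_⟩
    · have e1 : G y - f y = ∑ a ∈ s, χ a y * (g a y - f y) := by
        simp only [hG]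
        rw [hsv]
        simp only [mul_sub, Finset.sum_sub_distrib, ← Finset.sum_mul, hs1, one_mul]
      rw [e1]
      calc |∑ a ∈ s, χ a y * (g a y - f y)| ≤ ∑ a ∈ s, |χ a y * (g a y - f y)| :=
            Finset.abs_sum_le_sum_abs _ _
        _ ≤ ∑ a ∈ s, χ a y * (ε y / 4) := by
            refine Finset.sum_le_sum fun a ha => ?_
            rw [abs_mul, abs_of_nonneg (hχ0 a y)]
            refine mul_le_mul_of_nonneg_left ?_ (hχ0 a y)
            have := mul_le_mul_of_nonneg_left (hp4 a) hεy.le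
            linarith [hval a ha, hδ1 a ha]
        _ = ε y / 4 := by rw [← Finset.sum_mul, hs1, one_mul]
    · have hH := hw.met_nonneg hh
      set R : ℝ := Real.sqrt (h y w w) with hR
      have hR0 : 0 ≤ R := Real.sqrt_nonneg _
      have hFy := hF0 y hy
      have b1 : ∀ a ∈ s, |fderiv ℝ (g a) y w| ≤ (Fb y + ε y / 2) * R := fun a ha => by
        have hk0 : 0 ≤ Fb (k a) + ε (k a) / 4 := by
          have := hF0 _ (k a).2
          have := hε _ (k a).2
          linarith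
        exact (pk_abs_le_of_sq_le hk0 (hgd a y (hyO a ha) w hw)).trans
          (mul_le_mul_of_nonneg_right (hcmp (k a) y (hyO a ha)) hR0)
      have b2 : ∀ a ∈ s, |fderiv ℝ (χ a) y w| ≤ A a * R := fun a _ =>
        pk_abs_le_of_sq_le (hA0 a) (hA a y hy w hw)
      have b3 : |fderiv ℝ G y w| ≤ (Fb y + ε y) * R := by
        rw [hsf w]
        calc _ ≤ |∑ a ∈ s, χ a y * fderiv ℝ (g a) y w| +
              |∑ a ∈ s, fderiv ℝ (χ a) y w * (g a y - f y)| := abs_add_le _ _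
          _ ≤ ∑ a ∈ s, χ a y * ((Fb y + ε y / 2) * R) + ∑ a ∈ s, (ε y * R) * p a := by
              refine add_le_add ((Finset.abs_sum_le_sum_abs _ _).trans
                (Finset.sum_le_sum fun a ha => ?_)) ((Finset.abs_sum_le_sum_abs _ _).trans
                (Finset.sum_le_sum fun a ha => ?_))
              · rw [abs_mul, abs_of_nonneg (hχ0 a y)]
                exact mul_le_mul_of_nonneg_left (b1 a ha) (hχ0 a y)
              · rw [abs_mul]
                calc |fderiv ℝ (χ a) y w| * |g a y - f y| ≤ (A a * R) * δ a :=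
                      mul_le_mul (b2 a ha) (hval a ha) (abs_nonneg _)
                        (mul_nonneg (hA0 a) hR0)
                  _ = (A a * δ a) * R := by ring
                  _ ≤ (ε y * p a) * R := mul_le_mul_of_nonneg_right (hδ2 a ha) hR0
                  _ = _ := by ring
          _ = (Fb y + ε y / 2) * R + (ε y * R) * ∑ a ∈ s, p a := by
              rw [← Finset.sum_mul, hs1, one_mul, Finset.mul_sum]
          _ ≤ (Fb y + ε y / 2) * R + (ε y * R) * (1 / 2) :=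
              add_le_add le_rfl (mul_le_mul_of_nonneg_left (pk_sum_geom_le henc s)
                (mul_nonneg hεy.le hR0))
          _ = _ := by ring
      calc (fderiv ℝ G y w) ^ 2 = |fderiv ℝ G y w| ^ 2 := (sq_abs _).symm
        _ ≤ ((Fb y + ε y) * R) ^ 2 := pow_le_pow_left₀ (abs_nonneg _) b3 2
        _ = _ := by rw [mul_pow, hR, Real.sq_sqrt hH]
  refine ⟨G, hGs, fun x hx => (key x hx).1.trans (by linarith [hε x hx]), fun x hx => ?_⟩
  exact pk_gradSq_le hX hh hGs hx (key x hx).2.1 (sq_nonneg _) (key x hx).2.2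

end Claimed.Agent.R315
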